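import Vale.Agent.Lib.P193.Two.CovBase

/-!
# P193 part II, section 4: the covering is connected.
-/

namespace P193

universe u v w

variable {R : Type u} [Ring R] [CharP R 2] {κ : Type v}

private lemma CovConn_symm {a b : VV κ R} (h : Relation.ReflTransGen vadj a b) :
    Relation.ReflTransGen vadj b a := by
  induction h with
  | refl => exact Relation.ReflTransGen.refl
  | tail _ hbc ih => exact Relation.ReflTransGen.head (vadj_symm hbc) ih

private lemma CovConn_smul (g : St (I3 κ) R) {a b : VV κ R}
    (h : Relation.ReflTransGen vadj a b) : Relation.ReflTransGen vadj (g • a) (g • b) := by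
  induction h with
  | refl => exact Relation.ReflTransGen.refl
  | tail _ hbc ih => exact ih.tail (vadj_smul g hbc)

private lemma CovConn_memH (i j : Option (Option κ)) (r : R) :
    (St.x (some i) (some j) r : St (I3 κ) R) ∈ Hsub (Option (Option κ)) R :=
  ⟨St.x i j r, St.mapIdx_x _ i j r⟩

/-- an element `x` with `w_(k,n) x w_(k,n)⁻¹ ∈ H` moves `v_n` inside its component -/
private lemma CovConn_fix (k : Option (Option κ)) (x : St (I3 κ) R)
    (h : St.w (some k) none 1 * x * (St.w (some k) none 1)⁻¹ ∈ Hsub (Option (Option κ)) R) :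
    Relation.ReflTransGen vadj ((1 : St (I3 κ) R) : VV κ R) (x • ((1 : St (I3 κ) R) : VV κ R)) := by
  have hfix : x • (vtx k : VV κ R) = vtx k := by
    show ((x * St.w (some k) none 1 : St (I3 κ) R) : VV κ R)
      = ((St.w (some k) none 1 : St (I3 κ) R) : VV κ R)
    apply Eq.symm
    rw [QuotientGroup.eq, St.w_inv, ← mul_assoc]
    rw [St.w_inv] at h
    exact h
  have h1 : Relation.ReflTransGen vadj ((1 : St (I3 κ) R) : VV κ R) (vtx k) :=
    Relation.ReflTransGen.single (vadj_base k)
  have h2 := CovConn_smul x h1
  rw [hfix] at h2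
  exact h1.trans (CovConn_symm h2)

private lemma CovConn_exists_ne (i : Option (Option κ)) : ∃ k : Option (Option κ), k ≠ i := by
  by_cases h : i = none
  · exact ⟨some none, fun h2 => Option.some_ne_none _ (h2.trans h)⟩
  · exact ⟨none, fun h2 => h h2.symm⟩

private lemma CovConn_gen (i j : I3 κ) (r : R) :
    Relation.ReflTransGen vadj ((1 : St (I3 κ) R) : VV κ R)
      ((St.x i j r : St (I3 κ) R) • ((1 : St (I3 κ) R) : VV κ R)) := by
  rcases i with _ | i
  · rcases j with _ | j
    · rw [St.diag, one_smul]
    · obtain ⟨k, hk⟩ := CovConn_exists_ne j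
      apply CovConn_fix k
      have h3 : (some k : I3 κ) ≠ some j := fun h => hk (Option.some.inj h)
      rw [St.w_conj1 (some k) none (some j) (Option.some_ne_none k) (Option.some_ne_none j).symm h3]
      exact CovConn_memH k j _
  · rcases j with _ | j
    · obtain ⟨k, hk⟩ := CovConn_exists_ne i
      apply CovConn_fix k
      have h3 : (some k : I3 κ) ≠ some i := fun h => hk (Option.some.inj h)
      rw [St.w_conj2 (some k) none (some i) (Option.some_ne_none k) (Option.some_ne_none i).symm h3]
      exact CovConn_memH i k _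
    · have h : (St.x (some i) (some j) r : St (I3 κ) R) • ((1 : St (I3 κ) R) : VV κ R)
          = ((1 : St (I3 κ) R) : VV κ R) := by
        show ((St.x (some i) (some j) r * 1 : St (I3 κ) R) : VV κ R) = _
        apply Eq.symm
        rw [QuotientGroup.eq, inv_one, one_mul, mul_one]
        exact CovConn_memH i j r
      rw [h]

private lemma CovConn_all (g : St (I3 κ) R) :
    Relation.ReflTransGen vadj ((1 : St (I3 κ) R) : VV κ R)
      (g • ((1 : St (I3 κ) R) : VV κ R)) := by
  have hg : g ∈ Subgroup.closure {g : St (I3 κ) R | ∃ i j r, g = St.x i j r} := by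
    rw [St.closure_eq_top]
    exact Subgroup.mem_top g
  induction hg using Subgroup.closure_induction with
  | mem x hx =>
    obtain ⟨i, j, r, rfl⟩ := hx
    exact CovConn_gen i j r
  | one => rw [one_smul]
  | mul x y _ _ hx hy =>
    have h := CovConn_smul x hy
    rw [← mul_smul] at h
    exact hx.trans h
  | inv x _ hx =>
    have h := CovConn_smul x⁻¹ hx
    rw [inv_smul_smul] at h
    exact CovConn_symm h

/-- connectedness: the set of all `b` reachable from `v_n` is stable under `H` and under the generators `x_in(r)`, `x_ni(r)`, since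
these fix `v_k` for `k ≠ i, n` (`w_(k,n)⁻¹ x_in(r) w_(k,n) = x_ik(r) ∈ H`) -/
theorem vadj_conn (a b : VV κ R) : Relation.ReflTransGen vadj a b := by
  have key : ∀ c : VV κ R, Relation.ReflTransGen vadj ((1 : St (I3 κ) R) : VV κ R) c := by
    intro c
    obtain ⟨g, rfl⟩ := QuotientGroup.mk_surjective c
    have h := CovConn_all (κ := κ) g
    have h2 : g • ((1 : St (I3 κ) R) : VV κ R) = ((g : St (I3 κ) R) : VV κ R) := by
      show ((g * 1 : St (I3 κ) R) : VV κ R) = _
      rw [mul_one]
    rw [h2] at h
    exact h
  exact (CovConn_symm (key a)).trans (key b)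

end P193
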