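import Vale.Agent.Lib.P193.Two.CovSub

/-!
# P193 part II, section 4: coverings are trivial.
-/

namespace P193

universe u v

variable {R : Type u} [Ring R] {V : Type v} (C : Cov R V)

/-- one step: `s'` a sub-lift of `c` (`exists_sub` through `b`), `s ~ s'` (`sub_adj_sub`), `Tri (p s) (p s') z` with room `y`, so
`s' ~ x` (tri at `s`). -/
theorem Cov.step_common (hL : HLeavitt R) (hS : HScal R) (a z y : Isom R) (hzy : Orth z y)
    {b c : V} (hbc : C.adj b c) (hb : Orth (C.p b * a) z ∧ Orth (C.p b * a) y)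
    (hc : Orth (C.p c * a) z ∧ Orth (C.p c * a) y) {s x : V} (hs : C.Sub a b s)
    (hx : C.adj s x) (hpx : C.p x = z) : ∃ s', C.Sub a c s' ∧ C.adj s' x := by
  obtain ⟨s', h1, h2⟩ := C.exists_sub a (C.symm hbc)
  have hs' : C.Sub a c s' := ⟨b, C.symm hbc, h1, h2⟩
  have hss : C.adj s s' := C.sub_adj_sub hL hS a hs hs' hbc
  have hps : C.p s = C.p b * a := hs.choose_spec.2.2
  refine ⟨s', hs', C.tri hss hx ⟨(C.adj_p hss).1, ?_, ?_, y, ?_, ?_, ?_⟩⟩
  · rw [hpx, hps]
    exact hb.1
  · rw [hpx, h2]
    exact hc.1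
  · rw [hps]
    exact hb.2
  · rw [h2]
    exact hc.2
  · rw [hpx]
    exact hzy

/-- a path only involves finitely many isometries (induction on the path) -/
theorem Cov.exists_finset {v v' : V} (h : Relation.ReflTransGen C.adj v v') :
    ∃ T : Finset (Isom R),
      Relation.ReflTransGen (fun b c => C.adj b c ∧ C.p b ∈ T ∧ C.p c ∈ T) v v' := by
  classical
  induction h with
  | refl => exact ⟨∅, Relation.ReflTransGen.refl⟩
  | @tail b c _ hbc ih =>
    obtain ⟨T, hT⟩ := ih
    refine ⟨T ∪ {C.p b, C.p c}, Relation.ReflTransGen.tail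
      (Relation.ReflTransGen.mono (fun d e hde => ⟨hde.1, Finset.mem_union_left _ hde.2.1,
        Finset.mem_union_left _ hde.2.2⟩) _ _ hT) ⟨hbc, ?_, ?_⟩⟩
    · exact Finset.mem_union_right _ (Finset.mem_insert_self _ _)
    · exact Finset.mem_union_right _ (Finset.mem_insert_of_mem (Finset.mem_singleton_self _))

/-- a covering is injective: for `p v = p v'` take a path from `v` to `v'` (`exists_finset`), `a, z, y` from
`exists_generic_sub` for `T`. If the path is not trivial, `v` has a neighbour and a sub-lift `s`, `s ~ x` over `z` (`C.lift`); by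
`step_common` and induction on the path `x` is adjacent to a sub-lift `s'` of `v'`; `s`, `s'` lie over the same isometry
`p v * a`, so `s = s'` (uniq at `x`), `v = v'` (`sub_inj`). -/
theorem Cov.injective (hL : HLeavitt R) (hS : HScal R) : Function.Injective C.p := by
  intro v v' hp
  obtain ⟨T, hT⟩ := C.exists_finset (C.conn v v')
  obtain ⟨a, z, y, hzy, hgen⟩ := exists_generic_sub hL hS T
  rcases Relation.ReflTransGen.cases_head hT with h | ⟨c, ⟨hvc, hvT, hcT⟩, _⟩
  · exact h
  · rename_i hrest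
    clear hrest
    obtain ⟨s, h1, h2⟩ := C.exists_sub a hvc
    have hs : C.Sub a v s := ⟨c, hvc, h1, h2⟩
    have hadj : Adj (C.p s) z := by
      rw [h2]
      exact ⟨(hgen _ hvT).1, y, (hgen _ hvT).2, hzy⟩
    obtain ⟨x, hx, hpx⟩ := C.lift s z hadj
    have key : ∃ s', C.Sub a v' s' ∧ C.adj s' x := by
      clear hp
      induction hT with
      | refl => exact ⟨s, hs, hx⟩
      | tail _ hbc ih =>
        obtain ⟨s', hs', hx'⟩ := ih
        exact C.step_common hL hS a z y hzy hbc.1 (hgen _ hbc.2.1) (hgen _ hbc.2.2) hs' hx' hpx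
    obtain ⟨s', hs', hx'⟩ := key
    have hss : s = s' := C.uniq (C.symm hx) (C.symm hx') (by
      rw [h2, hs'.choose_spec.2.2, hp])
    rw [← hss] at hs'
    exact C.sub_inj hL hS a hs hs' hp

end P193
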