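import Vale.Agent.Lib.P193.Two.CovTri
import Vale.Agent.Lib.P193.Two.CovConn
import Vale.Agent.Lib.P193.Two.CovMain

/-!
# P193 part II, section 4: CLAIM 2.
-/

namespace P193

universe u v w

variable {R : Type u} [Ring R] [CharP R 2] {κ : Type v} [Fintype κ] [DecidableEq κ] [Nontrivial κ]

/-- the covering -/
noncomputable def theCov (hL : HLeavitt R) (hS : HScal R) (hR : HRep R) (τ : I3 κ → Isom R)
    (hτ : IsLF τ) : Cov R (VV κ R) where
  adj := vadj
  p := vp τ hτ.1
  symm := vadj_symm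
  adj_p := vadj_vp τ hτ.1
  lift := vlift hL hS hR τ hτ
  uniq := vuniq hL hS hR τ hτ
  tri := vtri hL hS hR τ hτ
  conn := vadj_conn

/-- CLAIM 2: `rep x = 1`: `vp (x H) = τ_n = vp H`, so `x ∈ H` (`Cov.injective`), and `x = 1` (`rep_inj_H`); surjective:
`rep_surjective`. -/
theorem rep_bijective (hL : HLeavitt R) (hS : HScal R) (hR : HRep R) (τ : I3 κ → Isom R)
    (hτ : IsLF τ) : Function.Bijective (rep τ hτ.1) := by
  refine ⟨?_, rep_surjective hL hS hR τ hτ⟩
  rw [injective_iff_map_eq_one]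
  intro x hx
  have h1 : vp τ hτ.1 ((x : St (I3 κ) R) : VV κ R) = vp τ hτ.1 ((1 : St (I3 κ) R) : VV κ R) := by
    rw [vp_mk, vp_mk, hx, map_one]
  have h2 : ((x : St (I3 κ) R) : VV κ R) = ((1 : St (I3 κ) R) : VV κ R) :=
    (theCov hL hS hR τ hτ).injective hL hS h1
  have h3 : x ∈ Hsub (Option (Option κ)) R := by
    have h4 := QuotientGroup.eq.1 h2.symm
    rwa [inv_one, one_mul] at h4
  refine rep_inj_H hR ?_ τ hτ.1 x h3 hx
  have h5 : 1 < Fintype.card κ := Fintype.one_lt_card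
  rw [Fintype.card_option, Fintype.card_option]
  omega

end P193
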