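import Vale.Agent.Lib.P193.Two.KMFree

/-!
# P193 part II, section 5: `St ι (FreeAlgebra (ZMod 2) X)` is finitely presented.
-/

namespace P193

universe u v w

open scoped commutatorElement

variable {ι : Type v} [Fintype ι]

private abbrev KMFpRels (ι : Type v) (X : Type u) : Set (FreeGroup (ι × ι × Option X)) :=
  Set.range (fun p : ι × Option X => FreeGroup.of (p.1, p.1, p.2)) ∪
  (Set.range (fun p : ι × ι × Option X => FreeGroup.of p * FreeGroup.of p) ∪
  (Set.range (fun p : {p : (ι × ι × Option X) × (ι × ι × Option X) //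
      p.1.1 ≠ p.1.2.1 ∧ p.2.1 ≠ p.2.2.1 ∧ p.1.2.1 ≠ p.2.1 ∧ p.1.1 ≠ p.2.2.1} =>
      ⁅FreeGroup.of p.1.1, FreeGroup.of p.1.2⁆) ∪
  (Set.range (fun p : {p : ι × ι × ι × Option X //
      p.1 ≠ p.2.1 ∧ p.2.1 ≠ p.2.2.1 ∧ p.1 ≠ p.2.2.1} =>
      ⁅(FreeGroup.of (p.1.1, p.1.2.1, none) : FreeGroup (ι × ι × Option X)),
        FreeGroup.of (p.1.2.1, p.1.2.2.1, p.1.2.2.2)⁆ *
        (FreeGroup.of (p.1.1, p.1.2.2.1, p.1.2.2.2))⁻¹) ∪
  Set.range (fun p : {p : ι × ι × ι × Option X //
      p.1 ≠ p.2.1 ∧ p.2.1 ≠ p.2.2.1 ∧ p.1 ≠ p.2.2.1} =>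
      ⁅(FreeGroup.of (p.1.1, p.1.2.1, p.1.2.2.2) : FreeGroup (ι × ι × Option X)),
        FreeGroup.of (p.1.2.1, p.1.2.2.1, none)⁆ *
        (FreeGroup.of (p.1.1, p.1.2.2.1, p.1.2.2.2))⁻¹))))

private theorem KMFp_finite (ι : Type v) [Finite ι] (X : Type u) [Finite X] :
    (KMFpRels ι X).Finite :=
  (Set.finite_range _).union ((Set.finite_range _).union ((Set.finite_range _).union
    ((Set.finite_range _).union (Set.finite_range _))))

/-- the tautological data -/
private def KMFpData (ι : Type v) (X : Type u) :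
    KMData ι X (PresentedGroup (KMFpRels ι X)) where
  x i j a := PresentedGroup.of (i, j, a)
  diag i a := PresentedGroup.one_of_mem (Or.inl ⟨(i, a), rfl⟩)
  sq i j a := by
    have h : PresentedGroup.mk (KMFpRels ι X) (FreeGroup.of (i, j, a) * FreeGroup.of (i, j, a)) = 1 :=
      PresentedGroup.one_of_mem (Or.inr (Or.inl ⟨(i, j, a), rfl⟩))
    rw [map_mul] at h
    exact h
  comm1 i j k l a b h1 h2 h3 h4 := by
    have h : PresentedGroup.mk (KMFpRels ι X) ⁅FreeGroup.of (i, j, a), FreeGroup.of (k, l, b)⁆ = 1 :=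
      PresentedGroup.one_of_mem
        (Or.inr (Or.inr (Or.inl ⟨⟨((i, j, a), (k, l, b)), h1, h2, h3, h4⟩, rfl⟩)))
    rw [map_commutatorElement] at h
    exact commutatorElement_eq_one_iff_commute.1 h
  comm3l i j k a h1 h2 h3 := by
    have h : PresentedGroup.mk (KMFpRels ι X) (⁅FreeGroup.of (i, j, none),
        FreeGroup.of (j, k, a)⁆ * (FreeGroup.of (i, k, a))⁻¹) = 1 :=
      PresentedGroup.one_of_mem
        (Or.inr (Or.inr (Or.inr (Or.inl ⟨⟨(i, j, k, a), h1, h2, h3⟩, rfl⟩))))
    rw [map_mul, map_inv, mul_inv_eq_one, map_commutatorElement] at h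
    exact h
  comm3r i j k a h1 h2 h3 := by
    have h : PresentedGroup.mk (KMFpRels ι X) (⁅FreeGroup.of (i, j, a),
        FreeGroup.of (j, k, none)⁆ * (FreeGroup.of (i, k, a))⁻¹) = 1 :=
      PresentedGroup.one_of_mem
        (Or.inr (Or.inr (Or.inr (Or.inr ⟨⟨(i, j, k, a), h1, h2, h3⟩, rfl⟩))))
    rw [map_mul, map_inv, mul_inv_eq_one, map_commutatorElement] at h
    exact h

/-- universal property of `KMFpRels` -/
private def KMFpLift {X : Type u} {G : Type w} [Group G] (D : KMData ι X G) :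
    PresentedGroup (KMFpRels ι X) →* G :=
  PresentedGroup.toGroup (f := fun p : ι × ι × Option X => D.x p.1 p.2.1 p.2.2) (by
    rintro a (⟨⟨i, a⟩, rfl⟩ | ⟨⟨i, j, a⟩, rfl⟩ | ⟨⟨⟨⟨i, j, a⟩, ⟨k, l, b⟩⟩, h1, h2, h3, h4⟩, rfl⟩ |
      ⟨⟨⟨i, j, k, a⟩, h1, h2, h3⟩, rfl⟩ | ⟨⟨⟨i, j, k, a⟩, h1, h2, h3⟩, rfl⟩)
    · simp [D.diag]
    · simp [D.sq]
    · simpa [map_commutatorElement] using (D.comm1 i j k l a b h1 h2 h3 h4).commutator_eq
    · simp [map_commutatorElement, D.comm3l i j k a h1 h2 h3]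
    · simp [map_commutatorElement, D.comm3r i j k a h1 h2 h3])

omit [Fintype ι] in
private theorem KMFpLift_of {X : Type u} {G : Type w} [Group G] (D : KMData ι X G)
    (i j : ι) (a : Option X) : KMFpLift D (PresentedGroup.of (i, j, a)) = D.x i j a :=
  PresentedGroup.toGroup.of _

/-- the letters in the free algebra -/
private def KMFpLet {X : Type u} : Option X → FreeAlgebra (ZMod 2) X
  | none => 1
  | some a => FreeAlgebra.ι (ZMod 2) a

private theorem KMFp_add_self {X : Type u} (r : FreeAlgebra (ZMod 2) X) : r + r = 0 := by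
  have := charP_two_of_algebra (FreeAlgebra (ZMod 2) X)
  exact CharTwo.add_self_eq_zero r

/-- the data in the Steinberg group of the free algebra -/
private def KMFpSt (ι : Type v) (X : Type u) : KMData ι X (St ι (FreeAlgebra (ZMod 2) X)) where
  x i j a := St.x i j (KMFpLet a)
  diag i a := St.diag i _
  sq i j a := by rw [St.add, KMFp_add_self, St.x_zero]
  comm1 i j k l a b h1 h2 h3 h4 := St.comm1 i j k l _ _ h1 h2 h3 h4
  comm3l i j k a h1 h2 h3 := by
    rw [St.comm3 i j k _ _ h1 h2 h3]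
    simp [KMFpLet]
  comm3r i j k a h1 h2 h3 := by
    rw [St.comm3 i j k _ _ h1 h2 h3]
    simp [KMFpLet]

/-- Let `P` be the group with generators `ι × ι × Option X` and the finitely many relators of `KMData` (define the relators as an
inductive predicate as in `StRel`; the set is finite: it is contained in a finite union of images of finite types). It is finitely
presented (instance for `PresentedGroup`). By `exists_stData_free` there is a homomorphism `St → P`, and `P → St` by the universal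
property of `P`; they are inverse to each other (`closure_letters`). `Group.IsFinitelyPresented.equiv`. -/
theorem st_free_fp (h5 : 5 ≤ Fintype.card ι) (n : ℕ) :
    Group.IsFinitelyPresented (St ι (FreeAlgebra (ZMod 2) (Fin n))) := by
  have hfin : Finite (KMFpRels ι (Fin n)) := KMFp_finite ι (Fin n)
  have hP : Group.IsFinitelyPresented (PresentedGroup (KMFpRels ι (Fin n))) := inferInstance
  obtain ⟨S, hS1, hS2⟩ := exists_stData_free h5 (KMFpData ι (Fin n))
  set f : PresentedGroup (KMFpRels ι (Fin n)) →* St ι (FreeAlgebra (ZMod 2) (Fin n)) :=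
    KMFpLift (KMFpSt ι (Fin n)) with hf
  set g : St ι (FreeAlgebra (ZMod 2) (Fin n)) →* PresentedGroup (KMFpRels ι (Fin n)) :=
    St.lift S with hg
  have hSx : ∀ i j a, S.x i j (KMFpLet a) = PresentedGroup.of (i, j, a) := by
    intro i j a
    cases a with
    | none => exact hS1 i j
    | some a => exact hS2 i j a
  have hgf : g.comp f = MonoidHom.id _ := by
    refine PresentedGroup.ext fun ⟨i, j, a⟩ => ?_
    rw [MonoidHom.comp_apply, hf, KMFpLift_of, hg]
    exact (St.lift_x S i j _).trans (hSx i j a)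
  have hfg : f.comp g = MonoidHom.id _ := by
    have hfx : ∀ i j a, f (g (St.x i j (KMFpLet a))) = St.x i j (KMFpLet a) := by
      intro i j a
      rw [hg, St.lift_x, hSx, hf, KMFpLift_of]
      rfl
    refine MonoidHom.eq_of_eqOn_top ?_
    rw [← closure_letters h5 (Fin n)]
    refine MonoidHom.eqOn_closure ?_
    rintro _ ⟨i, j, rfl | ⟨a, rfl⟩⟩
    · exact hfx i j none
    · exact hfx i j (some a)
  exact Group.IsFinitelyPresented.equiv (MonoidHom.toMulEquiv f g hgf hfg)

end P193
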