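import Vale.Agent.Lib.P193.Two.StMap

/-!
# P193 part II, section 5: the kernel of `St ι A → St ι R` for `R = A / (rel)`.
-/

namespace P193

universe u v w

open scoped commutatorElement

variable {ι : Type v} [Fintype ι] {A R : Type u} [Ring A] [Ring R]

omit [Fintype ι] in
private theorem kmQuot_neg (i j : ι) (y : A) : St.x i j (-y) = (St.x i j y)⁻¹ := by
  have h := St.add i j y (-y)
  rw [add_neg_cancel, St.x_zero] at h
  exact (inv_eq_of_mul_eq_one_right h).symm

private theorem kmQuot_third (h3 : 3 ≤ Fintype.card ι) (i j : ι) : ∃ k : ι, k ≠ i ∧ k ≠ j := by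
  classical
  have h : ({i, j} : Finset ι).card < Fintype.card ι :=
    lt_of_le_of_lt Finset.card_le_two (by omega)
  obtain ⟨k, hk⟩ : ∃ k, k ∉ ({i, j} : Finset ι) := by
    by_contra hcon
    push Not at hcon
    have h2 : ({i, j} : Finset ι) = Finset.univ := Finset.eq_univ_iff_forall.2 hcon
    rw [h2, Finset.card_univ] at h
    exact lt_irrefl _ h
  simp only [Finset.mem_insert, Finset.mem_singleton, not_or] at hk
  exact ⟨k, hk.1, hk.2⟩

/-- the normal closure of the `x_ij(ρ)` contains all `x_ij(a ρ b)` (`x_ij(a ρ) = ⁅x_ik(a), x_kj(ρ)⁆`, `x_ij(a ρ b) = ⁅x_ik(a ρ), x_kj(b)⁆`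
with a third index `k`), hence all `x_ij(y)` with `y` in the additive closure -/
theorem mem_normalClosure (h3 : 3 ≤ Fintype.card ι) (rel : Finset A) (i j : ι) (y : A)
    (hy : y ∈ AddSubgroup.closure {z | ∃ a b, ∃ ρ ∈ rel, z = a * ρ * b}) :
    St.x i j y ∈ Subgroup.normalClosure {g : St ι A | ∃ i j, ∃ ρ ∈ rel, g = St.x i j ρ} := by
  set N := Subgroup.normalClosure {g : St ι A | ∃ i j, ∃ ρ ∈ rel, g = St.x i j ρ} with hN
  have hNn : N.Normal := Subgroup.normalClosure_normal
  have h0 : ∀ (i j : ι), ∀ ρ ∈ rel, St.x i j ρ ∈ N := fun i j ρ hρ =>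
    Subgroup.subset_normalClosure ⟨i, j, ρ, hρ, rfl⟩
  have h1 : ∀ (i j : ι) (a : A), ∀ ρ ∈ rel, St.x i j (a * ρ) ∈ N := by
    intro i j a ρ hρ
    by_cases hij : i = j
    · subst hij
      rw [St.diag]
      exact N.one_mem
    · obtain ⟨k, hki, hkj⟩ := kmQuot_third h3 i j
      rw [← St.comm3 i k j a ρ (Ne.symm hki) hkj hij, commutatorElement_def]
      exact N.mul_mem (hNn.conj_mem _ (h0 k j ρ hρ) _) (N.inv_mem (h0 k j ρ hρ))
  have h2 : ∀ (i j : ι) (a b : A), ∀ ρ ∈ rel, St.x i j (a * ρ * b) ∈ N := by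
    intro i j a b ρ hρ
    by_cases hij : i = j
    · subst hij
      rw [St.diag]
      exact N.one_mem
    · obtain ⟨k, hki, hkj⟩ := kmQuot_third h3 i j
      rw [← St.comm3 i k j (a * ρ) b (Ne.symm hki) hkj hij, commutatorElement_def, mul_assoc,
        mul_assoc, ← mul_assoc (St.x k j b)]
      exact N.mul_mem (h1 i k a ρ hρ) (hNn.conj_mem _ (N.inv_mem (h1 i k a ρ hρ)) _)
  induction hy using AddSubgroup.closure_induction with
  | mem z hz =>
    obtain ⟨a, b, ρ, hρ, rfl⟩ := hz
    exact h2 i j a b ρ hρ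
  | zero =>
    rw [St.x_zero]
    exact N.one_mem
  | add y z _ _ hy hz =>
    rw [← St.add]
    exact N.mul_mem hy hz
  | neg y _ hy =>
    rw [kmQuot_neg]
    exact N.inv_mem hy

/-- `f : A → R` surjective with kernel generated by the finite set `rel`: the kernel of `St ι A → St ι R` is the normal closure
`N` of the finitely many `x_ij(ρ)`: build the inverse `St ι R → St ι A ⧸ N`, `x_ij(r) ↦ x_ij(a)` for any `a` with `f a = r`
(well defined by `mem_normalClosure`). -/
theorem ker_mapRing (h3 : 3 ≤ Fintype.card ι) (f : A →+* R) (hf : Function.Surjective f)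
    (rel : Finset A) (h0 : ∀ ρ ∈ rel, f ρ = 0)
    (hk : ∀ y, f y = 0 → y ∈ AddSubgroup.closure {z | ∃ a b, ∃ ρ ∈ rel, z = a * ρ * b}) :
    (St.mapRing (ι := ι) (f : A →ₙ+* R)).ker =
      Subgroup.normalClosure {g : St ι A | ∃ i j, ∃ ρ ∈ rel, g = St.x i j ρ} := by
  set N := Subgroup.normalClosure {g : St ι A | ∃ i j, ∃ ρ ∈ rel, g = St.x i j ρ} with hN
  have hNn : N.Normal := Subgroup.normalClosure_normal
  have key : ∀ (i j : ι) (a b : A), f a = f b →
      (QuotientGroup.mk' N) (St.x i j a) = (QuotientGroup.mk' N) (St.x i j b) := by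
    intro i j a b hab
    have h1 : f (a - b) = 0 := by rw [map_sub, hab, sub_self]
    have h2 := mem_normalClosure h3 rel i j (a - b) (hk _ h1)
    have h4 : St.x i j a = St.x i j (a - b) * St.x i j b := by
      rw [St.add, sub_add_cancel]
    have h5 : (QuotientGroup.mk' N) (St.x i j (a - b)) = 1 :=
      (QuotientGroup.eq_one_iff _).2 h2
    rw [h4, map_mul, h5, one_mul]
  obtain ⟨s, hs⟩ := hf.hasRightInverse
  let D : StData ι R (St ι A ⧸ N) :=
    { x := fun i j r => (QuotientGroup.mk' N) (St.x i j (s r))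
      diag := fun i r => by rw [St.diag, map_one]
      add := fun i j r t => by
        rw [← map_mul, St.add]
        exact key i j _ _ (by rw [map_add, hs, hs, hs])
      comm3 := fun i j k r t h1 h2 h4 => by
        rw [← map_commutatorElement, St.comm3 i j k _ _ h1 h2 h4]
        exact key i k _ _ (by rw [map_mul, hs, hs, hs])
      comm1 := fun i j k l r t h1 h2 h4 h5 =>
        (St.comm1 i j k l (s r) (s t) h1 h2 h4 h5).map (QuotientGroup.mk' N) }
  have hD : (St.lift D).comp (St.mapRing (ι := ι) (f : A →ₙ+* R)) = QuotientGroup.mk' N := by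
    refine St.hom_ext fun i j a => ?_
    rw [MonoidHom.comp_apply, St.mapRing_x, St.lift_x]
    exact key i j _ _ (hs (f a))
  apply le_antisymm
  · intro y hy
    rw [MonoidHom.mem_ker] at hy
    have h1 : (QuotientGroup.mk' N) y = 1 := by
      rw [← hD, MonoidHom.comp_apply, hy, map_one]
    exact (QuotientGroup.eq_one_iff _).1 h1
  · refine Subgroup.normalClosure_le_normal ?_
    rintro _ ⟨i, j, ρ, hρ, rfl⟩
    show St.mapRing (ι := ι) (f : A →ₙ+* R) (St.x i j ρ) = 1
    rw [St.mapRing_x]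
    show St.x i j (f ρ) = 1
    rw [h0 ρ hρ, St.x_zero]

/-- the map `St ι A → St ι R` is surjective -/
theorem mapRing_surjective (f : A →+* R) (hf : Function.Surjective f) :
    Function.Surjective (St.mapRing (ι := ι) (f : A →ₙ+* R)) := by
  rw [← MonoidHom.range_eq_top, eq_top_iff, ← St.closure_eq_top, Subgroup.closure_le]
  rintro _ ⟨i, j, r, rfl⟩
  obtain ⟨a, rfl⟩ := hf r
  exact ⟨St.x i j a, St.mapRing_x _ _ _ _⟩

end P193
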