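import Vale.Agent.Lib.P193.Two.SimpC
import Vale.Agent.Lib.P193.Two.Claim2
import Vale.Agent.Lib.P193.Two.KMFp
import Vale.Agent.Lib.P193.Two.KMQuot

/-!
# P193 part II: the main theorem.
-/

namespace P193

universe u v

variable {R : Type} [Ring R] [Algebra (ZMod 2) R]

/-- Steinberg groups of finitely presented algebras are finitely presented: `st_free_fp`, `ker_mapRing`,
`Group.IsFinitelyPresented.of_surjective`. -/
theorem st_fp {ι : Type v} [Fintype ι] (h5 : 5 ≤ Fintype.card ι) (h : FinPres R) :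
    Group.IsFinitelyPresented (St ι R) := by
  obtain ⟨n, f, rel, hf, h0, hk⟩ := h
  have h1 : Group.IsFinitelyPresented (St ι (FreeAlgebra (ZMod 2) (Fin n))) := st_free_fp h5 n
  have h3 : 3 ≤ Fintype.card ι := by omega
  have hker := ker_mapRing (ι := ι) h3 (f : FreeAlgebra (ZMod 2) (Fin n) →+* R) hf rel h0 hk
  refine Group.IsFinitelyPresented.of_surjective
    (St.mapRing (ι := ι) ((f : FreeAlgebra (ZMod 2) (Fin n) →+* R) :
      FreeAlgebra (ZMod 2) (Fin n) →ₙ+* R)) (mapRing_surjective _ hf) ?_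
  refine ⟨{g | ∃ i j, ∃ ρ ∈ rel, g = St.x i j ρ}, ?_, hker.symm⟩
  have hfin : (((Set.univ : Set ι) ×ˢ (Set.univ : Set ι)) ×ˢ
      (rel : Set (FreeAlgebra (ZMod 2) (Fin n)))).Finite :=
    (Set.finite_univ.prod Set.finite_univ).prod rel.finite_toSet
  refine (hfin.image fun p => (St.x p.1.1 p.1.2 p.2 :
    St ι (FreeAlgebra (ZMod 2) (Fin n)))).subset ?_
  rintro _ ⟨i, j, ρ, hρ, rfl⟩
  exact ⟨((i, j), ρ), ⟨⟨Set.mem_univ _, Set.mem_univ _⟩, hρ⟩, rfl⟩

/-- THEOREM II: `exists_lf` for `I3 Bool`, `rep_bijective`, `st_fp`, `isSimple_units`. -/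
theorem partII (h : RHyp R) : Group.IsFinitelyPresented Rˣ ∧ IsSimpleGroup Rˣ := by
  have := h.nontriv
  have : CharP R 2 := charP_two_of_algebra R
  obtain ⟨τ, hτ⟩ := exists_lf h.leavitt (I3 Bool)
  have hb := rep_bijective h.leavitt h.scal h.rep τ hτ
  refine ⟨?_, isSimple_units h.leavitt h.scal h.rep h.pure⟩
  have : Group.IsFinitelyPresented (St (I3 Bool) R) := st_fp (by simp [I3]) h.fp
  exact Group.IsFinitelyPresented.equiv (MulEquiv.ofBijective (rep τ hτ.1) hb)

end P193
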