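import Vale.Agent.Lib.P193.Defs

/-!
# P193: finitely presented algebras as `RingQuot` (interface for parts L and I).
-/

open scoped Pointwise

namespace P193

universe u v

/-- the two-sided ideal generated by `R`, as an additive subgroup -/
private def FinPresQuot_idl {A : Type u} [Ring A] (R : Set A) : AddSubgroup A :=
  AddSubgroup.closure {z | ∃ a b, ∃ ρ ∈ R, z = a * ρ * b}

private theorem FinPresQuot_span {A : Type u} [Ring A] (R : Set A) (z : A) :
    z ∈ TwoSidedIdeal.span R ↔ z ∈ FinPresQuot_idl R := by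
  rw [TwoSidedIdeal.mem_span_iff_mem_addSubgroup_closure, FinPresQuot_idl]
  have e : (Set.univ : Set A) * R * Set.univ = {z | ∃ a b, ∃ ρ ∈ R, z = a * ρ * b} := by
    ext z
    constructor
    · rintro ⟨w, ⟨a, -, ρ, hρ, rfl⟩, b, -, rfl⟩
      exact ⟨a, b, ρ, hρ, rfl⟩
    · rintro ⟨a, b, ρ, hρ, rfl⟩
      exact ⟨a * ρ, ⟨a, Set.mem_univ _, ρ, hρ, rfl⟩, b, Set.mem_univ _, rfl⟩
  rw [e]

/-- the kernel of the quotient map -/
private theorem FinPresQuot_mk {A : Type u} [Ring A] [Algebra (ZMod 2) A] (rel : A → A → Prop)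
    {y : A} (h : RingQuot.mkAlgHom (ZMod 2) rel y = 0) :
    y ∈ FinPresQuot_idl {z | ∃ a b, rel a b ∧ z = a - b} := by
  rw [← FinPresQuot_span]
  have h1 : RingQuot.mkRingHom rel y = 0 := by
    rw [← RingQuot.mkAlgHom_coe (ZMod 2)]
    exact h
  let J := TwoSidedIdeal.span {z : A | ∃ a b, rel a b ∧ z = a - b}
  let q : A →+* J.ringCon.Quotient := J.ringCon.mk'
  have hq : ∀ z, q z = 0 ↔ z ∈ J := by
    intro z
    rw [← TwoSidedIdeal.mem_ker, TwoSidedIdeal.ker_ringCon_mk']
  have hw : ∀ ⦃x y : A⦄, rel x y → q x = q y := by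
    intro x y hxy
    rw [← sub_eq_zero, ← map_sub, hq]
    exact TwoSidedIdeal.subset_span ⟨x, y, hxy, rfl⟩
  have h2 := RingQuot.lift_mkRingHom_apply q hw y
  rw [h1, map_zero] at h2
  exact (hq y).1 h2.symm

/-- a presentation with a finite type of generators -/
private theorem FinPresQuot_of {A : Type u} [Ring A] [Algebra (ZMod 2) A] {X : Type} [Finite X]
    (f : FreeAlgebra (ZMod 2) X →ₐ[ZMod 2] A) (rel : Finset (FreeAlgebra (ZMod 2) X))
    (hf : Function.Surjective f) (h0 : ∀ ρ ∈ rel, f ρ = 0)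
    (h1 : ∀ y, f y = 0 → y ∈ FinPresQuot_idl (rel : Set (FreeAlgebra (ZMod 2) X))) :
    FinPres A := by
  classical
  obtain ⟨n, ⟨e⟩⟩ := Finite.exists_equiv_fin X
  let E : FreeAlgebra (ZMod 2) (Fin n) →ₐ[ZMod 2] FreeAlgebra (ZMod 2) X :=
    FreeAlgebra.lift (ZMod 2) fun i => FreeAlgebra.ι (ZMod 2) (e.symm i)
  let E' : FreeAlgebra (ZMod 2) X →ₐ[ZMod 2] FreeAlgebra (ZMod 2) (Fin n) :=
    FreeAlgebra.lift (ZMod 2) fun x => FreeAlgebra.ι (ZMod 2) (e x)
  have hEE' : E.comp E' = AlgHom.id _ _ := by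
    apply FreeAlgebra.hom_ext
    funext x
    simp [E, E']
  have hE'E : E'.comp E = AlgHom.id _ _ := by
    apply FreeAlgebra.hom_ext
    funext x
    simp [E, E']
  have k1 : ∀ x, E (E' x) = x := fun x => by
    have := AlgHom.congr_fun hEE' x
    simpa using this
  have k2 : ∀ x, E' (E x) = x := fun x => by
    have := AlgHom.congr_fun hE'E x
    simpa using this
  refine ⟨n, f.comp E, rel.image E', ?_, ?_, ?_⟩
  · intro a
    obtain ⟨x, rfl⟩ := hf a
    exact ⟨E' x, by rw [AlgHom.comp_apply, k1]⟩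
  · intro ρ hρ
    obtain ⟨σ, hσ, rfl⟩ := Finset.mem_image.1 hρ
    rw [AlgHom.comp_apply, k1]
    exact h0 σ hσ
  · intro y hy
    have h2 := h1 (E y) hy
    have key : ∀ z ∈ FinPresQuot_idl (rel : Set (FreeAlgebra (ZMod 2) X)),
        E' z ∈ AddSubgroup.closure {z | ∃ a b, ∃ ρ ∈ rel.image E', z = a * ρ * b} := by
      intro z hz
      induction hz using AddSubgroup.closure_induction with
      | mem x hx =>
        obtain ⟨a, b, ρ, hρ, rfl⟩ := hx
        apply AddSubgroup.subset_closure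
        exact ⟨E' a, E' b, E' ρ, Finset.mem_image_of_mem _ hρ, by rw [map_mul, map_mul]⟩
      | zero =>
        rw [map_zero]
        exact AddSubgroup.zero_mem _
      | add x y _ _ hx hy =>
        rw [map_add]
        exact AddSubgroup.add_mem _ hx hy
      | neg x _ hx =>
        rw [map_neg]
        exact AddSubgroup.neg_mem _ hx
    have h3 := key _ h2
    rwa [k2] at h3

/-- a quotient of the free algebra on a finite type by a finite relation is finitely presented. The kernel of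
`RingQuot.mkAlgHom` is the ideal generated by the `a - b`, `rel a b` (e.g. `RingQuot.mkAlgHom_eq...`, `RingConGen`, or: the additive
closure `I` of the `x * (a - b) * y` is a two-sided ideal; the quotient map to the ring `A ⧸ I` factors through `RingQuot`). -/
theorem finPres_ringQuot {X : Type} [Finite X]
    (rel : FreeAlgebra (ZMod 2) X → FreeAlgebra (ZMod 2) X → Prop)
    (hfin : {p : FreeAlgebra (ZMod 2) X × FreeAlgebra (ZMod 2) X | rel p.1 p.2}.Finite) :
    FinPres (RingQuot rel) := by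
  classical
  have hmem : ∀ z, z ∈ hfin.toFinset.image (fun p => p.1 - p.2) ↔
      ∃ a b, rel a b ∧ z = a - b := by
    intro z
    rw [Finset.mem_image]
    constructor
    · rintro ⟨p, hp, rfl⟩
      exact ⟨p.1, p.2, hfin.mem_toFinset.1 hp, rfl⟩
    · rintro ⟨a, b, hab, rfl⟩
      exact ⟨(a, b), hfin.mem_toFinset.2 hab, rfl⟩
  refine FinPresQuot_of (RingQuot.mkAlgHom (ZMod 2) rel)
    (hfin.toFinset.image fun p => p.1 - p.2) (RingQuot.mkAlgHom_surjective (ZMod 2) _) ?_ ?_
  · intro ρ hρ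
    obtain ⟨a, b, hab, rfl⟩ := (hmem ρ).1 hρ
    rw [map_sub, RingQuot.mkAlgHom_rel (ZMod 2) hab, sub_self]
  · intro y hy
    have e : ((hfin.toFinset.image fun p => p.1 - p.2 : Finset (FreeAlgebra (ZMod 2) X)) :
        Set (FreeAlgebra (ZMod 2) X)) = {z | ∃ a b, rel a b ∧ z = a - b} := by
      ext z
      exact hmem z
    rw [e]
    exact FinPresQuot_mk rel hy

/-- transport along an isomorphism -/
theorem FinPres.equiv {R : Type u} {S : Type v} [Ring R] [Ring S] [Algebra (ZMod 2) R]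
    [Algebra (ZMod 2) S] (e : R ≃ₐ[ZMod 2] S) (h : FinPres R) : FinPres S := by
  obtain ⟨n, f, rel, h1, h2, h3⟩ := h
  refine ⟨n, (e : R →ₐ[ZMod 2] S).comp f, rel, ?_, ?_, ?_⟩
  · intro b
    obtain ⟨y, hy⟩ := h1 (e.symm b)
    exact ⟨y, by rw [AlgHom.comp_apply, hy]; simp⟩
  · intro ρ hρ
    rw [AlgHom.comp_apply, h2 ρ hρ, map_zero]
  · intro y hy
    apply h3
    apply e.injective
    rw [map_zero]
    exact hy

end P193
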