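import Vale.Agent.Lib.P193.Defs

/-!
# P193 part II, section 1: Leavitt families, general position, merging.
-/

namespace P193

universe u v

variable {R : Type u} [Ring R]

/-- Leavitt families of every size: `s0, s1 s0, s1² s0, …` (induction on `m` with `Fin.cons`:
`(s0, s1 τ_0, …, s1 τ_(m-1))` for a Leavitt family `τ` of size `m`; start with `τ_0 = 1`, `m = 1`). -/
theorem exists_lf_fin (hL : HLeavitt R) (m : ℕ) : ∃ τ : Fin (m + 1) → Isom R, IsLF τ := by
  obtain ⟨s0, s1, h01, hs⟩ := hL
  induction m with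
  | zero =>
    refine ⟨fun _ => 1, fun i j hij => absurd (Fin.ext (by omega)) hij, ?_⟩
    simp
  | succ m ih =>
    obtain ⟨τ, hτ, hsum⟩ := ih
    refine ⟨Fin.cons s0 (fun i => s1 * τ i), ?_, ?_⟩
    · intro i j
      refine Fin.cases ?_ (fun i => ?_) i <;> refine Fin.cases ?_ (fun j => ?_) j
      · intro h
        exact absurd rfl h
      · intro _
        simpa using h01.mul_right (τ j)
      · intro _
        simpa using (h01.mul_right (τ i)).symm
      · intro h
        have hij : i ≠ j := fun h' => h (by rw [h'])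
        simp only [Fin.cons_succ]
        refine ⟨?_, ?_⟩
        · rw [Isom.mul_st, Isom.mul_val, mul_assoc, Isom.st_val_mul, (hτ i j hij).1]
        · rw [Isom.mul_st, Isom.mul_val, mul_assoc, Isom.st_val_mul, (hτ i j hij).2]
    · rw [Fin.sum_univ_succ]
      simp only [Fin.cons_zero, Fin.cons_succ]
      have : ∑ i : Fin (m + 1), (s1 * τ i).val * (s1 * τ i).st
          = s1.val * (∑ i, (τ i).val * (τ i).st) * s1.st := by
        rw [Finset.mul_sum, Finset.sum_mul]
        refine Finset.sum_congr rfl fun i _ => ?_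
        simp only [Isom.mul_val, Isom.mul_st, mul_assoc]
      rw [this, hsum, mul_one, hs]

/-- transport along `Fin (m + 1) ≃ ι` -/
theorem exists_lf (hL : HLeavitt R) (ι : Type v) [Fintype ι] [Nonempty ι] :
    ∃ τ : ι → Isom R, IsLF τ := by
  obtain ⟨m, hm⟩ : ∃ m, Fintype.card ι = m + 1 :=
    ⟨Fintype.card ι - 1, by have := Fintype.card_pos (α := ι); omega⟩
  obtain ⟨τ, hτ, hsum⟩ := exists_lf_fin hL m
  let e : ι ≃ Fin (m + 1) := Fintype.equivFinOfCardEq hm
  refine ⟨fun i => τ (e i), fun i j hij => hτ _ _ (fun h => hij (e.injective h)), ?_⟩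
  rw [← hsum]
  exact Equiv.sum_comp e (fun i => (τ i).val * (τ i).st)

/-- general position: `p_i = q σ_i` with `q` from SCAL for `F` and `σ` a Leavitt family. -/
theorem exists_gp (hL : HLeavitt R) (hS : HScal R) (F : Finset R) (k : ℕ) :
    ∃ p : Fin k → Isom R, POrth p ∧
      ∀ i j, i ≠ j → ∀ f ∈ F, (p i).st * f * (p j).val = 0 := by
  obtain ⟨q, hq⟩ := hS F
  obtain ⟨τ, hτ, -⟩ := exists_lf_fin hL k
  refine ⟨fun i => q * τ i.castSucc, ?_, ?_⟩
  · intro i j hij
    have hij' : i.castSucc ≠ j.castSucc := fun h => hij (Fin.castSucc_injective k h)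
    refine ⟨?_, ?_⟩
    · rw [Isom.mul_st, Isom.mul_val, mul_assoc, Isom.st_val_mul, (hτ _ _ hij').1]
    · rw [Isom.mul_st, Isom.mul_val, mul_assoc, Isom.st_val_mul, (hτ _ _ hij').2]
  · intro i j hij f hf
    have hij' : i.castSucc ≠ j.castSucc := fun h => hij (Fin.castSucc_injective k h)
    have key : (q * τ i.castSucc).st * f * (q * τ j.castSucc).val
        = (τ i.castSucc).st * (q.st * f * q.val) * (τ j.castSucc).val := by
      simp only [Isom.mul_st, Isom.mul_val, mul_assoc]
    show (q * τ i.castSucc).st * f * (q * τ j.castSucc).val = 0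
    rw [key]
    rcases hq f hf with h | h
    · rw [h, mul_zero, zero_mul]
    · rw [h, mul_one, (hτ _ _ hij').1]

/-- merging an orthogonal family `q` along a Leavitt family `σ`:
`Q = Σ q_i σ_i*`, `Q* = Σ σ_i q_i*`. -/
theorem exists_merge {ι : Type v} [Fintype ι] (q σ : ι → Isom R) (hq : POrth q)
    (hσ : IsLF σ) : ∃ Q : Isom R, Q.val = ∑ i, (q i).val * (σ i).st ∧
      Q.st = ∑ i, (σ i).val * (q i).st ∧ (∀ i, Q * σ i = q i) ∧
      Q.val * Q.st = ∑ i, (q i).val * (q i).st := by
  classical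
  obtain ⟨hσ1, hσ2⟩ := hσ
  have hcol : ∀ j, (∑ i, (q i).val * (σ i).st) * (σ j).val = (q j).val := by
    intro j
    rw [Finset.sum_mul, Finset.sum_eq_single j]
    · rw [mul_assoc, (σ j).st_val, mul_one]
    · intro i _ hij
      rw [mul_assoc, (hσ1 i j hij).1, mul_zero]
    · intro h
      exact absurd (Finset.mem_univ j) h
  have hrow : ∀ j, (σ j).st * (∑ i, (σ i).val * (q i).st) = (q j).st := by
    intro j
    rw [Finset.mul_sum, Finset.sum_eq_single j]
    · rw [← mul_assoc, (σ j).st_val, one_mul]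
    · intro i _ hij
      rw [← mul_assoc, (hσ1 j i (Ne.symm hij)).1, zero_mul]
    · intro h
      exact absurd (Finset.mem_univ j) h
  have hqcol : ∀ j, (∑ i, (σ i).val * (q i).st) * (q j).val = (σ j).val := by
    intro j
    rw [Finset.sum_mul, Finset.sum_eq_single j]
    · rw [mul_assoc, (q j).st_val, mul_one]
    · intro i _ hij
      rw [mul_assoc, (hq i j hij).1, mul_zero]
    · intro h
      exact absurd (Finset.mem_univ j) h
  refine ⟨⟨∑ i, (q i).val * (σ i).st, ∑ i, (σ i).val * (q i).st, ?_⟩, rfl, rfl, ?_, ?_⟩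
  · rw [Finset.mul_sum, ← hσ2]
    refine Finset.sum_congr rfl fun j _ => ?_
    rw [← mul_assoc, hqcol]
  · intro j
    exact Isom.ext (hcol j) (hrow j)
  · show (∑ i, (q i).val * (σ i).st) * (∑ i, (σ i).val * (q i).st) = _
    rw [Finset.sum_mul]
    refine Finset.sum_congr rfl fun j _ => ?_
    rw [mul_assoc, hrow]

end P193
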