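import Vale.Agent.Lib.P193.Two.StMap

/-!
# P193 part II, section 4, (b).
-/

namespace P193

universe u v w

open scoped commutatorElement

variable {R : Type u} [Ring R] {κ : Type v}

/-- a third index -/
theorem exists_third [Fintype κ] (h3 : 3 ≤ Fintype.card κ) (i j : κ) : ∃ k, k ≠ i ∧ k ≠ j := by
  classical
  have h : ({i, j} : Finset κ).card < (Finset.univ : Finset κ).card := by
    have h2 : ({i, j} : Finset κ).card ≤ 2 := Finset.card_le_two
    rw [Finset.card_univ]
    omega
  obtain ⟨k, _, hk⟩ := Finset.exists_mem_notMem_of_card_lt_card h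
  rw [Finset.mem_insert, Finset.mem_singleton, not_or] at hk
  exact ⟨k, hk⟩

private theorem StAB_induction {p : St κ R → Prop} (gen : ∀ i j r, p (St.x i j r)) (one : p 1)
    (mul : ∀ x y, p x → p y → p (x * y)) (inv : ∀ x, p x → p x⁻¹) (x : St κ R) : p x := by
  have hx : x ∈ Subgroup.closure {g : St κ R | ∃ i j r, g = St.x i j r} := by
    rw [St.closure_eq_top]
    exact Subgroup.mem_top x
  induction hx using Subgroup.closure_induction with
  | mem x hx =>
    obtain ⟨i, j, r, rfl⟩ := hx
    exact gen i j r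
  | one => exact one
  | mul x y _ _ hx hy => exact mul x y hx hy
  | inv x _ hx => exact inv x hx

private theorem StAB_c3 {i j k : κ} {r s : R} (h1 : i ≠ j) (h2 : j ≠ k) (h3 : i ≠ k)
    (h : r * s = 0) : Commute (St.x i j r) (St.x j k s) := by
  rw [← commutatorElement_eq_one_iff_commute, St.comm3 i j k r s h1 h2 h3, h, St.x_zero]

private theorem StAB_gen [Fintype κ] (h3 : 3 ≤ Fintype.card κ) {u0 u1 : Isom R} (h : Orth u0 u1)
    (i j k l : κ) (r s : R) :
    Commute (St.x i j (conjHom u0 r)) (St.x k l (conjHom u1 s)) := by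
  have e1 : ∀ r s : R, conjHom u0 r * conjHom u1 s = 0 := by
    intro r s
    rw [conjHom_apply, conjHom_apply]
    have : u0.val * r * u0.st * (u1.val * s * u1.st)
        = u0.val * r * (u0.st * u1.val) * s * u1.st := by noncomm_ring
    rw [this, h.1]
    simp
  have e2 : ∀ r s : R, conjHom u1 s * conjHom u0 r = 0 := by
    intro r s
    rw [conjHom_apply, conjHom_apply]
    have : u1.val * s * u1.st * (u0.val * r * u0.st)
        = u1.val * s * (u1.st * u0.val) * r * u0.st := by noncomm_ring
    rw [this, h.2]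
    simp
  by_cases hij : i = j
  · subst hij
    rw [St.diag]
    exact Commute.one_left _
  by_cases hkl : k = l
  · subst hkl
    rw [St.diag]
    exact Commute.one_right _
  by_cases hjk : j = k
  · subst hjk
    by_cases hil : i = l
    · subst hil
      obtain ⟨t, ht1, ht2⟩ := exists_third h3 i j
      have e : conjHom u0 r = conjHom u0 r * conjHom u0 1 := by
        rw [← map_mul, mul_one]
      rw [e, ← St.comm3 i t j _ _ (Ne.symm ht1) ht2 hij]
      have c1 : Commute (St.x i t (conjHom u0 r)) (St.x j i (conjHom u1 s)) :=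
        (StAB_c3 hkl (Ne.symm ht1) (Ne.symm ht2) (e2 r s)).symm
      have c2 : Commute (St.x t j (conjHom u0 1)) (St.x j i (conjHom u1 s)) :=
        StAB_c3 ht2 hkl ht1 (e1 1 s)
      rw [commutatorElement_def]
      exact ((c1.mul_left c2).mul_left c1.inv_left).mul_left c2.inv_left
    · exact StAB_c3 hij hkl hil (e1 r s)
  · by_cases hil : i = l
    · subst hil
      exact (StAB_c3 hkl hij (Ne.symm hjk) (e2 r s)).symm
    · exact St.comm1 i j k l _ _ hij hkl hjk hil

/-- the images of `a_*`, `b_*` commute (`a(r) = u0 r u0*`, `b(r) = u1 r u1*`); on generators: Steinberg relations and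
`u0* u1 = 0 = u1* u0`; for `(i,j)` and `(j,i)`: `x_ij(a r) = ⁅x_ik(a r), x_kj(u0 u0*)⁆` and both factors commute with `x_ji(b s)`. -/
theorem ab_commute [Fintype κ] (h3 : 3 ≤ Fintype.card κ) {u0 u1 : Isom R} (h : Orth u0 u1)
    (x y : St κ R) : Commute (St.mapRing (conjHom u0) x) (St.mapRing (conjHom u1) y) := by
  refine StAB_induction (p := fun x => Commute (St.mapRing (conjHom u0) x)
    (St.mapRing (conjHom u1) y)) ?_ ?_ ?_ ?_ x
  · intro i j r
    refine StAB_induction (p := fun y => Commute (St.mapRing (conjHom u0) (St.x i j r))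
      (St.mapRing (conjHom u1) y)) ?_ ?_ ?_ ?_ y
    · intro k l s
      rw [St.mapRing_x, St.mapRing_x]
      exact StAB_gen h3 h i j k l r s
    · rw [map_one]
      exact Commute.one_right _
    · intro a b ha hb
      rw [map_mul]
      exact ha.mul_right hb
    · intro a ha
      rw [map_inv]
      exact ha.inv_right
  · rw [map_one]
    exact Commute.one_left _
  · intro a b ha hb
    rw [map_mul]
    exact ha.mul_left hb
  · intro a ha
    rw [map_inv]
    exact ha.inv_left

/-- `φ_*(y) = a_*(y) b_*(φ_*(y))`: the right side is a homomorphism by `ab_commute`; compare on generators. -/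
theorem phi_split [Fintype κ] (h3 : 3 ≤ Fintype.card κ) {u0 u1 : Isom R} (h : Orth u0 u1)
    (φ : R →ₙ+* R) (hφ : ∀ r, φ r = u0.val * r * u0.st + u1.val * φ r * u1.st) (y : St κ R) :
    St.mapRing φ y =
      St.mapRing (conjHom u0) y * St.mapRing (conjHom u1) (St.mapRing φ y) := by
  refine StAB_induction (p := fun y => St.mapRing φ y =
    St.mapRing (conjHom u0) y * St.mapRing (conjHom u1) (St.mapRing φ y)) ?_ ?_ ?_ ?_ y
  · intro i j r
    rw [St.mapRing_x, St.mapRing_x, St.mapRing_x, St.add, conjHom_apply, conjHom_apply, ← hφ]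
  · simp
  · intro a b ha hb
    have hc := ab_commute h3 h b (St.mapRing φ a)
    rw [map_mul, map_mul, map_mul, mul_assoc, ← mul_assoc (St.mapRing (conjHom u0) b), hc.eq,
      mul_assoc, ← hb, ← mul_assoc, ← ha]
  · intro a ha
    have hc := ab_commute h3 h a (St.mapRing φ a)
    rw [map_inv, map_inv, map_inv, ← mul_inv_rev, ← hc.eq, ← ha]

end P193
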