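import Vale.Agent.Lib.P193.Two.StW

/-!
# P193 part II, section 4, (c): conjugation realises `α(r) = u r u*`.
-/

namespace P193

universe u v w

open scoped commutatorElement

variable {R : Type u} [Ring R] [CharP R 2] {κ : Type v}

/-- `Ũ_i = w_(i,∞)(u) w_(i,∞)(1)`: conjugation maps `x_ij(r) ↦ x_ij(u r)`, `x_ji(r) ↦ x_ji(r u*)` (`j ≠ i, ∞`) and fixes `x_jk(r)`
for `j, k ∉ {i, ∞}`. -/
theorem exists_conj_one (t : Isom R) (i : κ) : ∃ U : St (Option κ) R,
    (∀ j r, j ≠ i → U * St.x (some i) (some j) r * U⁻¹ = St.x (some i) (some j) (t.val * r)) ∧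
    (∀ j r, j ≠ i → U * St.x (some j) (some i) r * U⁻¹ = St.x (some j) (some i) (r * t.st)) ∧
    (∀ j k r, j ≠ i → k ≠ i → U * St.x (some j) (some k) r * U⁻¹ = St.x (some j) (some k) r) := by
  have hcomp : ∀ a b c : St (Option κ) R, a * b * c * (a * b)⁻¹ = a * (b * c * b⁻¹) * a⁻¹ := by
    intro a b c
    group
  have hin : (some i : Option κ) ≠ none := Option.some_ne_none i
  refine ⟨St.w (some i) none t * St.w (some i) none 1, ?_, ?_, ?_⟩
  · intro j r hj
    have hji : (some i : Option κ) ≠ some j := fun h => hj (Option.some.inj h).symm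
    rw [hcomp, St.w_conj3 (some i) none (some j) hin (Option.some_ne_none j).symm hji,
      St.w_conj1 (some i) none (some j) hin (Option.some_ne_none j).symm hji]
  · intro j r hj
    have hji : (some i : Option κ) ≠ some j := fun h => hj (Option.some.inj h).symm
    rw [hcomp, St.w_conj4 (some i) none (some j) hin (Option.some_ne_none j).symm hji,
      St.w_conj2 (some i) none (some j) hin (Option.some_ne_none j).symm hji]
  · intro j k r hj hk
    have hji : (some j : Option κ) ≠ some i := fun h => hj (Option.some.inj h)
    have hki : (some k : Option κ) ≠ some i := fun h => hk (Option.some.inj h)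
    have h1 := St.w_comm (some i) none (some j) (some k) hin hji (Option.some_ne_none j) hki
      (Option.some_ne_none k) (1 : Isom R) r
    have h2 := St.w_comm (some i) none (some j) (some k) hin hji (Option.some_ne_none j) hki
      (Option.some_ne_none k) t r
    rw [hcomp, h1.eq, mul_inv_cancel_right, h2.eq, mul_inv_cancel_right]

open Classical in
private lemma stConj_fin (t : Isom R) (s : Finset κ) : ∃ U : St (Option κ) R, ∀ i j r, i ≠ j →
    U * St.x (some i) (some j) r * U⁻¹ = St.x (some i) (some j)
      ((if i ∈ s then t.val else 1) * r * (if j ∈ s then t.st else 1)) := by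
  induction s using Finset.induction_on with
  | empty =>
    refine ⟨1, fun i j r _ => ?_⟩
    rw [if_neg (Finset.notMem_empty i), if_neg (Finset.notMem_empty j), one_mul, inv_one, mul_one,
      one_mul, mul_one]
  | insert a s ha ih =>
    obtain ⟨U, hU⟩ := ih
    obtain ⟨V, hV1, hV2, hV3⟩ := exists_conj_one t a
    refine ⟨V * U, fun i j r hij => ?_⟩
    have hcomp : V * U * St.x (some i) (some j) r * (V * U)⁻¹
        = V * (U * St.x (some i) (some j) r * U⁻¹) * V⁻¹ := by group
    rw [hcomp, hU i j r hij]
    by_cases hia : i = a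
    · subst hia
      have hj : j ≠ i := fun h => hij h.symm
      rw [hV1 j _ hj, if_neg ha, if_pos (Finset.mem_insert_self i s), one_mul]
      have h2 : (if j ∈ insert i s then t.st else 1) = (if j ∈ s then t.st else 1) := by
        by_cases hjs : j ∈ s
        · rw [if_pos hjs, if_pos (Finset.mem_insert_of_mem hjs)]
        · rw [if_neg hjs, if_neg (fun h => (Finset.mem_insert.1 h).elim hj hjs)]
      rw [h2, mul_assoc]
    · have h1 : (if i ∈ insert a s then t.val else 1) = (if i ∈ s then t.val else 1) := by
        by_cases his : i ∈ s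
        · rw [if_pos his, if_pos (Finset.mem_insert_of_mem his)]
        · rw [if_neg his, if_neg (fun h => (Finset.mem_insert.1 h).elim hia his)]
      rw [h1]
      by_cases hja : j = a
      · subst hja
        rw [hV2 i _ hia, if_neg ha, if_pos (Finset.mem_insert_self j s), mul_one]
      · have h2 : (if j ∈ insert a s then t.st else 1) = (if j ∈ s then t.st else 1) := by
          by_cases hjs : j ∈ s
          · rw [if_pos hjs, if_pos (Finset.mem_insert_of_mem hjs)]
          · rw [if_neg hjs, if_neg (fun h => (Finset.mem_insert.1 h).elim hja hjs)]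
        rw [h2, hV3 i j _ hia hja]

/-- `Ũ = Π_i Ũ_i` (product over a list of all indices, or `Finset` induction: for every finite set `s` of indices there is `U` with
`U x_ij(r) U⁻¹ = x_ij(u^[i ∈ s] r u*^[j ∈ s])`). -/
theorem exists_conj [Fintype κ] (t : Isom R) : ∃ U : St (Option κ) R, ∀ x : St κ R,
    U * St.mapIdx Function.Embedding.some x * U⁻¹ =
      St.mapIdx Function.Embedding.some (St.mapRing (conjHom t) x) := by
  obtain ⟨U, hU⟩ := stConj_fin t (Finset.univ : Finset κ)
  refine ⟨U, fun x => ?_⟩
  have h : ((MulAut.conj U).toMonoidHom.comp (St.mapIdx Function.Embedding.some) :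
      St κ R →* St (Option κ) R)
      = (St.mapIdx Function.Embedding.some).comp (St.mapRing (conjHom t)) := by
    apply St.hom_ext
    intro i j r
    rw [MonoidHom.comp_apply, MonoidHom.comp_apply, St.mapRing_x, St.mapIdx_x, St.mapIdx_x]
    show U * St.x (some i) (some j) r * U⁻¹ = St.x (some i) (some j) (conjHom t r)
    by_cases hij : i = j
    · subst hij
      rw [St.diag, St.diag, mul_one, mul_inv_cancel]
    · rw [hU i j r hij, if_pos (Finset.mem_univ i), if_pos (Finset.mem_univ j), conjHom_apply]
  exact DFunLike.congr_fun h x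

end P193
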