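import Vale.Agent.Lib.P193.Two.StCentral
import Vale.Agent.Lib.P193.Two.StAB
import Vale.Agent.Lib.P193.Two.StConj

/-!
# P193 part II, section 4, CLAIM 1.
-/

namespace P193

universe u v w

variable {R : Type u} [Ring R] [CharP R 2] {κ : Type v} [Fintype κ] [DecidableEq κ]

/-- for `y` with trivial matrix: `ι(y)` is central, so `ι(α_* y) = ι(y)` for `α(r) = u r u*` (`exists_conj`). `y_φ = φ_* y` also has
trivial matrix (`mat_mapRing_eq_one`), `ι(y_φ) = ι(a_* y) ι(b_* y_φ) = ι(y) ι(y_φ)` (`phi_split`), so `ι(y) = 1`. -/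
theorem claim1 (hR : HRep R) (h3 : 3 ≤ Fintype.card κ) (y : St κ R) (hy : mat y = 1) :
    St.mapIdx Function.Embedding.some y = (1 : St (Option κ) R) := by
  obtain ⟨φ, u0, u1, h01, hφ⟩ := hR
  -- conjugation does not change the image of an element with trivial matrix
  have key : ∀ (t : Isom R) (z : St κ R), mat z = 1 →
      St.mapIdx Function.Embedding.some (St.mapRing (conjHom t) z) =
        (St.mapIdx Function.Embedding.some z : St (Option κ) R) := by
    intro t z hz
    obtain ⟨U, hU⟩ := exists_conj (κ := κ) t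
    rw [← hU z, ← (central_of_mat z hz U).eq, mul_inv_cancel_right]
  have h1 := phi_split h3 h01 φ hφ y
  have hyφ : mat (St.mapRing φ y) = 1 := mat_mapRing_eq_one φ y hy
  have h2 := congrArg (St.mapIdx Function.Embedding.some : St κ R →* St (Option κ) R) h1
  rw [map_mul, key u0 y hy, key u1 _ hyφ] at h2
  exact mul_eq_right.mp h2.symm

end P193
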