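import Vale.Agent.Lib.P193.Defs

/-!
# P193 part II, section 1: complements and corners.
-/

namespace P193

universe u v

variable {R : Type u} [Ring R]

theorem LPair.symm {q ω : Isom R} (h : LPair q ω) : LPair ω q :=
  ⟨h.1.symm, by rw [add_comm]; exact h.2⟩

/-- complement: for `z` orthogonal to `q`, `p = 1 - q q*`, put `ω = (p - z z*) + z s0 q* + z s1 z*`,
`ω* = (p - z z*) + q s0* z* + z s1* z*`; then `ω* ω = 1`, `ω ω* = p` (and `q* ω = 0 = ω* q`). -/
theorem exists_compl (hL : HLeavitt R) {q z : Isom R} (h : Orth q z) : ∃ ω : Isom R, LPair q ω := by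
  obtain ⟨s0, s1, ⟨ho1, ho2⟩, hs⟩ := hL
  obtain ⟨h1, h2⟩ := h
  have h1' : ∀ r : R, q.st * (z.val * r) = 0 := fun r => by rw [← mul_assoc, h1, zero_mul]
  have h2' : ∀ r : R, z.st * (q.val * r) = 0 := fun r => by rw [← mul_assoc, h2, zero_mul]
  have ho1' : ∀ r : R, s0.st * (s1.val * r) = 0 := fun r => by rw [← mul_assoc, ho1, zero_mul]
  have ho2' : ∀ r : R, s1.st * (s0.val * r) = 0 := fun r => by rw [← mul_assoc, ho2, zero_mul]
  have hq := q.st_val
  have hz := z.st_val
  have hq' := q.st_val_mul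
  have hz' := z.st_val_mul
  have hs0' := s0.st_val_mul
  have hs1' := s1.st_val_mul
  have hsum : z.val * (s0.val * (s0.st * z.st)) + z.val * (s1.val * (s1.st * z.st)) =
      z.val * z.st := by
    have e : z.val * (s0.val * (s0.st * z.st)) + z.val * (s1.val * (s1.st * z.st)) =
        z.val * ((s0.val * s0.st + s1.val * s1.st) * z.st) := by
      simp only [mul_add, add_mul, mul_assoc]
    rw [e, hs, one_mul]
  refine ⟨⟨(1 - q.val * q.st - z.val * z.st) + z.val * (s0.val * q.st) + z.val * (s1.val * z.st),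
    (1 - q.val * q.st - z.val * z.st) + q.val * (s0.st * z.st) + z.val * (s1.st * z.st), ?_⟩,
    ⟨?_, ?_⟩, ?_⟩
  · simp only [mul_add, add_mul, mul_sub, sub_mul, mul_assoc, mul_one, one_mul, h1, h2, h1', h2',
      ho1', ho2', hq, hz, hq', hz', hs0', hs1', mul_zero, sub_zero, add_zero, zero_add,
      sub_self]
    abel
  · simp only [mul_add, mul_sub, mul_one, h1', hq', sub_self, sub_zero, add_zero]
  · simp only [add_mul, sub_mul, mul_assoc, one_mul, h2, hq, mul_one, mul_zero, sub_self, sub_zero,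
      add_zero]
  · simp only [mul_add, add_mul, mul_sub, sub_mul, mul_assoc, mul_one, one_mul, h1, h2, h1', h2',
      hq, hz, hq', hz', mul_zero, sub_zero, add_zero, zero_add, sub_self]
    rw [add_assoc, hsum]
    abel

/-- the corner homomorphism `v ↦ 1 + ω (v - 1) ω*` -/
def cor (ω : Isom R) : Rˣ →* Rˣ where
  toFun g := ⟨1 + ω.val * ((g : R) - 1) * ω.st, 1 + ω.val * (((g⁻¹ : Rˣ) : R) - 1) * ω.st, by
      simp only [mul_add, add_mul, mul_sub, sub_mul, mul_assoc, mul_one, one_mul,
        Isom.st_val_mul, Units.mul_inv_cancel_left]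
      abel, by
      simp only [mul_add, add_mul, mul_sub, sub_mul, mul_assoc, mul_one, one_mul,
        Isom.st_val_mul, Units.inv_mul_cancel_left]
      abel⟩
  map_one' := by
    ext
    simp
  map_mul' g h := by
    ext
    simp only [Units.val_mul]
    simp only [mul_add, add_mul, mul_sub, sub_mul, mul_assoc, mul_one, one_mul,
      Isom.st_val_mul]
    abel

theorem cor_val (ω : Isom R) (g : Rˣ) : (cor ω g : R) = 1 + ω.val * ((g : R) - 1) * ω.st := rfl

theorem cor_inv_val (ω : Isom R) (g : Rˣ) :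
    ((cor ω g)⁻¹ : Rˣ) = 1 + ω.val * (((g⁻¹ : Rˣ) : R) - 1) * ω.st := rfl

/-- a unit which fixes `q` comes from the corner of a complement: `v = ω* g ω`, with inverse `ω* g⁻¹ ω` -/
theorem exists_cor {q ω : Isom R} (h : LPair q ω) (g : Rˣ) (hg : g • q = q) :
    ∃ v : Rˣ, (v : R) = ω.st * g * ω.val ∧ g = cor ω v := by
  obtain ⟨⟨h1, h2⟩, h3⟩ := h
  have h1' : ∀ r : R, q.st * (ω.val * r) = 0 := fun r => by rw [← mul_assoc, h1, zero_mul]
  have h2' : ∀ r : R, ω.st * (q.val * r) = 0 := fun r => by rw [← mul_assoc, h2, zero_mul]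
  have hw : ω.val * ω.st = 1 - q.val * q.st := by
    rw [← h3]
    abel
  have hw' : ∀ r : R, ω.val * (ω.st * r) = r - q.val * (q.st * r) := fun r => by
    rw [← mul_assoc, hw, sub_mul, one_mul, mul_assoc]
  have g1 : (g : R) * q.val = q.val := congrArg Isom.val hg
  have g2 : q.st * ((g⁻¹ : Rˣ) : R) = q.st := congrArg Isom.st hg
  have g3 : ((g⁻¹ : Rˣ) : R) * q.val = q.val := by
    conv_lhs => rw [← g1]
    rw [Units.inv_mul_cancel_left]
  have g4 : q.st * (g : R) = q.st := by
    conv_lhs => rw [← g2]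
    rw [mul_assoc, Units.inv_mul, mul_one]
  have g1' : ∀ r : R, (g : R) * (q.val * r) = q.val * r := fun r => by rw [← mul_assoc, g1]
  have g3' : ∀ r : R, ((g⁻¹ : Rˣ) : R) * (q.val * r) = q.val * r := fun r => by
    rw [← mul_assoc, g3]
  refine ⟨⟨ω.st * g * ω.val, ω.st * ((g⁻¹ : Rˣ) : R) * ω.val, ?_, ?_⟩, rfl, ?_⟩
  · simp only [mul_assoc, hw', mul_sub, g1', h2', sub_zero, Units.mul_inv_cancel_left,
      Isom.st_val]
  · simp only [mul_assoc, hw', mul_sub, g3', h2', sub_zero, Units.inv_mul_cancel_left,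
      Isom.st_val]
  · ext
    rw [cor_val]
    simp only [mul_sub, sub_mul, mul_assoc, mul_one, hw, hw', g1, g1', g4]
    have e : q.val * (q.st * (q.val * q.st)) = q.val * q.st := by
      rw [Isom.st_val_mul]
    have e2 : q.val * (q.st * ((g : R) * (q.val * q.st))) = q.val * q.st := by
      rw [g1', Isom.st_val_mul]
    simp only [mul_sub, mul_one, g4, g1', e, e2]
    abel

/-- conjugation of a corner -/
theorem cor_smul (g : Rˣ) (ω : Isom R) (v : Rˣ) : cor (g • ω) v = g * cor ω v * g⁻¹ := by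
  ext
  rw [cor_val, Units.val_mul, Units.val_mul, cor_val, Isom.smul_val, Isom.smul_st]
  simp only [mul_add, add_mul, mul_assoc, mul_one, Units.mul_inv]

end P193
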