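import Vale.Agent.Lib.P193.Two.StMap

/-!
# P193 part II, section 4: the representation of the Steinberg group in the units.
-/

namespace P193

universe u v w

open scoped commutatorElement

variable {R : Type u} [Ring R] [CharP R 2] {ι : Type v} {κ : Type w}

omit [CharP R 2] in
private theorem stRep_mul_zero {τ : ι → Isom R} (hτ : POrth τ) {i j k l : ι} (hjk : j ≠ k) (r s : R) :
    (τ i).val * r * (τ j).st * ((τ k).val * s * (τ l).st) = 0 := by
  have h : (τ j).st * (τ k).val = 0 := (hτ j k hjk).1
  calc (τ i).val * r * (τ j).st * ((τ k).val * s * (τ l).st)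
      = (τ i).val * r * ((τ j).st * (τ k).val) * s * (τ l).st := by simp only [mul_assoc]
    _ = 0 := by rw [h, mul_zero, zero_mul, zero_mul]

omit [CharP R 2] in
private theorem stRep_mul_same {τ : ι → Isom R} {i j l : ι} (r s : R) :
    (τ i).val * r * (τ j).st * ((τ j).val * s * (τ l).st) = (τ i).val * (r * s) * (τ l).st := by
  have h : (τ j).st * (τ j).val = 1 := (τ j).st_val
  calc (τ i).val * r * (τ j).st * ((τ j).val * s * (τ l).st)
      = (τ i).val * r * ((τ j).st * (τ j).val) * s * (τ l).st := by simp only [mul_assoc]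
    _ = (τ i).val * (r * s) * (τ l).st := by rw [h, mul_one]; simp only [mul_assoc]

open Classical in
/-- the images of the generators -/
private noncomputable def stRepX (τ : ι → Isom R) (hτ : POrth τ) (i j : ι) (r : R) : Rˣ :=
  if h : i = j then 1 else tv ((τ i).val * r * (τ j).st) (stRep_mul_zero hτ (Ne.symm h) r r)

private theorem stRepX_self (τ : ι → Isom R) (hτ : POrth τ) (i : ι) (r : R) :
    stRepX τ hτ i i r = 1 := by
  unfold stRepX
  rw [dif_pos rfl]

private theorem stRepX_val (τ : ι → Isom R) (hτ : POrth τ) {i j : ι} (hij : i ≠ j) (r : R) :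
    (stRepX τ hτ i j r : R) = 1 + (τ i).val * r * (τ j).st := by
  unfold stRepX
  rw [dif_neg hij, tv_val]

omit [CharP R 2] in
private theorem stRep_comm_aux (u v w : Rˣ) (h : (u : R) * v = w * v * u) : ⁅u, v⁆ = w := by
  rw [commutatorElement_def, mul_inv_eq_iff_eq_mul, mul_inv_eq_iff_eq_mul]
  apply Units.ext
  simpa using h

/-- the Steinberg data -/
private noncomputable def stRepData (τ : ι → Isom R) (hτ : POrth τ) : StData ι R Rˣ where
  x := stRepX τ hτ
  diag i r := stRepX_self τ hτ i r
  add i j r s := by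
    by_cases hij : i = j
    · subst hij
      simp only [stRepX_self, mul_one]
    · apply Units.ext
      rw [Units.val_mul, stRepX_val τ hτ hij, stRepX_val τ hτ hij, stRepX_val τ hτ hij]
      have h := stRep_mul_zero hτ (i := i) (j := j) (k := i) (l := j) (Ne.symm hij) r s
      rw [mul_add, mul_one, add_mul, one_mul, h, add_zero, mul_add, add_mul, add_assoc]
  comm3 i j k r s hij hjk hik := by
    apply stRep_comm_aux
    rw [stRepX_val τ hτ hij, stRepX_val τ hτ hjk, stRepX_val τ hτ hik]
    have hab := stRep_mul_same (τ := τ) (i := i) (j := j) (l := k) r s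
    have hba := stRep_mul_zero hτ (i := j) (j := k) (k := i) (l := j) (Ne.symm hik) s r
    have hbb := stRep_mul_zero hτ (i := j) (j := k) (k := j) (l := k) (Ne.symm hjk) s s
    rw [← hab]
    generalize (τ i).val * r * (τ j).st = a at *
    generalize (τ j).val * s * (τ k).st = b at *
    have e1 : (1 + a * b) * (1 + b) = 1 + b + a * b := by
      have : a * b * b = 0 := by rw [mul_assoc, hbb, mul_zero]
      rw [mul_add, mul_one, add_mul, one_mul, this, add_zero]
      abel
    have e2 : (1 + b + a * b) * (1 + a) = (1 + a) * (1 + b) := by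
      have h3 : a * b * a = 0 := by rw [mul_assoc, hba, mul_zero]
      rw [mul_add, mul_one, add_mul, add_mul, one_mul, hba, h3, mul_add, mul_one, add_mul, one_mul]
      abel
    rw [e1, e2]
  comm1 i j k l r s hij hkl hjk hil := by
    apply Units.ext
    rw [Units.val_mul, Units.val_mul, stRepX_val τ hτ hij, stRepX_val τ hτ hkl]
    have hab := stRep_mul_zero hτ (i := i) (j := j) (k := k) (l := l) hjk r s
    have hba := stRep_mul_zero hτ (i := k) (j := l) (k := i) (l := j) (Ne.symm hil) s r
    generalize (τ i).val * r * (τ j).st = a at *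
    generalize (τ k).val * s * (τ l).st = b at *
    rw [mul_add, mul_one, add_mul, one_mul, hab, mul_add, mul_one, add_mul, one_mul, hba]
    abel

/-- `x_ij(r) ↦ 1 + τ_i r τ_j*` (`= tv _ _`) for an orthogonal family `τ` (the diagonal generators go to `1`) -/
noncomputable def rep (τ : ι → Isom R) (hτ : POrth τ) : St ι R →* Rˣ := St.lift (stRepData τ hτ)

private theorem rep_x' (τ : ι → Isom R) (hτ : POrth τ) (i j : ι) (r : R) :
    rep τ hτ (St.x i j r) = stRepX τ hτ i j r := by
  unfold rep
  rw [St.lift_x]
  rfl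

theorem rep_x (τ : ι → Isom R) (hτ : POrth τ) {i j : ι} (hij : i ≠ j) (r : R) :
    (rep τ hτ (St.x i j r) : R) = 1 + (τ i).val * r * (τ j).st := by
  rw [rep_x', stRepX_val τ hτ hij]

theorem rep_mapIdx (τ : κ → Isom R) (hτ : POrth τ) (f : ι ↪ κ) (hf : POrth (fun i => τ (f i)))
    (y : St ι R) : rep τ hτ (St.mapIdx f y) = rep (fun i => τ (f i)) hf y := by
  have h : (rep τ hτ).comp (St.mapIdx f) = rep (fun i => τ (f i)) hf := by
    apply St.hom_ext
    intro i j r
    rw [MonoidHom.comp_apply, St.mapIdx_x, rep_x', rep_x']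
    by_cases hij : i = j
    · subst hij
      rw [stRepX_self, stRepX_self]
    · apply Units.ext
      have hij' : f i ≠ f j := fun h => hij (f.injective h)
      rw [stRepX_val τ hτ hij', stRepX_val _ hf hij]
  rw [← h, MonoidHom.comp_apply]

theorem rep_range (τ : ι → Isom R) (hτ : POrth τ) : (rep τ hτ).range = El τ := by
  apply le_antisymm
  · rw [MonoidHom.range_eq_map, ← St.closure_eq_top, MonoidHom.map_closure, Subgroup.closure_le]
    rintro _ ⟨_, ⟨i, j, r, rfl⟩, rfl⟩
    rw [rep_x']
    by_cases hij : i = j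
    · subst hij
      rw [stRepX_self]
      exact (El τ).one_mem
    · exact Subgroup.subset_closure ⟨i, j, hij, r, stRepX_val τ hτ hij r⟩
  · unfold El
    rw [Subgroup.closure_le]
    rintro g ⟨i, j, hij, r, hg⟩
    refine ⟨St.x i j r, ?_⟩
    apply Units.ext
    rw [rep_x τ hτ hij, hg]

end P193
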