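import Vale.Agent.Lib.P193.Two.StW
import Vale.Agent.Lib.P193.Two.StRep

/-!
# P193 part II, section 4: the images of the `w_ij(1)`.
-/

namespace P193

universe u v w

variable {R : Type u} [Ring R] [CharP R 2]

private theorem StabW_x_val {ι : Type v} (τ : ι → Isom R) (hτ : POrth τ) {i j : ι} (hij : i ≠ j)
    (a : R) : (rep τ hτ (St.x i j 1) : R) * a = a + (τ i).val * ((τ j).st * a) := by
  rw [rep_x τ hτ hij, mul_one, add_mul, one_mul, mul_assoc]

private theorem StabW_x_inv {ι : Type v} (i j : ι) : (St.x i j (1 : R))⁻¹ = St.x i j 1 := by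
  apply inv_eq_of_mul_eq_one_right
  have h := St.add i j (0 : R) 0
  rw [add_zero] at h
  rw [St.add, CharTwo.add_self_eq_zero]
  exact mul_eq_left.1 h

private theorem StabW_x_st {ι : Type v} (τ : ι → Isom R) (hτ : POrth τ) {i j : ι} (hij : i ≠ j)
    (a : R) : a * (((rep τ hτ (St.x i j 1))⁻¹ : Rˣ) : R) = a + a * (τ i).val * (τ j).st := by
  rw [← map_inv, StabW_x_inv, rep_x τ hτ hij, mul_one, mul_add, mul_one, mul_assoc]

/-- `w_(i,j)(1)` maps `τ_j` to `τ_i` -/
theorem rep_w {ι : Type v} (τ : ι → Isom R) (hτ : POrth τ) {i j : ι} (hij : i ≠ j) :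
    rep τ hτ (St.w i j 1) • τ j = τ i := by
  have hij1 := (hτ i j hij).1
  have hij2 := (hτ i j hij).2
  have hji := hij.symm
  unfold St.w
  rw [Isom.one_val, Isom.one_st, map_mul, map_mul, mul_smul, mul_smul]
  refine Isom.ext ?_ ?_
  · rw [Isom.smul_val, Isom.smul_val, Isom.smul_val, StabW_x_val τ hτ hij (τ j).val,
      Isom.st_val, mul_one, StabW_x_val τ hτ hji, mul_add (τ i).st, hij1, zero_add, Isom.st_val, mul_one,
      add_comm (τ j).val (τ i).val, add_assoc, CharTwo.add_self_eq_zero, add_zero,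
      StabW_x_val τ hτ hij, hij2, mul_zero, add_zero]
  · rw [Isom.smul_st, Isom.smul_st, Isom.smul_st, StabW_x_st τ hτ hij (τ j).st, hij2, zero_mul,
      add_zero, StabW_x_st τ hτ hji, Isom.st_val, one_mul, StabW_x_st τ hτ hij,
      add_mul (τ j).st (τ i).st (τ i).val, hij2, Isom.st_val, zero_add, one_mul,
      add_comm (τ j).st (τ i).st, add_assoc,
      CharTwo.add_self_eq_zero, add_zero]

/-- `w_(i,j)(1)` fixes `τ_k`, `k ≠ i, j` -/
theorem rep_w_fix {ι : Type v} (τ : ι → Isom R) (hτ : POrth τ) {i j k : ι} (hij : i ≠ j)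
    (hk : k ≠ i) (hk' : k ≠ j) : rep τ hτ (St.w i j 1) • τ k = τ k := by
  have hji := hij.symm
  have h1 := (hτ k i hk).1
  have h2 := (hτ k i hk).2
  have h3 := (hτ k j hk').1
  have h4 := (hτ k j hk').2
  unfold St.w
  rw [Isom.one_val, Isom.one_st, map_mul, map_mul, mul_smul, mul_smul]
  refine Isom.ext ?_ ?_
  · rw [Isom.smul_val, Isom.smul_val, Isom.smul_val, StabW_x_val τ hτ hij (τ k).val, h4, mul_zero,
      add_zero, StabW_x_val τ hτ hji, h2, mul_zero, add_zero, StabW_x_val τ hτ hij, h4, mul_zero,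
      add_zero]
  · rw [Isom.smul_st, Isom.smul_st, Isom.smul_st, StabW_x_st τ hτ hij (τ k).st, h1, zero_mul,
      add_zero, StabW_x_st τ hτ hji, h3, zero_mul, add_zero, StabW_x_st τ hτ hij, h1, zero_mul,
      add_zero]

end P193
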