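import Vale.Agent.Lib.P193.Two.CovSt
import Vale.Agent.Lib.P193.Two.StabW

/-!
# P193 part II, section 4: the base edges of the covering.
-/

namespace P193

universe u v w

variable {R : Type u} [Ring R] [CharP R 2] {κ : Type v}

private theorem CovBase_conj3 {G : Type w} [Group G] {g x y x' y' : G} (hx : g * x * g⁻¹ = x')
    (hy : g * y * g⁻¹ = y') : g * (x * y * x) * g⁻¹ = x' * y' * x' := by
  rw [← hx, ← hy]
  group

/-- `w_ij w_kj w_ij⁻¹ = w_ki` -/
private theorem CovBase_w_kj {ι : Type v} (i j k : ι) (h1 : i ≠ j) (h2 : j ≠ k) (h3 : i ≠ k) :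
    St.w i j (1 : Isom R) * St.w k j 1 * (St.w i j (1 : Isom R))⁻¹ = St.w k i 1 := by
  have e1 := St.w_conj2 i j k h1 h2 h3 (1 : Isom R) 1
  have e2 := St.w_conj1 i j k h1 h2 h3 (1 : Isom R) 1
  rw [Isom.one_st, mul_one] at e1
  rw [Isom.one_val, mul_one] at e2
  exact CovBase_conj3 e1 e2

/-- `w_ij w_jk w_ij⁻¹ = w_ik` -/
private theorem CovBase_w_jk {ι : Type v} (i j k : ι) (h1 : i ≠ j) (h2 : j ≠ k) (h3 : i ≠ k) :
    St.w i j (1 : Isom R) * St.w j k 1 * (St.w i j (1 : Isom R))⁻¹ = St.w i k 1 := by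
  have e1 := St.w_conj2 i j k h1 h2 h3 (1 : Isom R) 1
  have e2 := St.w_conj1 i j k h1 h2 h3 (1 : Isom R) 1
  rw [Isom.one_st, mul_one] at e1
  rw [Isom.one_val, mul_one] at e2
  exact CovBase_conj3 e2 e1

omit [CharP R 2] in
private theorem CovBase_w_mem (i j : Option (Option κ)) :
    St.w (some i) (some j) (1 : Isom R) ∈ Hsub (Option (Option κ)) R :=
  ⟨St.w i j 1, by rw [St.mapIdx_w]; rfl⟩

/-- `(v_n, v_k)` is an edge: `w_(k,n-1) ∈ H`, `w_(k,n-1) w_(n-1,n) w_(k,n-1)⁻¹ = w_(k,n)` (`St.w_conj3`, `St.w_conj4`, `St.w_conj1`, `St.w_conj2`) -/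
theorem vadj_base (k : Option (Option κ)) : vadj ((1 : St (I3 κ) R) : VV κ R) (vtx k) := by
  cases k with
  | none =>
    refine ⟨1, ?_, ?_⟩
    · rw [one_smul]
    · rw [one_smul]
  | some k =>
    refine ⟨St.w (some (some k)) (some none) 1, ?_, ?_⟩
    · show _ = ((St.w (some (some k)) (some none) 1 * 1 : St (I3 κ) R) : VV κ R)
      rw [QuotientGroup.eq, inv_one, one_mul, mul_one]
      exact CovBase_w_mem _ _
    · show ((St.w (some (some k)) none 1 : St (I3 κ) R) : VV κ R) =
        ((St.w (some (some k)) (some none) 1 * St.w (some none) none 1 : St (I3 κ) R) : VV κ R)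
      rw [QuotientGroup.eq]
      have h := CovBase_w_jk (R := R) (some (some k)) (some none) (none : I3 κ) (by simp) (by simp)
        (by simp)
      rw [← h]
      have e : (St.w (some (some k)) (some none) (1 : Isom R) * St.w (some none) none 1 *
          (St.w (some (some k)) (some none) (1 : Isom R))⁻¹ : St (I3 κ) R)⁻¹ *
          (St.w (some (some k)) (some none) 1 * St.w (some none) none 1) =
          St.w (some (some k)) (some none) 1 := by
        group
      rw [e]
      exact CovBase_w_mem _ _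

/-- `(v_(n-1), v_(n-2))` is an edge: `w_(n-1,n)` maps `(v_n, v_(n-2))` to it -/
theorem vadj_base2 : vadj (vtx none : VV κ R) (vtx (some none)) := by
  have h0 := vadj_smul (St.w (some none) none 1 : St (I3 κ) R) (vadj_base (R := R) (κ := κ) (some none))
  have h1 : (St.w (some none) none 1 : St (I3 κ) R) • ((1 : St (I3 κ) R) : VV κ R) = vtx none := by
    show ((St.w (some none) none 1 * 1 : St (I3 κ) R) : VV κ R) =
      ((St.w (some none) none 1 : St (I3 κ) R) : VV κ R)
    rw [mul_one]
  have h2 : (St.w (some none) none 1 : St (I3 κ) R) • (vtx (some none) : VV κ R) =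
      vtx (some none) := by
    show ((St.w (some none) none 1 * St.w (some (some none)) none 1 : St (I3 κ) R) : VV κ R) =
      ((St.w (some (some none)) none 1 : St (I3 κ) R) : VV κ R)
    symm
    rw [QuotientGroup.eq]
    have h := CovBase_w_kj (R := R) (some (some none)) none (some none : I3 κ) (by simp) (by simp)
      (by simp)
    rw [St.w_inv, ← mul_assoc]
    rw [St.w_inv] at h
    rw [h]
    exact CovBase_w_mem _ _
  rw [h1, h2] at h0
  exact h0

/-- the base edge lies over `(τ_n, τ_(n-1))`, which has room `τ_(n-2)`; translate -/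
theorem vadj_vp (τ : I3 κ → Isom R) (hτ : POrth τ) {a b : VV κ R} (h : vadj a b) :
    Adj (vp τ hτ a) (vp τ hτ b) := by
  obtain ⟨g, rfl, rfl⟩ := h
  have h1 : vp τ hτ ((1 : St (I3 κ) R) : VV κ R) = τ none := by
    rw [vp_mk, map_one, one_smul]
  have h2 : vp τ hτ (vtx none : VV κ R) = τ (some none) := by
    unfold vtx
    rw [vp_mk, rep_w τ hτ (by simp)]
  rw [vp_smul, vp_smul, h1, h2]
  apply Adj.smul
  exact ⟨hτ _ _ (by simp), τ (some (some none)), hτ _ _ (by simp), hτ _ _ (by simp)⟩

end P193
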