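import Vale.Agent.Lib.P193.Two.Basic

/-!
# P193 part II, section 4: the abstract covering argument, definitions and elementary facts.
-/

namespace P193

universe u v

/-- a connected covering of the complex of isometries with room -/
structure Cov (R : Type u) [Ring R] (V : Type v) where
  adj : V → V → Prop
  p : V → Isom R
  symm : ∀ {a b}, adj a b → adj b a
  adj_p : ∀ {a b}, adj a b → Adj (p a) (p b)
  lift : ∀ (a : V) (z : Isom R), Adj (p a) z → ∃ b, adj a b ∧ p b = z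
  uniq : ∀ {a b b'}, adj a b → adj a b' → p b = p b' → b = b'
  tri : ∀ {a b c}, adj a b → adj a c → Tri (p a) (p b) (p c) → adj b c
  conn : ∀ a b, Relation.ReflTransGen adj a b

variable {R : Type u} [Ring R]

theorem Adj.symm {t z : Isom R} (h : Adj t z) : Adj z t := by
  obtain ⟨h1, y, h2, h3⟩ := h
  exact ⟨h1.symm, y, h3, h2⟩

theorem Adj.mul_left {t z : Isom R} (h : Adj t z) (a : Isom R) : Adj (t * a) z := by
  obtain ⟨h1, y, h2, h3⟩ := h
  exact ⟨h1.mul_left a, y, h2.mul_left a, h3⟩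

theorem Adj.smul {t z : Isom R} (h : Adj t z) (g : Rˣ) : Adj (g • t) (g • z) := by
  obtain ⟨h1, y, h2, h3⟩ := h
  exact ⟨h1.smul g, g • y, h2.smul g, h3.smul g⟩

theorem Tri.smul {t z w : Isom R} (h : Tri t z w) (g : Rˣ) : Tri (g • t) (g • z) (g • w) := by
  obtain ⟨h1, h2, h3, y, h4, h5, h6⟩ := h
  exact ⟨h1.smul g, h2.smul g, h3.smul g, g • y, h4.smul g, h5.smul g, h6.smul g⟩

theorem Tri.mul_left {t z w : Isom R} (h : Tri t z w) (a : Isom R) : Tri (t * a) z w := by
  obtain ⟨h1, h2, h3, y, h4, h5, h6⟩ := h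
  exact ⟨h1.mul_left a, h2.mul_left a, h3, y, h4.mul_left a, h5, h6⟩

theorem Tri.rot {t z w : Isom R} (h : Tri t z w) : Tri z w t := by
  obtain ⟨h1, h2, h3, y, h4, h5, h6⟩ := h
  exact ⟨h3, h1.symm, h2.symm, y, h5, h6, h4⟩

theorem Tri.swap {t z w : Isom R} (h : Tri t z w) : Tri t w z := by
  obtain ⟨h1, h2, h3, y, h4, h5, h6⟩ := h
  exact ⟨h2, h1, h3.symm, y, h4, h6, h5⟩

theorem Tri.adj {t z w : Isom R} (h : Tri t z w) : Adj t z := by
  obtain ⟨h1, h2, h3, y, h4, h5, h6⟩ := h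
  exact ⟨h1, y, h4, h5⟩

theorem CovDefs_orth_mul {z p p' : Isom R} (h : Orth p p') : Orth (z * p) (z * p') := by
  constructor
  · rw [Isom.mul_st, Isom.mul_val, mul_assoc, Isom.st_val_mul, h.1]
  · rw [Isom.mul_st, Isom.mul_val, mul_assoc, Isom.st_val_mul, h.2]

theorem CovDefs_orth_gp {z z' p p' : Isom R} (h1 : p.st * (z.st * z'.val) * p'.val = 0)
    (h2 : p'.st * (z'.st * z.val) * p.val = 0) : Orth (z * p) (z' * p') := by
  constructor
  · rw [Isom.mul_st, Isom.mul_val, ← h1]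
    simp only [mul_assoc]
  · rw [Isom.mul_st, Isom.mul_val, ← h2]
    simp only [mul_assoc]

/-- two vertices of the link of `t` are joined in it by a path `u ~ z p ~ z' p' ~ u'` whose steps form triangles with `t`:
`z` room of `(t, u)`, `z'` room of `(t, u')`, `p, p', p''` from `exists_gp` (`k = 3`) for `F = {z* z', z'* z}`;
`z p''` is the room of `(t, z p, z' p')`. -/
theorem exists_link_path (hL : HLeavitt R) (hS : HScal R) {t a b : Isom R} (ha : Adj t a)
    (hb : Adj t b) : ∃ c d : Isom R, Tri t a c ∧ Tri t c d ∧ Tri t d b := by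
  classical
  obtain ⟨hta, z, htz, haz⟩ := ha
  obtain ⟨htb, z', htz', hbz'⟩ := hb
  obtain ⟨p, hp, hF⟩ := exists_gp hL hS {z.st * z'.val, z'.st * z.val} 3
  have f1 : z.st * z'.val ∈ ({z.st * z'.val, z'.st * z.val} : Finset R) :=
    Finset.mem_insert_self _ _
  have f2 : z'.st * z.val ∈ ({z.st * z'.val, z'.st * z.val} : Finset R) :=
    Finset.mem_insert_of_mem (Finset.mem_singleton_self _)
  have h01 : (0 : Fin 3) ≠ 1 := by decide
  have h02 : (0 : Fin 3) ≠ 2 := by decide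
  have h12 : (1 : Fin 3) ≠ 2 := by decide
  refine ⟨z * p 0, z' * p 1, ?_, ?_, ?_⟩
  · exact ⟨hta, htz.mul_right _, haz.mul_right _, z * p 1, htz.mul_right _, haz.mul_right _,
      CovDefs_orth_mul (hp _ _ h01)⟩
  · refine ⟨htz.mul_right _, htz'.mul_right _,
      CovDefs_orth_gp (hF _ _ h01 _ f1) (hF _ _ h01.symm _ f2), z * p 2, htz.mul_right _,
      CovDefs_orth_mul (hp _ _ h02), ?_⟩
    exact CovDefs_orth_gp (hF _ _ h12 _ f2) (hF _ _ h12.symm _ f1)
  · exact ⟨htz'.mul_right _, htb, hbz'.symm.mul_left _, z' * p 0, htz'.mul_right _,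
      CovDefs_orth_mul (hp _ _ h01.symm), hbz'.mul_right _⟩

/-- for finitely many isometries: `q` from SCAL for `{t_i, t_i*, t_i* t_j}`, `a = q s0`, `z = q s1 s0`, room `q s1 s1`. -/
theorem exists_generic_sub (hL : HLeavitt R) (hS : HScal R) (T : Finset (Isom R)) :
    ∃ a z y : Isom R, Orth z y ∧ ∀ t ∈ T, Orth (t * a) z ∧ Orth (t * a) y := by
  classical
  obtain ⟨p, hp, hF⟩ := exists_gp hL hS (T.image Isom.val ∪ T.image Isom.st) 3
  have h01 : (0 : Fin 3) ≠ 1 := by decide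
  have h02 : (0 : Fin 3) ≠ 2 := by decide
  have h12 : (1 : Fin 3) ≠ 2 := by decide
  have key : ∀ t ∈ T, ∀ i j : Fin 3, i ≠ j → Orth (t * p i) (p j) := by
    intro t ht i j hij
    have f1 : t.val ∈ T.image Isom.val ∪ T.image Isom.st :=
      Finset.mem_union_left _ (Finset.mem_image_of_mem _ ht)
    have f2 : t.st ∈ T.image Isom.val ∪ T.image Isom.st :=
      Finset.mem_union_right _ (Finset.mem_image_of_mem _ ht)
    constructor
    · rw [Isom.mul_st]
      exact hF _ _ hij _ f2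
    · rw [Isom.mul_val, ← mul_assoc]
      exact hF _ _ hij.symm _ f1
  exact ⟨p 0, p 1, p 2, hp _ _ h12, fun t ht => ⟨key t ht _ _ h01, key t ht _ _ h02⟩⟩

end P193
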