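import Vale.Agent.Lib.P193.Two.ElC

/-!
# P193 part II, section 2, (E8) and the relative versions.
-/

namespace P193

universe u v

variable {R : Type u} [Ring R] [CharP R 2] {ι : Type v} [Fintype ι]

/-- (E8): for a unit `x`, `x • τ_i` has room `x • τ_j`, so it is in `S` (`InS_of_room`); some `e ∈ El τ` has `(e x) • τ_i = τ_i`
(`InS.conn`). A complement `ω` of `τ_i` (`exists_compl` with `τ_j`) has room `τ_i`, so is in `S`, and `e x = cor ω v ∈ El τ`
(`exists_cor`, `cor_mem_El`). -/
theorem El_eq_top [Nontrivial ι] (hL : HLeavitt R) (hS : HScal R) (hR : HRep R) {τ : ι → Isom R}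
    (hτ : IsLF τ) : El τ = ⊤ := by
  refine (Subgroup.eq_top_iff' _).2 fun x => ?_
  obtain ⟨i, j, hij⟩ := exists_pair_ne ι
  have hij' := hτ.1 i j hij
  have h1 : InS τ (x • τ i) := InS_of_room hL hS hτ ⟨x • τ j, hij'.smul x⟩
  have h2 : InS τ (τ i) := ⟨1, one_mem _, i, (one_smul _ _).symm⟩
  obtain ⟨e, he, hei⟩ := InS.conn hτ h1 h2
  obtain ⟨ω, hω⟩ := exists_compl hL hij'
  have h3 : InS τ ω := InS_of_room hL hS hτ ⟨τ i, hω.1.symm⟩
  obtain ⟨v, -, hv⟩ := exists_cor hω (e * x) (by rw [mul_smul, hei])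
  have h4 : e * x ∈ El τ := by
    rw [hv]
    exact cor_mem_El hL hS hR hτ h3 v
  have h5 : x = e⁻¹ * (e * x) := by group
  rw [h5]
  exact mul_mem (inv_mem he) h4

/-- relative version: `τ_i* q = 0` and `q* τ_i = 0` follow from the hypothesis; `ω` a complement of `q`
(`exists_compl` with `z = τ_i`), `g = cor ω v`, `v = ω* g ω`; the `ω* τ_i` (pairs `(ω* τ_i, τ_i* ω)`) form a Leavitt family `τ'`;
`v ∈ El τ' = ⊤`, and `cor ω` maps `1 + ω*τ_i r τ_j*ω` to `1 + τ_i r τ_j*` (`ω ω* τ_i = τ_i`), so `cor ω` maps `El τ'` into `El τ`. -/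
theorem El_rel [Nontrivial ι] (hL : HLeavitt R) (hS : HScal R) (hR : HRep R) {τ : ι → Isom R}
    (hτ : POrth τ) (q : Isom R) (hq : q.val * q.st + ∑ i, (τ i).val * (τ i).st = 1) (g : Rˣ)
    (hg : g • q = q) : g ∈ El τ := by
  classical
  have hcol : ∀ i, (∑ j, (τ j).val * (τ j).st) * (τ i).val = (τ i).val := by
    intro i
    rw [Finset.sum_mul, Finset.sum_eq_single i]
    · rw [mul_assoc, (τ i).st_val, mul_one]
    · intro j _ hj
      rw [mul_assoc, (hτ j i hj).1, mul_zero]
    · intro h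
      exact absurd (Finset.mem_univ i) h
  have hrow : ∀ i, (τ i).st * (∑ j, (τ j).val * (τ j).st) = (τ i).st := by
    intro i
    rw [Finset.mul_sum, Finset.sum_eq_single i]
    · rw [← mul_assoc, (τ i).st_val, one_mul]
    · intro j _ hj
      rw [← mul_assoc, (hτ i j (Ne.symm hj)).1, zero_mul]
    · intro h
      exact absurd (Finset.mem_univ i) h
  have hqt : ∀ i, q.st * (τ i).val = 0 := by
    intro i
    have h1 : q.val * q.st * (τ i).val + (τ i).val = (τ i).val := by
      have h := congrArg (fun r => r * (τ i).val) hq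
      simp only [add_mul, one_mul] at h
      rwa [hcol] at h
    have h2 : q.val * q.st * (τ i).val = 0 := by
      have := add_eq_right.1 h1
      exact this
    calc q.st * (τ i).val = q.st * (q.val * q.st * (τ i).val) := by
          rw [mul_assoc q.val, q.st_val_mul]
      _ = 0 := by rw [h2, mul_zero]
  have htq : ∀ i, (τ i).st * q.val = 0 := by
    intro i
    have h1 : (τ i).st * (q.val * q.st) + (τ i).st = (τ i).st := by
      have h := congrArg (fun r => (τ i).st * r) hq
      simp only [mul_add, mul_one] at h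
      rwa [hrow] at h
    have h2 : (τ i).st * (q.val * q.st) = 0 := add_eq_right.1 h1
    calc (τ i).st * q.val = (τ i).st * (q.val * q.st) * q.val := by
          rw [mul_assoc, mul_assoc q.val, q.st_val, mul_one]
      _ = 0 := by rw [h2, zero_mul]
  obtain ⟨i0, -⟩ := exists_pair_ne ι
  obtain ⟨ω, hω⟩ := exists_compl hL (show Orth q (τ i0) from ⟨hqt i0, htq i0⟩)
  obtain ⟨v, -, hv⟩ := exists_cor hω g hg
  have hww : ω.val * ω.st = 1 - q.val * q.st := by
    rw [← hω.2]
    abel
  have hwt : ∀ i, ω.val * (ω.st * (τ i).val) = (τ i).val := by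
    intro i
    rw [← mul_assoc, hww, sub_mul, one_mul, mul_assoc, hqt, mul_zero, sub_zero]
  have htw : ∀ i, (τ i).st * (ω.val * ω.st) = (τ i).st := by
    intro i
    rw [hww, mul_sub, mul_one, ← mul_assoc, htq, zero_mul, sub_zero]
  have hinv : ∀ i j, (τ i).st * ω.val * (ω.st * (τ j).val) = (τ i).st * (τ j).val := by
    intro i j
    rw [mul_assoc, hwt]
  let τ' : ι → Isom R := fun i =>
    ⟨ω.st * (τ i).val, (τ i).st * ω.val, by rw [hinv, (τ i).st_val]⟩
  have hτ' : IsLF τ' := by
    refine ⟨fun i j hij => ⟨?_, ?_⟩, ?_⟩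
    · show (τ i).st * ω.val * (ω.st * (τ j).val) = 0
      rw [hinv, (hτ i j hij).1]
    · show (τ j).st * ω.val * (ω.st * (τ i).val) = 0
      rw [hinv, (hτ i j hij).2]
    · show ∑ i, ω.st * (τ i).val * ((τ i).st * ω.val) = 1
      have h1 : ∑ i, ω.st * (τ i).val * ((τ i).st * ω.val) =
          ω.st * (∑ i, (τ i).val * (τ i).st) * ω.val := by
        rw [Finset.mul_sum, Finset.sum_mul]
        refine Finset.sum_congr rfl fun i _ => ?_
        simp only [mul_assoc]
      have h2 : ∑ i, (τ i).val * (τ i).st = ω.val * ω.st := by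
        rw [hww, ← hq]
        abel
      rw [h1, h2, ω.st_val_mul, ω.st_val]
  have hv' : v ∈ El τ' := by
    rw [El_eq_top hL hS hR hτ']
    exact Subgroup.mem_top v
  have hmap : (El τ').map (cor ω) ≤ El τ := by
    unfold El
    rw [MonoidHom.map_closure, Subgroup.closure_le]
    rintro _ ⟨x, ⟨i, j, hij, r, hx⟩, rfl⟩
    refine Subgroup.subset_closure ⟨i, j, hij, r, ?_⟩
    rw [cor_val, hx]
    show 1 + ω.val * (1 + ω.st * (τ i).val * r * ((τ j).st * ω.val) - 1) * ω.st = _
    rw [add_sub_cancel_left]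
    congr 1
    calc ω.val * (ω.st * (τ i).val * r * ((τ j).st * ω.val)) * ω.st =
          ω.val * (ω.st * (τ i).val) * r * ((τ j).st * (ω.val * ω.st)) := by
            simp only [mul_assoc]
      _ = _ := by rw [hwt, htw]
  rw [hv]
  exact hmap (Subgroup.mem_map_of_mem _ hv')

/-- merge `q1`, `q2` (`exists_merge` with index type `Bool` or `Fin 2`) and apply `El_rel`. -/
theorem El_rel2 [Nontrivial ι] (hL : HLeavitt R) (hS : HScal R) (hR : HRep R) {τ : ι → Isom R}
    (hτ : POrth τ) (q1 q2 : Isom R) (h12 : Orth q1 q2)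
    (hq : q1.val * q1.st + (q2.val * q2.st + ∑ i, (τ i).val * (τ i).st) = 1) (g : Rˣ)
    (hg1 : g • q1 = q1) (hg2 : g • q2 = q2) : g ∈ El τ := by
  obtain ⟨σ, hσ⟩ := exists_lf hL Bool
  have hqq : POrth (fun b : Bool => if b then q1 else q2) := by
    intro a b hab
    cases a <;> cases b
    · exact absurd rfl hab
    · simpa using h12.symm
    · simpa using h12
    · exact absurd rfl hab
  obtain ⟨Q, hQ1, hQ2, -, hQQ⟩ := exists_merge (fun b : Bool => if b then q1 else q2) σ hqq hσ
  simp only [Fintype.sum_bool, if_true, Bool.false_eq_true, if_false] at hQ1 hQ2 hQQ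
  refine El_rel hL hS hR hτ Q ?_ g ?_
  · rw [hQQ, add_assoc]
    exact hq
  · have a1 : (g : R) * q1.val = q1.val := congrArg Isom.val hg1
    have a2 : (g : R) * q2.val = q2.val := congrArg Isom.val hg2
    have b1 : q1.st * ((g⁻¹ : Rˣ) : R) = q1.st := congrArg Isom.st hg1
    have b2 : q2.st * ((g⁻¹ : Rˣ) : R) = q2.st := congrArg Isom.st hg2
    refine Isom.ext ?_ ?_
    · rw [Isom.smul_val, hQ1, mul_add, ← mul_assoc, ← mul_assoc, a1, a2]
    · rw [Isom.smul_st, hQ2, add_mul, mul_assoc, mul_assoc, b1, b2]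

end P193
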