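import Vale.Agent.Lib.P193.Two.StMat
import Vale.Agent.Lib.P193.Two.StRep

/-!
# P193 part II, section 4: comparison of `rep` and `mat`.
-/

namespace P193

universe u v w

variable {R : Type u} [Ring R] {ι : Type v} [Fintype ι] [DecidableEq ι]

/-- `A ↦ Σ τ_i A_ij τ_j*` -/
private def StMat2_f (τ : ι → Isom R) (A : Matrix ι ι R) : R :=
  ∑ i, ∑ j, (τ i).val * A i j * (τ j).st

omit [DecidableEq ι] in
private lemma StMat2_f_add (τ : ι → Isom R) (A B : Matrix ι ι R) :
    StMat2_f τ (A + B) = StMat2_f τ A + StMat2_f τ B := by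
  unfold StMat2_f
  rw [← Finset.sum_add_distrib]
  refine Finset.sum_congr rfl fun i _ => ?_
  rw [← Finset.sum_add_distrib]
  refine Finset.sum_congr rfl fun j _ => ?_
  rw [Matrix.add_apply, mul_add, add_mul]

private lemma StMat2_orth {τ : ι → Isom R} (hτ : POrth τ) (i j : ι) :
    (τ i).st * (τ j).val = if i = j then 1 else 0 := by
  split_ifs with h
  · subst h
    exact (τ i).st_val
  · exact (hτ i j h).1

private lemma StMat2_st_f {τ : ι → Isom R} (hτ : POrth τ) (A : Matrix ι ι R) (k : ι) :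
    (τ k).st * StMat2_f τ A = ∑ j, A k j * (τ j).st := by
  unfold StMat2_f
  rw [Finset.mul_sum, Finset.sum_eq_single k]
  · rw [Finset.mul_sum]
    refine Finset.sum_congr rfl fun j _ => ?_
    rw [mul_assoc (τ k).val, Isom.st_val_mul]
  · intro i _ hik
    rw [Finset.mul_sum]
    refine Finset.sum_eq_zero fun j _ => ?_
    rw [mul_assoc (τ i).val, ← mul_assoc (τ k).st, StMat2_orth hτ, if_neg (Ne.symm hik), zero_mul]
  · intro h
    exact absurd (Finset.mem_univ k) h

private lemma StMat2_f_mul {τ : ι → Isom R} (hτ : POrth τ) (A B : Matrix ι ι R) :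
    StMat2_f τ A * StMat2_f τ B = StMat2_f τ (A * B) := by
  have h1 : StMat2_f τ A * StMat2_f τ B
      = ∑ i, ∑ k, (τ i).val * A i k * ((τ k).st * StMat2_f τ B) := by
    conv_lhs => unfold StMat2_f
    rw [Finset.sum_mul]
    refine Finset.sum_congr rfl fun i _ => ?_
    rw [Finset.sum_mul]
    refine Finset.sum_congr rfl fun k _ => ?_
    rw [mul_assoc ((τ i).val * A i k)]
    rfl
  rw [h1]
  unfold StMat2_f
  refine Finset.sum_congr rfl fun i _ => ?_
  have h2 : ∀ k, (τ i).val * A i k * ((τ k).st * ∑ i, ∑ j, (τ i).val * B i j * (τ j).st)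
      = ∑ j, (τ i).val * (A i k * B k j) * (τ j).st := by
    intro k
    have h3 := StMat2_st_f hτ B k
    unfold StMat2_f at h3
    rw [h3, Finset.mul_sum]
    refine Finset.sum_congr rfl fun j _ => ?_
    simp only [mul_assoc]
  simp only [h2]
  rw [Finset.sum_comm]
  refine Finset.sum_congr rfl fun j _ => ?_
  rw [Matrix.mul_apply, Finset.mul_sum, Finset.sum_mul]

/-- `M ↦ 1 + Σ τ_i (M - 1)_ij τ_j*` -/
private def StMat2_Phi (τ : ι → Isom R) (hτ : POrth τ) : Matrix ι ι R →* R where
  toFun M := 1 + StMat2_f τ (M - 1)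
  map_one' := by
    have h : StMat2_f τ (0 : Matrix ι ι R) = 0 := by
      unfold StMat2_f
      refine Finset.sum_eq_zero fun i _ => Finset.sum_eq_zero fun j _ => ?_
      rw [Matrix.zero_apply, mul_zero, zero_mul]
    rw [sub_self, h, add_zero]
  map_mul' M N := by
    have h : M * N - 1 = (M - 1) + (N - 1) + (M - 1) * (N - 1) := by noncomm_ring
    rw [h, StMat2_f_add, StMat2_f_add, ← StMat2_f_mul hτ]
    generalize StMat2_f τ (M - 1) = A
    generalize StMat2_f τ (N - 1) = B
    noncomm_ring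

private lemma StMat2_Phi_apply (τ : ι → Isom R) (hτ : POrth τ) (M : Matrix ι ι R) :
    StMat2_Phi τ hτ M = 1 + StMat2_f τ (M - 1) := rfl

private lemma StMat2_f_single (τ : ι → Isom R) (i j : ι) (r : R) :
    StMat2_f τ (Matrix.single i j r) = (τ i).val * r * (τ j).st := by
  unfold StMat2_f
  rw [Finset.sum_eq_single i]
  · rw [Finset.sum_eq_single j]
    · rw [Matrix.single_apply_same]
    · intro b _ hb
      rw [Matrix.single_apply_of_ne, mul_zero, zero_mul]
      exact fun h => hb h.2.symm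
    · intro h
      exact absurd (Finset.mem_univ j) h
  · intro a _ ha
    refine Finset.sum_eq_zero fun b _ => ?_
    rw [Matrix.single_apply_of_ne, mul_zero, zero_mul]
    exact fun h => ha h.1.symm
  · intro h
    exact absurd (Finset.mem_univ i) h

private lemma StMat2_hom [CharP R 2] (τ : ι → Isom R) (hτ : POrth τ) :
    (rep τ hτ : St ι R →* Rˣ) = (Units.map (StMat2_Phi τ hτ)).comp mat := by
  apply St.hom_ext
  intro i j r
  rw [MonoidHom.comp_apply]
  by_cases hij : i = j
  · subst hij
    rw [St.diag, map_one, map_one, map_one]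
  · apply Units.ext
    rw [rep_x τ hτ hij, Units.coe_map, mat_x hij, StMat2_Phi_apply, add_sub_cancel_left,
      StMat2_f_single]

/-- `M ↦ 1 + Σ τ_i (M - 1)_ij τ_j*` is multiplicative (orthogonal family `τ`); compare on generators. -/
theorem rep_eq_mat [CharP R 2] (τ : ι → Isom R) (hτ : POrth τ) (y : St ι R) :
    (rep τ hτ y : R) = 1 + ∑ i, ∑ j, (τ i).val * ((mat y : Matrix ι ι R) i j -
      (1 : Matrix ι ι R) i j) * (τ j).st := by
  rw [StMat2_hom τ hτ, MonoidHom.comp_apply, Units.coe_map, StMat2_Phi_apply]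
  rfl

/-- multiply `rep_eq_mat` by `τ_i*` and `τ_j` -/
theorem mat_eq_one_of_rep [CharP R 2] (τ : ι → Isom R) (hτ : POrth τ) (y : St ι R)
    (h : rep τ hτ y = 1) : mat y = 1 := by
  have h1 : (1 : R) = 1 + StMat2_f τ ((mat y : Matrix ι ι R) - 1) := by
    have h2 := rep_eq_mat τ hτ y
    rw [h] at h2
    exact h2
  have h0 : StMat2_f τ ((mat y : Matrix ι ι R) - 1) = 0 := by
    have h3 := h1.symm
    rwa [add_eq_left] at h3
  have h4 : ∀ k l, ((mat y : Matrix ι ι R) - 1) k l = 0 := by
    intro k l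
    have h5 := StMat2_st_f hτ ((mat y : Matrix ι ι R) - 1) k
    rw [h0, mul_zero] at h5
    have h6 := congrArg (fun z => z * (τ l).val) h5
    simp only [zero_mul] at h6
    rw [Finset.sum_mul, Finset.sum_eq_single l] at h6
    · rw [mul_assoc, (τ l).st_val, mul_one] at h6
      exact h6.symm
    · intro b _ hb
      rw [mul_assoc, StMat2_orth hτ, if_neg hb, mul_zero]
    · intro hl
      exact absurd (Finset.mem_univ l) hl
  apply Units.ext
  rw [Units.val_one, ← sub_eq_zero]
  ext k l
  exact h4 k l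

end P193
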