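import Vale.Agent.Lib.P193.Two.StRep

/-!
# P193 part II, section 4: the subgroup `H` of `St (Option κ) R`.
-/

namespace P193

universe u v w

variable {R : Type u} [Ring R]

/-- the subgroup `H` of `St (Option κ) R` -/
def Hsub (κ : Type v) (R : Type u) [Ring R] : Subgroup (St (Option κ) R) :=
  (St.mapIdx (R := R) (Function.Embedding.some (α := κ))).range

/-- elements of `H` fix `τ_∞` -/
theorem H_fix [CharP R 2] {κ : Type v} (τ : Option κ → Isom R) (hτ : POrth τ) (g : St (Option κ) R)
    (hg : g ∈ Hsub κ R) : rep τ hτ g • τ none = τ none := by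
  obtain ⟨y, rfl⟩ := hg
  let S : Subgroup (St κ R) := (MulAction.stabilizer Rˣ (τ none)).comap
    ((rep τ hτ).comp (St.mapIdx (R := R) (Function.Embedding.some (α := κ))))
  have hS : S = ⊤ := by
    rw [eq_top_iff, ← St.closure_eq_top, Subgroup.closure_le]
    rintro _ ⟨i, j, r, rfl⟩
    show (rep τ hτ) (St.mapIdx Function.Embedding.some (St.x i j r)) • τ none = τ none
    by_cases hij : i = j
    · rw [hij, St.diag, map_one, map_one, one_smul]
    · rw [St.mapIdx_x]
      have hij' : Function.Embedding.some i ≠ Function.Embedding.some j := fun h =>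
        hij (Option.some_injective _ h)
      have hx := rep_x τ hτ hij' r
      have h1 : (τ (some j)).st * (τ none).val = 0 := (hτ (some j) none (by simp)).1
      have h2 : (τ none).st * (τ (some i)).val = 0 := (hτ none (some i) (by simp)).1
      generalize rep τ hτ (St.x (Function.Embedding.some i) (Function.Embedding.some j) r) = g
        at hx
      apply Isom.ext
      · rw [Isom.smul_val, hx, add_mul, one_mul, mul_assoc]
        show (τ none).val + (τ (some i)).val * r * ((τ (some j)).st * (τ none).val) = _
        rw [h1, mul_zero, add_zero]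
      · rw [Isom.smul_st, Units.mul_inv_eq_iff_eq_mul, hx, mul_add, mul_one, ← mul_assoc,
          ← mul_assoc]
        show (τ none).st = (τ none).st + (τ none).st * (τ (some i)).val * r * (τ (some j)).st
        rw [h2, zero_mul, zero_mul, add_zero]
  have hy : y ∈ S := by rw [hS]; exact Subgroup.mem_top _
  exact hy

end P193
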