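import Vale.Agent.Lib.P193.Two.Basic
import Vale.Agent.Lib.P193.Two.Compl

/-!
# P193 part II, section 1: transitivity of the unit group.

For `q, q'` with room and complements `ω, ω'` (`exists_compl`): `u = q' q* + ω' ω*`, `u⁻¹ = q q'* + ω ω'*`, `u • q = q'`.
For families: merge first (`exists_merge` with one Leavitt family `σ`, `exists_lf`): `q i = Q * σ i`, `q' i = Q' * σ i`
and `Q`, `Q'` have room (`z` orthogonal to all `q i` is orthogonal to `Q = Σ q_i σ_i*`), `g • Q = Q'` gives `g • q i = q' i`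
(`Isom.smul_mul`).
-/

namespace P193

universe u v

variable {R : Type u} [Ring R]

theorem trans_lpair {q ω q' ω' : Isom R} (h : LPair q ω) (h' : LPair q' ω') :
    ∃ g : Rˣ, g • q = q' ∧ g • ω = ω' := by
  obtain ⟨⟨h1, h2⟩, h3⟩ := h
  obtain ⟨⟨k1, k2⟩, k3⟩ := h'
  have h1' : ∀ r : R, q.st * (ω.val * r) = 0 := fun r => by rw [← mul_assoc, h1, zero_mul]
  have h2' : ∀ r : R, ω.st * (q.val * r) = 0 := fun r => by rw [← mul_assoc, h2, zero_mul]
  have k1' : ∀ r : R, q'.st * (ω'.val * r) = 0 := fun r => by rw [← mul_assoc, k1, zero_mul]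
  have k2' : ∀ r : R, ω'.st * (q'.val * r) = 0 := fun r => by rw [← mul_assoc, k2, zero_mul]
  refine ⟨⟨q'.val * q.st + ω'.val * ω.st, q.val * q'.st + ω.val * ω'.st, ?_, ?_⟩, ?_, ?_⟩
  · simp only [mul_add, add_mul, mul_assoc, Isom.st_val_mul, h1', h2', mul_zero, add_zero,
      zero_add, k3]
  · simp only [mul_add, add_mul, mul_assoc, Isom.st_val_mul, k1', k2', mul_zero, add_zero,
      zero_add, h3]
  · refine Isom.ext ?_ ?_
    · show (q'.val * q.st + ω'.val * ω.st) * q.val = q'.val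
      rw [add_mul, mul_assoc, mul_assoc, q.st_val, h2, mul_one, mul_zero, add_zero]
    · show q.st * (q.val * q'.st + ω.val * ω'.st) = q'.st
      rw [mul_add, Isom.st_val_mul, h1', add_zero]
  · refine Isom.ext ?_ ?_
    · show (q'.val * q.st + ω'.val * ω.st) * ω.val = ω'.val
      rw [add_mul, mul_assoc, mul_assoc, ω.st_val, h1, mul_one, mul_zero, zero_add]
    · show ω.st * (q.val * q'.st + ω.val * ω'.st) = ω'.st
      rw [mul_add, Isom.st_val_mul, h2', zero_add]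

theorem trans_one (hL : HLeavitt R) {t t' : Isom R} (h : ∃ y, Orth t y) (h' : ∃ y, Orth t' y) :
    ∃ g : Rˣ, g • t = t' := by
  obtain ⟨y, hy⟩ := h
  obtain ⟨y', hy'⟩ := h'
  obtain ⟨ω, hω⟩ := exists_compl hL hy
  obtain ⟨ω', hω'⟩ := exists_compl hL hy'
  obtain ⟨g, hg, -⟩ := trans_lpair hω hω'
  exact ⟨g, hg⟩

private theorem Trans_merge_orth {ι : Type v} [Fintype ι] {q σ : ι → Isom R} {Q z : Isom R}
    (h1 : Q.val = ∑ i, (q i).val * (σ i).st) (h2 : Q.st = ∑ i, (σ i).val * (q i).st)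
    (hz : ∀ i, Orth (q i) z) : Orth Q z := by
  refine ⟨?_, ?_⟩
  · rw [h2, Finset.sum_mul]
    exact Finset.sum_eq_zero fun i _ => by rw [mul_assoc, (hz i).1, mul_zero]
  · rw [h1, Finset.mul_sum]
    exact Finset.sum_eq_zero fun i _ => by rw [← mul_assoc, (hz i).2, zero_mul]

theorem trans_fam (hL : HLeavitt R) {ι : Type v} [Fintype ι] [Nonempty ι] (q q' : ι → Isom R)
    (hq : POrth q) (hq' : POrth q') (hr : ∃ z, ∀ i, Orth (q i) z) (hr' : ∃ z, ∀ i, Orth (q' i) z) :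
    ∃ g : Rˣ, ∀ i, g • q i = q' i := by
  obtain ⟨σ, hσ⟩ := exists_lf hL ι
  obtain ⟨Q, hQ1, hQ2, hQ3, -⟩ := exists_merge q σ hq hσ
  obtain ⟨Q', hQ1', hQ2', hQ3', -⟩ := exists_merge q' σ hq' hσ
  obtain ⟨z, hz⟩ := hr
  obtain ⟨z', hz'⟩ := hr'
  obtain ⟨g, hg⟩ := trans_one hL ⟨z, Trans_merge_orth hQ1 hQ2 hz⟩
    ⟨z', Trans_merge_orth hQ1' hQ2' hz'⟩
  refine ⟨g, fun i => ?_⟩
  rw [← hQ3 i, Isom.smul_mul, hg, hQ3' i]

theorem trans_adj (hL : HLeavitt R) {t z t' z' : Isom R} (h : Adj t z) (h' : Adj t' z') :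
    ∃ g : Rˣ, g • t = t' ∧ g • z = z' := by
  obtain ⟨h1, y, h2, h3⟩ := h
  obtain ⟨k1, y', k2, k3⟩ := h'
  have key : ∀ {a b : Isom R}, Orth a b → POrth ![a, b] := by
    intro a b hab i j hij
    fin_cases i <;> fin_cases j
    · exact absurd rfl hij
    · exact hab
    · exact hab.symm
    · exact absurd rfl hij
  obtain ⟨g, hg⟩ := trans_fam hL ![t, z] ![t', z'] (key h1) (key k1)
    ⟨y, fun i => by fin_cases i; exacts [h2, h3]⟩ ⟨y', fun i => by fin_cases i; exacts [k2, k3]⟩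
  exact ⟨g, hg 0, hg 1⟩

theorem trans_tri (hL : HLeavitt R) {t z w t' z' w' : Isom R} (h : Tri t z w)
    (h' : Tri t' z' w') : ∃ g : Rˣ, g • t = t' ∧ g • z = z' ∧ g • w = w' := by
  obtain ⟨h1, h2, h3, y, h4, h5, h6⟩ := h
  obtain ⟨k1, k2, k3, y', k4, k5, k6⟩ := h'
  have key : ∀ {a b c : Isom R}, Orth a b → Orth a c → Orth b c → POrth ![a, b, c] := by
    intro a b c hab hac hbc i j hij
    fin_cases i <;> fin_cases j
    · exact absurd rfl hij
    · exact hab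
    · exact hac
    · exact hab.symm
    · exact absurd rfl hij
    · exact hbc
    · exact hac.symm
    · exact hbc.symm
    · exact absurd rfl hij
  obtain ⟨g, hg⟩ := trans_fam hL ![t, z, w] ![t', z', w'] (key h1 h2 h3) (key k1 k2 k3)
    ⟨y, fun i => by fin_cases i; exacts [h4, h5, h6]⟩
    ⟨y', fun i => by fin_cases i; exacts [k4, k5, k6]⟩
  exact ⟨g, hg 0, hg 1, hg 2⟩

end P193
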