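import Vale.Agent.Lib.P193.Two.Claim1
import Vale.Agent.Lib.P193.Two.StMat2
import Vale.Agent.Lib.P193.Two.StabH
import Vale.Agent.Lib.P193.Two.ElD
import Vale.Agent.Lib.P193.Two.Trans
import Vale.Agent.Lib.P193.Two.CovDefs

/-!
# P193 part II, section 4: the stabilisers in the Steinberg group.

Index type `Option κ`; `∞ = none`. `Hsub = ι(St κ R)`.
-/

namespace P193

universe u v w

variable {R : Type u} [Ring R] [CharP R 2]

/-- `rep` is injective on `H`: `rep τ (ι y) = 1` gives `mat y = 1` (`rep_mapIdx`, `mat_eq_one_of_rep`) and `claim1`. -/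
theorem rep_inj_H {κ : Type v} [Fintype κ] [DecidableEq κ] (hR : HRep R)
    (h3 : 3 ≤ Fintype.card κ) (τ : Option κ → Isom R) (hτ : POrth τ) (g : St (Option κ) R)
    (hg : g ∈ Hsub κ R) (h : rep τ hτ g = 1) : g = 1 := by
  obtain ⟨y, rfl⟩ := hg
  have hf : POrth (fun i => τ (Function.Embedding.some i)) := fun i j hij =>
    hτ _ _ (Function.Embedding.some.injective.ne hij)
  rw [rep_mapIdx τ hτ Function.Embedding.some hf y] at h
  exact claim1 hR h3 y (mat_eq_one_of_rep _ hf y h)

/-- every unit fixing `τ_∞` comes from `H` (`El_rel` for the family `τ ∘ some`, `rep_range`, `rep_mapIdx`) -/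
theorem exists_H {κ : Type v} [Fintype κ] [Nontrivial κ] (hL : HLeavitt R) (hS : HScal R)
    (hR : HRep R) (τ : Option κ → Isom R) (hτ : IsLF τ) (u : Rˣ) (hu : u • τ none = τ none) :
    ∃ g ∈ Hsub κ R, rep τ hτ.1 g = u := by
  have hf : POrth (fun i => τ (Function.Embedding.some i)) := fun i j hij =>
    hτ.1 _ _ (Function.Embedding.some.injective.ne hij)
  have hsum := hτ.2
  rw [Fintype.sum_option] at hsum
  have h1 : u ∈ El (fun i => τ (Function.Embedding.some i)) :=
    El_rel hL hS hR hf (τ none) hsum u hu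
  rw [← rep_range _ hf] at h1
  obtain ⟨y, hy⟩ := h1
  refine ⟨St.mapIdx Function.Embedding.some y, ⟨y, rfl⟩, ?_⟩
  rw [rep_mapIdx τ hτ.1 Function.Embedding.some hf y]
  exact hy

/-- the same for the stabiliser of two members (`El_rel2`, family `τ ∘ some ∘ some`) -/
theorem exists_H2 {κ : Type v} [Fintype κ] [Nontrivial κ] (hL : HLeavitt R) (hS : HScal R)
    (hR : HRep R) (τ : Option (Option κ) → Isom R) (hτ : IsLF τ) (u : Rˣ)
    (hu : u • τ none = τ none) (hu' : u • τ (some none) = τ (some none)) :
    ∃ y : St κ R, rep τ hτ.1 (St.mapIdx Function.Embedding.some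
      (St.mapIdx Function.Embedding.some y)) = u := by
  have hf : POrth (fun i => τ (Function.Embedding.some i)) := fun i j hij =>
    hτ.1 _ _ (Function.Embedding.some.injective.ne hij)
  have hf2 : POrth (fun i => τ (Function.Embedding.some (Function.Embedding.some i))) :=
    fun i j hij => hf _ _ (Function.Embedding.some.injective.ne hij)
  have hsum := hτ.2
  rw [Fintype.sum_option, Fintype.sum_option] at hsum
  have h1 : u ∈ El (fun i => τ (Function.Embedding.some (Function.Embedding.some i))) :=
    El_rel2 hL hS hR hf2 (τ none) (τ (some none)) (hτ.1 _ _ (by simp)) hsum u hu hu'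
  rw [← rep_range _ hf2] at h1
  obtain ⟨y, hy⟩ := h1
  refine ⟨y, ?_⟩
  rw [rep_mapIdx τ hτ.1 Function.Embedding.some hf, rep_mapIdx _ hf Function.Embedding.some hf2 y]
  exact hy

/-- every unit comes from the Steinberg group (`rep_range`, `El_eq_top`) -/
theorem rep_surjective {ι : Type v} [Fintype ι] [Nontrivial ι] (hL : HLeavitt R) (hS : HScal R)
    (hR : HRep R) (τ : ι → Isom R) (hτ : IsLF τ) : Function.Surjective (rep τ hτ.1) := by
  intro u
  have h1 : u ∈ (rep τ hτ.1).range := by
    rw [rep_range, El_eq_top hL hS hR hτ]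
    trivial
  exact h1

end P193
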