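import Vale.Agent.Lib.P193.Two.CovBase
import Vale.Agent.Lib.P193.Two.Stab

/-!
# P193 part II, section 4: unique lifting of edges in `St ι R ⧸ H`.
-/

namespace P193

universe u v w

variable {R : Type u} [Ring R] [CharP R 2] {κ : Type v} [Fintype κ] [DecidableEq κ] [Nontrivial κ]

omit [CharP R 2] [Fintype κ] [DecidableEq κ] [Nontrivial κ] in
private theorem CovLift_smul_mk (g h : St (I3 κ) R) :
    g • ((h : St (I3 κ) R) : VV κ R) = ((g * h : St (I3 κ) R) : VV κ R) := rfl

omit [CharP R 2] [Fintype κ] [DecidableEq κ] [Nontrivial κ] in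
private theorem CovLift_mem {g g' : St (I3 κ) R}
    (h : g • ((1 : St (I3 κ) R) : VV κ R) = g' • ((1 : St (I3 κ) R) : VV κ R)) :
    g⁻¹ * g' ∈ Hsub (Option (Option κ)) R := by
  rw [CovLift_smul_mk, CovLift_smul_mk, mul_one, mul_one] at h
  exact QuotientGroup.eq.1 h

omit [CharP R 2] [Fintype κ] [DecidableEq κ] [Nontrivial κ] in
private theorem CovLift_fix {h : St (I3 κ) R} (hh : h ∈ Hsub (Option (Option κ)) R) :
    h • ((1 : St (I3 κ) R) : VV κ R) = ((1 : St (I3 κ) R) : VV κ R) := by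
  rw [CovLift_smul_mk, mul_one]
  refine (QuotientGroup.eq.2 ?_).symm
  rw [inv_one, one_mul]
  exact hh

omit [Fintype κ] [DecidableEq κ] [Nontrivial κ] in
private theorem CovLift_vp_vtx (τ : I3 κ → Isom R) (hτ : POrth τ) :
    vp τ hτ (vtx none) = τ (some none) := by
  unfold vtx
  rw [vp_mk]
  exact rep_w τ hτ (Option.some_ne_none _)

omit [Fintype κ] [DecidableEq κ] [Nontrivial κ] in
private theorem CovLift_vp_one (τ : I3 κ → Isom R) (hτ : POrth τ) (g : St (I3 κ) R) :
    vp τ hτ (g • ((1 : St (I3 κ) R) : VV κ R)) = rep τ hτ g • τ none := by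
  rw [CovLift_smul_mk, mul_one, vp_mk]

omit [CharP R 2] [Fintype κ] [DecidableEq κ] [Nontrivial κ] in
private theorem CovLift_comm (y : St (Option κ) R) :
    Commute (St.w (some none) none 1 : St (I3 κ) R)
      (St.mapIdx Function.Embedding.some (St.mapIdx Function.Embedding.some y)) := by
  have h : y ∈ Subgroup.closure {g : St (Option κ) R | ∃ i j r, g = St.x i j r} := by
    rw [St.closure_eq_top]
    exact Subgroup.mem_top y
  induction h using Subgroup.closure_induction with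
  | mem x hx =>
    obtain ⟨i, j, r, rfl⟩ := hx
    rw [St.mapIdx_x, St.mapIdx_x]
    refine St.w_comm (some none) none (some (some i)) (some (some j)) ?_ ?_ ?_ ?_ ?_ 1 r <;> simp
  | one =>
    rw [map_one, map_one]
    exact Commute.one_right _
  | mul a b _ _ ha hb =>
    rw [map_mul, map_mul]
    exact ha.mul_right hb
  | inv a _ ha =>
    rw [map_inv, map_inv]
    exact ha.inv_right

omit [CharP R 2] [Fintype κ] [DecidableEq κ] [Nontrivial κ] in
private theorem CovLift_fix2 (y : St (Option κ) R) :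
    (St.mapIdx Function.Embedding.some (St.mapIdx Function.Embedding.some y) : St (I3 κ) R) •
      (vtx none : VV κ R) = vtx none := by
  unfold vtx
  rw [CovLift_smul_mk, ← (CovLift_comm y).eq]
  exact QuotientGroup.mk_mul_of_mem _ ⟨_, rfl⟩

/-- lifting: translate to `a = v_n`; by `trans_adj` some unit maps `(τ_n, τ_(n-1))` to `(τ_n, z)`; it fixes `τ_n`, so comes from
`h ∈ H` (`exists_H`); `b = h v_(n-1)`. -/
theorem vlift (hL : HLeavitt R) (hS : HScal R) (hR : HRep R) (τ : I3 κ → Isom R) (hτ : IsLF τ)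
    (a : VV κ R) (z : Isom R) (h : Adj (vp τ hτ.1 a) z) : ∃ b, vadj a b ∧ vp τ hτ.1 b = z := by
  obtain ⟨g, rfl⟩ := QuotientGroup.mk_surjective a
  rw [vp_mk] at h
  have h1 : Adj (τ none) ((rep τ hτ.1 g)⁻¹ • z) := by
    have := h.smul (rep τ hτ.1 g)⁻¹
    rwa [inv_smul_smul] at this
  have h0 : Adj (τ none) (τ (some none)) :=
    ⟨hτ.1 _ _ (by simp), τ (some (some none)), hτ.1 _ _ (by simp), hτ.1 _ _ (by simp)⟩
  obtain ⟨u, hu1, hu2⟩ := trans_adj hL h0 h1
  obtain ⟨k, hk, hku⟩ := exists_H hL hS hR τ hτ u hu1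
  refine ⟨(g * k) • vtx none, ⟨g * k, ?_, rfl⟩, ?_⟩
  · rw [mul_smul, CovLift_fix hk, CovLift_smul_mk, mul_one]
  · rw [vp_smul, CovLift_vp_vtx, map_mul, mul_smul, hku, hu2, smul_inv_smul]

/-- uniqueness: translate to `a = v_n`: `b = h v_(n-1)`, `b' = h' v_(n-1)` with `h, h' ∈ H`; `rep (h⁻¹ h')` fixes `τ_n`, `τ_(n-1)`, so it
is the image of `ι ι y` (`exists_H2`), and `h⁻¹ h' = ι ι y` by `rep_inj_H`; `ι ι y` fixes `v_(n-1)` since it commutes with
`w_(n-1,n)` (`St.w_comm`). -/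
theorem vuniq (hL : HLeavitt R) (hS : HScal R) (hR : HRep R) (τ : I3 κ → Isom R) (hτ : IsLF τ)
    {a b b' : VV κ R} (h : vadj a b) (h' : vadj a b') (hp : vp τ hτ.1 b = vp τ hτ.1 b') :
    b = b' := by
  obtain ⟨g, ha, rfl⟩ := h
  obtain ⟨g', ha', rfl⟩ := h'
  have hk : g⁻¹ * g' ∈ Hsub (Option (Option κ)) R := CovLift_mem (ha.symm.trans ha')
  have hg : g' = g * (g⁻¹ * g') := (mul_inv_cancel_left g g').symm
  generalize g⁻¹ * g' = k at hk hg
  subst hg
  rw [vp_smul, vp_smul, CovLift_vp_vtx, map_mul, mul_smul] at hp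
  have hp' : τ (some none) = rep τ hτ.1 k • τ (some none) := smul_left_cancel _ hp
  obtain ⟨y, hy⟩ := exists_H2 hL hS hR τ hτ (rep τ hτ.1 k) (H_fix τ hτ.1 k hk) hp'.symm
  have h3 : 3 ≤ Fintype.card (Option (Option κ)) := by
    have := Fintype.one_lt_card (α := κ)
    simp only [Fintype.card_option]
    omega
  have hy1 : k = St.mapIdx Function.Embedding.some (St.mapIdx Function.Embedding.some y) := by
    have h4 := rep_inj_H hR h3 τ hτ.1
      (k⁻¹ * St.mapIdx Function.Embedding.some (St.mapIdx Function.Embedding.some y))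
      (Subgroup.mul_mem _ (Subgroup.inv_mem _ hk) ⟨_, rfl⟩) (by
        rw [map_mul, map_inv, hy, inv_mul_cancel])
    exact (inv_mul_eq_one.1 h4)
  rw [mul_smul, hy1, CovLift_fix2]

end P193
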