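import Vale.Agent.Lib.P193.Two.StMap

/-!
# P193 part II, section 4, (c): the elements `w_ij(u)`.
-/

namespace P193

universe u v w

open scoped commutatorElement

variable {R : Type u} [Ring R] [CharP R 2] {ι : Type v} {κ : Type w}

/-- `w_ij(u) = x_ij(u) x_ji(u*) x_ij(u)` -/
def St.w (i j : ι) (t : Isom R) : St ι R := St.x i j t.val * St.x j i t.st * St.x i j t.val

omit [CharP R 2] in
theorem St.mapIdx_w (f : ι ↪ κ) (i j : ι) (t : Isom R) :
    St.mapIdx f (St.w i j t) = St.w (f i) (f j) t := by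
  unfold St.w
  rw [map_mul, map_mul, St.mapIdx_x, St.mapIdx_x]

omit [CharP R 2] in
private theorem StW_x_zero (i j : ι) : St.x i j (0 : R) = 1 := by
  have h := St.add i j (0 : R) 0
  rw [add_zero] at h
  exact mul_eq_left.1 h

private theorem StW_x_sq (i j : ι) (r : R) : St.x i j r * St.x i j r = 1 := by
  rw [St.add, CharTwo.add_self_eq_zero, StW_x_zero]

private theorem StW_x_inv (i j : ι) (r : R) : (St.x i j r)⁻¹ = St.x i j r :=
  inv_eq_of_mul_eq_one_right (StW_x_sq i j r)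

/-- conjugation of `x_jk` by `x_ij` -/
private theorem StW_c1 (i j k : ι) (h1 : i ≠ j) (h2 : j ≠ k) (h3 : i ≠ k) (a r : R) :
    St.x i j a * St.x j k r * St.x i j a = St.x i k (a * r) * St.x j k r := by
  have h := St.comm3 i j k a r h1 h2 h3
  rw [commutatorElement_def, StW_x_inv, StW_x_inv] at h
  rw [← h, mul_assoc _ (St.x j k r) (St.x j k r), StW_x_sq, mul_one]

/-- conjugation of `x_kj` by `x_ji` -/
private theorem StW_c2 (k j i : ι) (h1 : k ≠ j) (h2 : j ≠ i) (h3 : k ≠ i) (a r : R) :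
    St.x j i a * St.x k j r * St.x j i a = St.x k i (r * a) * St.x k j r := by
  have h := St.comm3 k j i r a h1 h2 h3
  have h' : ⁅St.x j i a, St.x k j r⁆ = St.x k i (r * a) := by
    rw [← commutatorElement_inv, h, StW_x_inv]
  rw [commutatorElement_def, StW_x_inv, StW_x_inv] at h'
  rw [← h', mul_assoc _ (St.x k j r) (St.x k j r), StW_x_sq, mul_one]

private theorem StW_cc {G : Type w} [Group G] {a b : G} (h : Commute a b) (ha : a * a = 1) :
    a * b * a = b := by
  rw [h.eq, mul_assoc, ha, mul_one]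

private theorem StW_conj {G : Type w} [Group G] {a b x y z v : G} (_ha : a * a = 1)
    (h1 : a * x * a = y) (h2 : b * y * b = z) (h3 : a * z * a = v) (_hb : b * b = 1) :
    (a * b * a) * x * (a * b * a) = v := by
  rw [← h3, ← h2, ← h1]
  simp only [mul_assoc]

theorem St.w_sq (i j : ι) (t : Isom R) : St.w i j t * St.w i j t = 1 := by
  unfold St.w
  have h1 := StW_x_sq i j t.val
  have h2 := StW_x_sq j i t.st
  calc St.x i j t.val * St.x j i t.st * St.x i j t.val *
        (St.x i j t.val * St.x j i t.st * St.x i j t.val)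
      = St.x i j t.val * (St.x j i t.st * (St.x i j t.val * St.x i j t.val) * St.x j i t.st) *
          St.x i j t.val := by simp only [mul_assoc]
    _ = 1 := by rw [h1, mul_one, h2, mul_one, h1]

theorem St.w_inv (i j : ι) (t : Isom R) : (St.w i j t)⁻¹ = St.w i j t :=
  inv_eq_of_mul_eq_one_right (St.w_sq i j t)

/-- `w_ij(u) x_jk(r) w_ij(u)⁻¹ = x_ik(u r)` -/
theorem St.w_conj1 (i j k : ι) (h1 : i ≠ j) (h2 : j ≠ k) (h3 : i ≠ k) (t : Isom R) (r : R) :
    St.w i j t * St.x j k r * (St.w i j t)⁻¹ = St.x i k (t.val * r) := by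
  rw [St.w_inv]
  unfold St.w
  refine StW_conj (StW_x_sq i j t.val) (StW_c1 i j k h1 h2 h3 t.val r)
    (z := St.x i k (t.val * r)) ?_ ?_ (StW_x_sq j i t.st)
  · have e1 := StW_c1 j i k h1.symm h3 h2 t.st (t.val * r)
    rw [← mul_assoc, t.st_val, one_mul] at e1
    have e2 : St.x j i t.st * St.x j k r * St.x j i t.st = St.x j k r :=
      StW_cc (St.comm1 j i j k t.st r h1.symm h2 h1 h2) (StW_x_sq j i t.st)
    have e3 : Commute (St.x i k (t.val * r)) (St.x j k r) :=
      St.comm1 i k j k _ _ h3 h2 h2.symm h3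
    calc St.x j i t.st * (St.x i k (t.val * r) * St.x j k r) * St.x j i t.st
        = (St.x j i t.st * St.x i k (t.val * r) * St.x j i t.st) *
          (St.x j i t.st * St.x j k r * St.x j i t.st) := by
          simp only [mul_assoc]
          rw [← mul_assoc (St.x j i t.st) (St.x j i t.st), StW_x_sq, one_mul]
      _ = St.x j k r * St.x i k (t.val * r) * St.x j k r := by rw [e1, e2]
      _ = St.x i k (t.val * r) := StW_cc e3.symm (StW_x_sq j k r)
  · exact StW_cc (St.comm1 i j i k _ _ h1 h3 h1.symm h3) (StW_x_sq i j t.val)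

/-- `w_ij(u) x_kj(r) w_ij(u)⁻¹ = x_ki(r u*)` -/
theorem St.w_conj2 (i j k : ι) (h1 : i ≠ j) (h2 : j ≠ k) (h3 : i ≠ k) (t : Isom R) (r : R) :
    St.w i j t * St.x k j r * (St.w i j t)⁻¹ = St.x k i (r * t.st) := by
  rw [St.w_inv]
  unfold St.w
  have e0 : St.x i j t.val * St.x k j r * St.x i j t.val = St.x k j r :=
    StW_cc (St.comm1 i j k j _ _ h1 h2.symm h2 h1) (StW_x_sq i j t.val)
  refine StW_conj (StW_x_sq i j t.val) e0
    (StW_c2 k j i h2.symm h1.symm h3.symm t.st r) ?_ (StW_x_sq j i t.st)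
  have e1 := StW_c2 k i j h3.symm h1 h2.symm t.val (r * t.st)
  rw [mul_assoc r t.st t.val, t.st_val, mul_one] at e1
  have e3 : Commute (St.x k j r) (St.x k i (r * t.st)) :=
    St.comm1 k j k i _ _ h2.symm h3.symm h2 h3.symm
  calc St.x i j t.val * (St.x k i (r * t.st) * St.x k j r) * St.x i j t.val
      = (St.x i j t.val * St.x k i (r * t.st) * St.x i j t.val) *
        (St.x i j t.val * St.x k j r * St.x i j t.val) := by
        simp only [mul_assoc]
        rw [← mul_assoc (St.x i j t.val) (St.x i j t.val), StW_x_sq, one_mul]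
    _ = St.x k j r * St.x k i (r * t.st) * St.x k j r := by rw [e1, e0]
    _ = St.x k i (r * t.st) := StW_cc e3 (StW_x_sq k j r)

/-- `w_ij(1) x_ik(r) w_ij(1)⁻¹ = x_jk(r)` -/
theorem St.w_conj3 (i j k : ι) (h1 : i ≠ j) (h2 : j ≠ k) (h3 : i ≠ k) (r : R) :
    St.w i j 1 * St.x i k r * (St.w i j 1)⁻¹ = St.x j k r := by
  rw [St.w_inv]
  unfold St.w
  rw [Isom.one_val, Isom.one_st]
  have e0 : St.x i j (1 : R) * St.x i k r * St.x i j (1 : R) = St.x i k r :=
    StW_cc (St.comm1 i j i k _ _ h1 h3 h1.symm h3) (StW_x_sq i j 1)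
  have e1 := StW_c1 j i k h1.symm h3 h2 (1 : R) r
  rw [one_mul] at e1
  refine StW_conj (StW_x_sq i j 1) e0 e1 ?_ (StW_x_sq j i 1)
  have e2 := StW_c1 i j k h1 h2 h3 (1 : R) r
  rw [one_mul] at e2
  have e3 : Commute (St.x i k r) (St.x j k r) :=
    St.comm1 i k j k _ _ h3 h2 h2.symm h3
  calc St.x i j (1 : R) * (St.x j k r * St.x i k r) * St.x i j (1 : R)
      = (St.x i j (1 : R) * St.x j k r * St.x i j (1 : R)) *
        (St.x i j (1 : R) * St.x i k r * St.x i j (1 : R)) := by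
        simp only [mul_assoc]
        rw [← mul_assoc (St.x i j (1 : R)) (St.x i j (1 : R)), StW_x_sq, one_mul]
    _ = St.x i k r * St.x j k r * St.x i k r := by rw [e2, e0]
    _ = St.x j k r := StW_cc e3 (StW_x_sq i k r)

/-- `w_ij(1) x_ki(r) w_ij(1)⁻¹ = x_kj(r)` -/
theorem St.w_conj4 (i j k : ι) (h1 : i ≠ j) (h2 : j ≠ k) (h3 : i ≠ k) (r : R) :
    St.w i j 1 * St.x k i r * (St.w i j 1)⁻¹ = St.x k j r := by
  rw [St.w_inv]
  unfold St.w
  rw [Isom.one_val, Isom.one_st]
  have e0 := StW_c2 k i j h3.symm h1 h2.symm (1 : R) r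
  rw [mul_one] at e0
  refine StW_conj (StW_x_sq i j 1) e0 (z := St.x k j r) ?_ ?_ (StW_x_sq j i 1)
  · have e1 := StW_c2 k j i h2.symm h1.symm h3.symm (1 : R) r
    rw [mul_one] at e1
    have e2 : St.x j i (1 : R) * St.x k i r * St.x j i (1 : R) = St.x k i r :=
      StW_cc (St.comm1 j i k i _ _ h1.symm h3.symm h3 h1.symm) (StW_x_sq j i 1)
    have e3 : Commute (St.x k i r) (St.x k j r) :=
      St.comm1 k i k j _ _ h3.symm h2.symm h3 h2.symm
    calc St.x j i (1 : R) * (St.x k j r * St.x k i r) * St.x j i (1 : R)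
        = (St.x j i (1 : R) * St.x k j r * St.x j i (1 : R)) *
          (St.x j i (1 : R) * St.x k i r * St.x j i (1 : R)) := by
          simp only [mul_assoc]
          rw [← mul_assoc (St.x j i (1 : R)) (St.x j i (1 : R)), StW_x_sq, one_mul]
      _ = St.x k i r * St.x k j r * St.x k i r := by rw [e1, e2]
      _ = St.x k j r := StW_cc e3 (StW_x_sq k i r)
  · exact StW_cc (St.comm1 i j k j _ _ h1 h2.symm h2 h1) (StW_x_sq i j 1)

omit [CharP R 2] in
/-- `w_ij(u)` commutes with `x_kl(r)` for `k, l ∉ {i, j}` -/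
theorem St.w_comm (i j k l : ι) (h1 : i ≠ j) (h2 : k ≠ i) (h3 : k ≠ j) (h4 : l ≠ i) (h5 : l ≠ j)
    (t : Isom R) (r : R) : Commute (St.w i j t) (St.x k l r) := by
  by_cases hkl : k = l
  · subst hkl
    rw [St.diag]
    exact Commute.one_right _
  · have e1 : Commute (St.x i j t.val) (St.x k l r) :=
      St.comm1 i j k l _ _ h1 hkl h3.symm h4.symm
    have e2 : Commute (St.x j i t.st) (St.x k l r) :=
      St.comm1 j i k l _ _ h1.symm hkl h2.symm h5.symm
    exact (e1.mul_left e2).mul_left e1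

end P193
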