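import Vale.Agent.Lib.P193.Two.StabH
import Vale.Agent.Lib.P193.Two.StW
import Vale.Agent.Lib.P193.Two.CovDefs

/-!
# P193 part II, section 4: the covering `St ι R ⧸ H`, `ι = Option (Option (Option κ))`.

`n = none`, `n - 1 = some none`, `n - 2 = some (some none)`. `v_n = H`, `v_k = w_(k,n) H`. Edges: the translates of `(v_n, v_(n-1))`.
-/

namespace P193

universe u v w

variable {R : Type u} [Ring R] [CharP R 2] {κ : Type v}

/-- the index type -/
abbrev I3 (κ : Type v) : Type v := Option (Option (Option κ))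

/-- the vertices -/
abbrev VV (κ : Type v) (R : Type u) [Ring R] : Type (max v u) :=
  St (I3 κ) R ⧸ Hsub (Option (Option κ)) R

/-- the base vertices `v_k = w_(k,n) H` (`k ≠ n`) -/
def vtx (k : Option (Option κ)) : VV κ R :=
  ((St.w (some k) none 1 : St (I3 κ) R) : VV κ R)

/-- adjacency -/
def vadj (a b : VV κ R) : Prop :=
  ∃ g : St (I3 κ) R, a = g • ((1 : St (I3 κ) R) : VV κ R) ∧ b = g • vtx none

theorem vadj_smul (g : St (I3 κ) R) {a b : VV κ R} (h : vadj a b) : vadj (g • a) (g • b) := by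
  obtain ⟨x, rfl, rfl⟩ := h
  exact ⟨g * x, (mul_smul g x _).symm, (mul_smul g x _).symm⟩

private theorem CovSt_wd (τ : I3 κ → Isom R) (hτ : POrth τ) (a b : St (I3 κ) R)
    (h : QuotientGroup.leftRel (Hsub (Option (Option κ)) R) a b) :
    rep τ hτ a • τ none = rep τ hτ b • τ none := by
  rw [QuotientGroup.leftRel_apply] at h
  have e := H_fix τ hτ _ h
  have e2 : rep τ hτ b = rep τ hτ a * rep τ hτ (a⁻¹ * b) := by
    rw [← map_mul, mul_inv_cancel_left]
  rw [e2, mul_smul, e]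

/-- the projection `g H ↦ rep g • τ_n` (well defined by `H_fix`) -/
noncomputable def vp (τ : I3 κ → Isom R) (hτ : POrth τ) : VV κ R → Isom R :=
  Quotient.lift (fun g : St (I3 κ) R => rep τ hτ g • τ none) (CovSt_wd τ hτ)

theorem vp_mk (τ : I3 κ → Isom R) (hτ : POrth τ) (g : St (I3 κ) R) :
    vp τ hτ ((g : St (I3 κ) R) : VV κ R) = rep τ hτ g • τ none := rfl

theorem vp_smul (τ : I3 κ → Isom R) (hτ : POrth τ) (g : St (I3 κ) R) (a : VV κ R) :
    vp τ hτ (g • a) = rep τ hτ g • vp τ hτ a := by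
  induction a using QuotientGroup.induction_on with
  | H x =>
    have e : g • ((x : St (I3 κ) R) : VV κ R) = ((g * x : St (I3 κ) R) : VV κ R) := rfl
    rw [e, vp_mk, vp_mk, map_mul, mul_smul]

/-- `w_(n-1,n)` swaps `v_n` and `v_(n-1)` (`St.w_sq`) -/
theorem vadj_symm {a b : VV κ R} (h : vadj a b) : vadj b a := by
  obtain ⟨x, rfl, rfl⟩ := h
  have e1 : ∀ g : St (I3 κ) R, g • ((1 : St (I3 κ) R) : VV κ R) = ((g : St (I3 κ) R) : VV κ R) := by
    intro g
    have e : g • ((1 : St (I3 κ) R) : VV κ R) = ((g * 1 : St (I3 κ) R) : VV κ R) := rfl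
    rw [e, mul_one]
  have e2 : ∀ g : St (I3 κ) R, g • (vtx none : VV κ R) =
      ((g * St.w (some none) none 1 : St (I3 κ) R) : VV κ R) := fun g => rfl
  refine ⟨x * St.w (some none) none 1, ?_, ?_⟩
  · rw [e1, e2]
  · rw [e1, e2, mul_assoc, St.w_sq, mul_one]

end P193
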