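import Vale.Agent.Lib.P193.Two.CovDefs

/-!
# P193 part II, section 4: sub-lifts in a covering.
-/

namespace P193

universe u v

variable {R : Type u} [Ring R] {V : Type v} (C : Cov R V)

/-- `s` is a sub-lift of `v` at `a`: `s` lies over `p v * a` and is joined to `v` through some `w`, `v ~ w ~ s` -/
def Cov.Sub (a : Isom R) (v s : V) : Prop :=
  ∃ w, C.adj v w ∧ C.adj w s ∧ C.p s = C.p v * a

/-- every neighbour `w` of `v` leads to a sub-lift (`Adj (p w) (p v * a)`) -/
theorem Cov.exists_sub (a : Isom R) {v w : V} (h : C.adj v w) :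
    ∃ s, C.adj w s ∧ C.p s = C.p v * a := C.lift w (C.p v * a) (((C.adj_p h).mul_left a).symm)

/-- one step: if `w`, `w'` are neighbours of `v` and `(p v, p w, p w')` is a triangle then the sub-lift through `w` is adjacent
to `w'` too: `w ~ w'` (tri at `v`), `s ~ w'` (tri at `w`, `Tri (p w) (p s) (p w')`). -/
theorem Cov.sub_step (a : Isom R) {v w w' s : V} (h : C.adj v w) (h' : C.adj v w')
    (ht : Tri (C.p v) (C.p w) (C.p w')) (hs : C.adj w s) (hp : C.p s = C.p v * a) :
    C.adj w' s := by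
  have h1 : C.adj w w' := C.tri h h' ht
  have h2 : Tri (C.p w) (C.p s) (C.p w') := by
    rw [hp]
    exact (ht.mul_left a).rot.swap
  exact C.symm (C.tri hs h1 h2)

/-- the sub-lift is adjacent to ALL neighbours of `v`: `exists_link_path`, lift its vertices, three steps -/
theorem Cov.sub_adj (hL : HLeavitt R) (hS : HScal R) (a : Isom R) {v w s : V}
    (hs : C.Sub a v s) (h : C.adj v w) : C.adj w s := by
  obtain ⟨w0, h0, h1, h2⟩ := hs
  obtain ⟨c, d, hc, hd, hw⟩ := exists_link_path hL hS (C.adj_p h0) (C.adj_p h)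
  obtain ⟨wc, hwc, hpc⟩ := C.lift v c hd.adj
  obtain ⟨wd, hwd, hpd⟩ := C.lift v d hw.adj
  rw [← hpc] at hc hd
  rw [← hpd] at hd hw
  have e1 : C.adj wc s := C.sub_step a h0 hwc hc h1 h2
  have e2 : C.adj wd s := C.sub_step a hwc hwd hd e1 h2
  exact C.sub_step a hwd h hw e2 h2

/-- the sub-lift is unique -/
theorem Cov.sub_unique (hL : HLeavitt R) (hS : HScal R) (a : Isom R) {v s s' : V}
    (hs : C.Sub a v s) (hs' : C.Sub a v s') : s = s' := by
  obtain ⟨w, h0, h1, h2⟩ := hs
  have h3 := C.sub_adj hL hS a hs' h0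
  exact C.uniq h1 h3 (by rw [h2, hs'.choose_spec.2.2])

/-- `v` is recovered from its sub-lift: if `v`, `v'` lie over the same isometry and have the same sub-lift `s` then `v = v'`:
take `w ~ v`; `w ~ s`; the lift `w'` of `p w` at `v'` is adjacent to `s` and over `p w`, so `w' = w`; then `v`, `v'` are both
neighbours of `w` over `p v`. -/
theorem Cov.sub_inj (hL : HLeavitt R) (hS : HScal R) (a : Isom R) {v v' s : V}
    (hs : C.Sub a v s) (hs' : C.Sub a v' s) (hp : C.p v = C.p v') : v = v' := by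
  obtain ⟨w, h0, h1, _⟩ := hs
  have h3 : Adj (C.p v') (C.p w) := by
    rw [← hp]
    exact C.adj_p h0
  obtain ⟨w', hw', hpw⟩ := C.lift v' (C.p w) h3
  have h4 := C.sub_adj hL hS a hs' hw'
  have h5 : w = w' := C.uniq (C.symm h1) (C.symm h4) hpw.symm
  rw [← h5] at hw'
  exact C.uniq (C.symm h0) (C.symm hw') hp

/-- sub-lifts of neighbours are neighbours: `s ~ v'` (`sub_adj`); `s` is a neighbour of `v'`, so `s'` is adjacent to `s`
(`sub_adj` for `v'`). -/
theorem Cov.sub_adj_sub (hL : HLeavitt R) (hS : HScal R) (a : Isom R) {v v' s s' : V}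
    (hs : C.Sub a v s) (hs' : C.Sub a v' s') (h : C.adj v v') : C.adj s s' := C.sub_adj hL hS a hs' (C.sub_adj hL hS a hs h)

end P193
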