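import Vale.Agent.Lib.P193.Two.CovLift

/-!
# P193 part II, section 4: lifting of triangles in `St ι R ⧸ H`.
-/

namespace P193

universe u v w

variable {R : Type u} [Ring R] [CharP R 2] {κ : Type v} [Fintype κ] [DecidableEq κ] [Nontrivial κ]

omit [CharP R 2] [Fintype κ] [DecidableEq κ] [Nontrivial κ] in
private theorem CovTri_H_fix_one {h : St (I3 κ) R} (hh : h ∈ Hsub (Option (Option κ)) R) :
    h • ((1 : St (I3 κ) R) : VV κ R) = ((1 : St (I3 κ) R) : VV κ R) := by
  show ((h * 1 : St (I3 κ) R) : VV κ R) = ((1 : St (I3 κ) R) : VV κ R)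
  rw [mul_one]
  apply QuotientGroup.eq.2
  rw [mul_one]
  exact inv_mem hh

/-- triangles: translate to `a = v_n`; `trans_tri` and `exists_H` give `h ∈ H` mapping `(τ_n, τ_(n-1), τ_(n-2))` to
`(τ_n, p b, p c)`; by uniqueness `b = h v_(n-1)`, `c = h v_(n-2)` (`vadj_base`); `vadj_base2`. -/
theorem vtri (hL : HLeavitt R) (hS : HScal R) (hR : HRep R) (τ : I3 κ → Isom R) (hτ : IsLF τ)
    {a b c : VV κ R} (h : vadj a b) (h' : vadj a c)
    (ht : Tri (vp τ hτ.1 a) (vp τ hτ.1 b) (vp τ hτ.1 c)) : vadj b c := by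
  obtain ⟨g, ha, -⟩ := id h
  have h1 := vadj_smul g⁻¹ h
  have h1' := vadj_smul g⁻¹ h'
  have ht1 := ht.smul (rep τ hτ.1 g⁻¹)
  rw [← vp_smul, ← vp_smul, ← vp_smul] at ht1
  have ha1 : g⁻¹ • a = ((1 : St (I3 κ) R) : VV κ R) := by rw [ha, inv_smul_smul]
  rw [ha1] at h1 h1' ht1
  have hp1 : vp τ hτ.1 ((1 : St (I3 κ) R) : VV κ R) = τ none := by
    rw [vp_mk, map_one, one_smul]
  rw [hp1] at ht1
  obtain ⟨k, -⟩ := exists_pair_ne κ
  have ne1 : (none : I3 κ) ≠ some none := by simp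
  have ne2 : (none : I3 κ) ≠ some (some none) := by simp
  have ne3 : (some none : I3 κ) ≠ some (some none) := by simp
  have ne4 : (none : I3 κ) ≠ some (some (some k)) := by simp
  have ne5 : (some none : I3 κ) ≠ some (some (some k)) := by simp
  have ne6 : (some (some none) : I3 κ) ≠ some (some (some k)) := by simp
  have hT : Tri (τ none) (τ (some none)) (τ (some (some none))) :=
    ⟨hτ.1 _ _ ne1, hτ.1 _ _ ne2, hτ.1 _ _ ne3, τ (some (some (some k))), hτ.1 _ _ ne4,
      hτ.1 _ _ ne5, hτ.1 _ _ ne6⟩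
  obtain ⟨u, hu1, hu2, hu3⟩ := trans_tri hL hT ht1
  obtain ⟨x, hx, hxu⟩ := exists_H (κ := Option (Option κ)) hL hS hR τ hτ u hu1
  have hx1 := CovTri_H_fix_one (κ := κ) hx
  have key : ∀ j : Option (Option κ), vp τ hτ.1 (x • (vtx j : VV κ R)) = u • τ (some j) := by
    intro j
    rw [vp_smul, hxu, vtx, vp_mk, rep_w τ hτ.1 (by simp)]
  have hb : g⁻¹ • b = x • vtx none := by
    refine vuniq hL hS hR τ hτ h1 ?_ ?_
    · have := vadj_smul x (vadj_base (R := R) (κ := κ) none)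
      rwa [hx1] at this
    · rw [key none, hu2]
  have hc : g⁻¹ • c = x • vtx (some none) := by
    refine vuniq hL hS hR τ hτ h1' ?_ ?_
    · have := vadj_smul x (vadj_base (R := R) (κ := κ) (some none))
      rwa [hx1] at this
    · rw [key (some none), hu3]
  have h2 := vadj_smul g (vadj_smul x (vadj_base2 (R := R) (κ := κ)))
  rwa [← hb, ← hc, smul_inv_smul, smul_inv_smul] at h2

end P193
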