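import Vale.Agent.Lib.P193.Two.Basic

/-!
# P193 part II, section 2, (E1)-(E3).
`El τ` is generated by the units `1 + τ_i r τ_j*` (`i ≠ j`), which are `tv (τ_i r τ_j*)`.
-/

namespace P193

universe u v

variable {R : Type u} [Ring R] [CharP R 2] {ι : Type v} [Fintype ι]

omit [CharP R 2] [Fintype ι] in
theorem mem_El_gen {τ : ι → Isom R} {i j : ι} (hij : i ≠ j) (r : R) (g : Rˣ)
    (hg : (g : R) = 1 + (τ i).val * r * (τ j).st) : g ∈ El τ :=
  Subgroup.subset_closure ⟨i, j, hij, r, hg⟩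

/-- the product of `1 + t A` and `1 + t B` for `A t = 0` -/
private theorem ElA_mul_right {τ : ι → Isom R} {i : ι} {A B : R} (hA : A * (τ i).val = 0)
    (hB : B * (τ i).val = 0) (h1 : ∀ g : Rˣ, (g : R) = 1 + (τ i).val * A → g ∈ El τ)
    (h2 : ∀ g : Rˣ, (g : R) = 1 + (τ i).val * B → g ∈ El τ) (g : Rˣ)
    (hg : (g : R) = 1 + (τ i).val * (A + B)) : g ∈ El τ := by
  have e1 : (τ i).val * A * ((τ i).val * A) = 0 := by
    rw [mul_assoc, ← mul_assoc A, hA, zero_mul, mul_zero]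
  have e2 : (τ i).val * B * ((τ i).val * B) = 0 := by
    rw [mul_assoc, ← mul_assoc B, hB, zero_mul, mul_zero]
  have e3 : (τ i).val * A * ((τ i).val * B) = 0 := by
    rw [mul_assoc, ← mul_assoc A, hA, zero_mul, mul_zero]
  have e : g = tv _ e1 * tv _ e2 := by
    refine Units.ext ?_
    have e4 : ∀ x y : R, (1 + x) * (1 + y) = 1 + (x + y) + x * y := by
      intro x y
      noncomm_ring
    rw [hg, Units.val_mul, tv_val, tv_val, e4, e3, add_zero, mul_add]
  rw [e]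
  exact mul_mem (h1 _ (tv_val _ _)) (h2 _ (tv_val _ _))

private theorem ElA_mul_left {τ : ι → Isom R} {i : ι} {A B : R} (hA : (τ i).st * A = 0)
    (hB : (τ i).st * B = 0) (h1 : ∀ g : Rˣ, (g : R) = 1 + A * (τ i).st → g ∈ El τ)
    (h2 : ∀ g : Rˣ, (g : R) = 1 + B * (τ i).st → g ∈ El τ) (g : Rˣ)
    (hg : (g : R) = 1 + (A + B) * (τ i).st) : g ∈ El τ := by
  have e1 : A * (τ i).st * (A * (τ i).st) = 0 := by
    rw [mul_assoc, ← mul_assoc (τ i).st, hA, zero_mul, mul_zero]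
  have e2 : B * (τ i).st * (B * (τ i).st) = 0 := by
    rw [mul_assoc, ← mul_assoc (τ i).st, hB, zero_mul, mul_zero]
  have e3 : A * (τ i).st * (B * (τ i).st) = 0 := by
    rw [mul_assoc, ← mul_assoc (τ i).st, hB, zero_mul, mul_zero]
  have e : g = tv _ e1 * tv _ e2 := by
    refine Units.ext ?_
    have e4 : ∀ x y : R, (1 + x) * (1 + y) = 1 + (x + y) + x * y := by
      intro x y
      noncomm_ring
    rw [hg, Units.val_mul, tv_val, tv_val, e4, e3, add_zero, add_mul]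
  rw [e]
  exact mul_mem (h1 _ (tv_val _ _)) (h2 _ (tv_val _ _))

/-- (E1): expand `ρ = Σ_j (ρ τ_j) τ_j*` (the term `j = i` vanishes). Prove by `Finset` induction that for
`s ∌ i` the unit `1 + τ_i Σ_{j ∈ s} ρ τ_j τ_j*` is in `El τ` (the product of two such units adds the arguments). -/
theorem El_right {τ : ι → Isom R} (hτ : IsLF τ) (i : ι) (ρ : R) (hρ : ρ * (τ i).val = 0) (g : Rˣ)
    (hg : (g : R) = 1 + (τ i).val * ρ) : g ∈ El τ := by
  have key : (∑ j, ρ * ((τ j).val * (τ j).st)) * (τ i).val = 0 ∧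
      ∀ g : Rˣ, (g : R) = 1 + (τ i).val * (∑ j, ρ * ((τ j).val * (τ j).st)) → g ∈ El τ := by
    refine Finset.sum_induction _ (fun A : R => A * (τ i).val = 0 ∧
      ∀ g : Rˣ, (g : R) = 1 + (τ i).val * A → g ∈ El τ) ?_ ?_ ?_
    · rintro A B ⟨hA, h1⟩ ⟨hB, h2⟩
      exact ⟨by rw [add_mul, hA, hB, add_zero], ElA_mul_right hA hB h1 h2⟩
    · refine ⟨zero_mul _, fun g hg => ?_⟩
      rw [mul_zero, add_zero] at hg
      have : g = 1 := Units.ext hg
      rw [this]
      exact one_mem _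
    · intro j _
      by_cases hij : i = j
      · subst hij
        have h0 : ρ * ((τ i).val * (τ i).st) = 0 := by rw [← mul_assoc, hρ, zero_mul]
        rw [h0]
        refine ⟨zero_mul _, fun g hg => ?_⟩
        rw [mul_zero, add_zero] at hg
        have : g = 1 := Units.ext hg
        rw [this]
        exact one_mem _
      · refine ⟨?_, fun g hg => mem_El_gen hij (ρ * (τ j).val) g ?_⟩
        · rw [mul_assoc, mul_assoc, (hτ.1 i j hij).2, mul_zero, mul_zero]
        · rw [hg]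
          simp only [mul_assoc]
  rw [← Finset.mul_sum, hτ.2, mul_one] at key
  exact key.2 g hg

/-- (E1): `c = Σ_j τ_j (τ_j* c)`. -/
theorem El_left {τ : ι → Isom R} (hτ : IsLF τ) (i : ι) (c : R) (hc : (τ i).st * c = 0) (g : Rˣ)
    (hg : (g : R) = 1 + c * (τ i).st) : g ∈ El τ := by
  have key : (τ i).st * (∑ j, (τ j).val * (τ j).st * c) = 0 ∧
      ∀ g : Rˣ, (g : R) = 1 + (∑ j, (τ j).val * (τ j).st * c) * (τ i).st → g ∈ El τ := by
    refine Finset.sum_induction _ (fun A : R => (τ i).st * A = 0 ∧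
      ∀ g : Rˣ, (g : R) = 1 + A * (τ i).st → g ∈ El τ) ?_ ?_ ?_
    · rintro A B ⟨hA, h1⟩ ⟨hB, h2⟩
      exact ⟨by rw [mul_add, hA, hB, add_zero], ElA_mul_left hA hB h1 h2⟩
    · refine ⟨mul_zero _, fun g hg => ?_⟩
      rw [zero_mul, add_zero] at hg
      have : g = 1 := Units.ext hg
      rw [this]
      exact one_mem _
    · intro j _
      by_cases hij : i = j
      · subst hij
        have h0 : (τ i).val * (τ i).st * c = 0 := by rw [mul_assoc, hc, mul_zero]
        rw [h0]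
        refine ⟨mul_zero _, fun g hg => ?_⟩
        rw [zero_mul, add_zero] at hg
        have : g = 1 := Units.ext hg
        rw [this]
        exact one_mem _
      · refine ⟨?_, fun g hg => mem_El_gen (Ne.symm hij) ((τ j).st * c) g ?_⟩
        · rw [← mul_assoc, ← mul_assoc, (hτ.1 i j hij).1, zero_mul, zero_mul]
        · rw [hg]
          simp only [mul_assoc]
  rw [← Finset.sum_mul, hτ.2, one_mul] at key
  exact key.2 g hg

omit [Fintype ι] in
/-- (E2): `W = (1 + t z*)(1 + z t*)(1 + t z*)` for orthogonal `t`, `z`: `W² = 1` and `W • t = z`, `W • z = t`. With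
`a = t z*`, `b = z t*`: `W = 1 + a + b + ab + ba`, `aba = a`, `bab = b`, `ab = t t*`, `ba = z z*`. -/
theorem exists_swap {t z : Isom R} (h : Orth t z) : ∃ g1 g2 : Rˣ,
    (g1 : R) = 1 + t.val * z.st ∧ (g2 : R) = 1 + z.val * t.st ∧
    g1 * g2 * g1 * (g1 * g2 * g1) = 1 ∧ (g1 * g2 * g1) • t = z ∧ (g1 * g2 * g1) • z = t := by
  have e1 : t.val * z.st * (t.val * z.st) = 0 := by
    rw [mul_assoc, ← mul_assoc z.st, h.2, zero_mul, mul_zero]
  have e2 : z.val * t.st * (z.val * t.st) = 0 := by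
    rw [mul_assoc, ← mul_assoc t.st, h.1, zero_mul, mul_zero]
  obtain ⟨g1, hg1⟩ : ∃ g1 : Rˣ, g1 = tv _ e1 := ⟨_, rfl⟩
  obtain ⟨g2, hg2⟩ : ∃ g2 : Rˣ, g2 = tv _ e2 := ⟨_, rfl⟩
  have s1 : g1 * g1 = 1 := by
    rw [hg1]
    exact Units.ext (tv_aux _ e1)
  have s2 : g2 * g2 = 1 := by
    rw [hg2]
    exact Units.ext (tv_aux _ e2)
  have hW : g1 * g2 * g1 * (g1 * g2 * g1) = 1 := by
    calc g1 * g2 * g1 * (g1 * g2 * g1) = g1 * (g2 * ((g1 * g1) * (g2 * g1))) := by
          simp only [mul_assoc]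
      _ = 1 := by rw [s1, one_mul, ← mul_assoc g2 g2, s2, one_mul, s1]
  have v1 : (g1 : R) = 1 + t.val * z.st := by rw [hg1]; rfl
  have v2 : (g2 : R) = 1 + z.val * t.st := by rw [hg2]; rfl
  have hc : ∀ x : R, x + x = 0 := fun x => CharTwo.add_self_eq_zero x
  have t1 : t.st * z.val = 0 := h.1
  have t2 : z.st * t.val = 0 := h.2
  -- action on the left
  have a1 : (g1 : R) * t.val = t.val := by
    rw [v1, add_mul, one_mul, mul_assoc, t2, mul_zero, add_zero]
  have a2 : (g1 : R) * z.val = z.val + t.val := by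
    rw [v1, add_mul, one_mul, mul_assoc, z.st_val, mul_one]
  have a3 : (g2 : R) * t.val = t.val + z.val := by
    rw [v2, add_mul, one_mul, mul_assoc, t.st_val, mul_one]
  have b1 : z.st * (g1 : R) = z.st := by
    rw [v1, mul_add, mul_one, ← mul_assoc, t2, zero_mul, add_zero]
  have b2 : t.st * (g1 : R) = t.st + z.st := by
    rw [v1, mul_add, mul_one, ← mul_assoc, t.st_val, one_mul]
  have b3 : z.st * (g2 : R) = z.st + t.st := by
    rw [v2, mul_add, mul_one, ← mul_assoc, z.st_val, one_mul]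
  have b4 : t.st * (g2 : R) = t.st := by
    rw [v2, mul_add, mul_one, ← mul_assoc, t1, zero_mul, add_zero]
  have wt : (g1 * g2 * g1) • t = z := by
    refine Isom.ext ?_ ?_
    · rw [Isom.smul_val, Units.val_mul, Units.val_mul, mul_assoc, mul_assoc, a1, a3, mul_add, a1,
        a2]
      calc t.val + (z.val + t.val) = z.val + (t.val + t.val) := by abel
        _ = z.val := by rw [hc, add_zero]
    · rw [Isom.smul_st, inv_eq_of_mul_eq_one_right hW, Units.val_mul, Units.val_mul, ← mul_assoc,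
        ← mul_assoc, b2, add_mul, b4, b3, add_mul, add_mul, b1, b2]
      calc t.st + z.st + (z.st + (t.st + z.st)) = z.st + (t.st + t.st) + (z.st + z.st) := by abel
        _ = z.st := by rw [hc, hc, add_zero, add_zero]
  refine ⟨g1, g2, v1, v2, hW, wt, ?_⟩
  have h3 : (g1 * g2 * g1) • ((g1 * g2 * g1) • t) = t := by
    rw [← mul_smul, hW, one_smul]
  rwa [wt] at h3

/-- the orbit `S` of the `τ_i` under `El τ` -/
def InS (τ : ι → Isom R) (t : Isom R) : Prop := ∃ g ∈ El τ, ∃ i, t = g • τ i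

/-- all `τ_i y` are in `S`: for `j ≠ i` apply `exists_swap` to `t = τ_j`, `z = τ_i y` (orthogonal);
`g1 = 1 + τ_j y* τ_i*`, `g2 = 1 + τ_i y τ_j*` are generators of `El τ`. -/
theorem InS.base [Nontrivial ι] {τ : ι → Isom R} (hτ : IsLF τ) (i : ι) (y : Isom R) :
    InS τ (τ i * y) := by
  obtain ⟨j, hj⟩ := exists_ne i
  obtain ⟨g1, g2, v1, v2, -, wt, -⟩ := exists_swap ((hτ.1 j i hj).mul_right y)
  have m1 : g1 ∈ El τ := mem_El_gen hj y.st g1 (by rw [v1, Isom.mul_st, mul_assoc])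
  have m2 : g2 ∈ El τ := mem_El_gen hj.symm y.val g2 (by rw [v2, Isom.mul_val])
  exact ⟨g1 * g2 * g1, mul_mem (mul_mem m1 m2) m1, j, wt.symm⟩

/-- `S` is one orbit (`τ_i` and `τ_j` are swapped by an element of `El τ`) -/
theorem InS.conn {τ : ι → Isom R} (hτ : IsLF τ) {t t' : Isom R} (ht : InS τ t) (ht' : InS τ t') :
    ∃ g ∈ El τ, g • t = t' := by
  obtain ⟨g, hg, i, rfl⟩ := ht
  obtain ⟨g', hg', i', rfl⟩ := ht'
  by_cases hi : i = i'
  · subst hi
    refine ⟨g' * g⁻¹, mul_mem hg' (inv_mem hg), ?_⟩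
    rw [mul_smul, inv_smul_smul]
  · obtain ⟨g1, g2, v1, v2, -, wt, -⟩ := exists_swap (hτ.1 i i' hi)
    have m1 : g1 ∈ El τ := mem_El_gen hi 1 g1 (by rw [v1, mul_one])
    have m2 : g2 ∈ El τ := mem_El_gen (Ne.symm hi) 1 g2 (by rw [v2, mul_one])
    refine ⟨g' * (g1 * g2 * g1) * g⁻¹,
      mul_mem (mul_mem hg' (mul_mem (mul_mem m1 m2) m1)) (inv_mem hg), ?_⟩
    rw [mul_smul, inv_smul_smul, mul_smul, wt]

/-- (E3): conjugate `El_right` by `g` with `t = g • τ_i` -/
theorem InS.right {τ : ι → Isom R} (hτ : IsLF τ) {t : Isom R} (ht : InS τ t) (ρ : R)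
    (hρ : ρ * t.val = 0) (g : Rˣ) (hg : (g : R) = 1 + t.val * ρ) : g ∈ El τ := by
  obtain ⟨g0, h0, i, rfl⟩ := ht
  rw [Isom.smul_val] at hρ hg
  have h1 : g0⁻¹ * g * g0 ∈ El τ := by
    refine El_right hτ i (ρ * g0) (by rw [mul_assoc, hρ]) _ ?_
    rw [Units.val_mul, Units.val_mul, hg, mul_add, add_mul, mul_one, Units.inv_mul]
    congr 1
    simp only [← mul_assoc, Units.inv_mul, one_mul]
  have h2 : g = g0 * (g0⁻¹ * g * g0) * g0⁻¹ := by group
  rw [h2]
  exact mul_mem (mul_mem h0 h1) (inv_mem h0)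

/-- (E3): conjugate `El_left` -/
theorem InS.left {τ : ι → Isom R} (hτ : IsLF τ) {t : Isom R} (ht : InS τ t) (c : R)
    (hc : t.st * c = 0) (g : Rˣ) (hg : (g : R) = 1 + c * t.st) : g ∈ El τ := by
  obtain ⟨g0, h0, i, rfl⟩ := ht
  rw [Isom.smul_st] at hc hg
  have h1 : g0⁻¹ * g * g0 ∈ El τ := by
    refine El_left hτ i (↑g0⁻¹ * c) (by rw [← mul_assoc, hc]) _ ?_
    rw [Units.val_mul, Units.val_mul, hg, mul_add, add_mul, mul_one, Units.inv_mul]
    congr 1
    simp only [mul_assoc, Units.inv_mul, mul_one]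
  have h2 : g = g0 * (g0⁻¹ * g * g0) * g0⁻¹ := by group
  rw [h2]
  exact mul_mem (mul_mem h0 h1) (inv_mem h0)

end P193
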