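import Vale.Agent.Lib.P193.Two.ElA

/-!
# P193 part II, section 2, (E4), (E5), (E4').
-/

namespace P193

universe u v

variable {R : Type u} [Ring R] [CharP R 2] {ι : Type v} [Fintype ι]

/-- (E4): `exists_swap` for `t`, `z`: the factors `1 + t z*` and `1 + z t*` are in `El τ` by `InS.right`
(`z* t = 0`) and `InS.left` (`t* z = 0`). -/
theorem InS.orth {τ : ι → Isom R} (hτ : IsLF τ) {t z : Isom R} (ht : InS τ t) (h : Orth t z) :
    InS τ z := by
  obtain ⟨g1, g2, hg1, hg2, -, hsw, -⟩ := exists_swap h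
  have m1 : g1 ∈ El τ := ht.right hτ z.st h.2 g1 hg1
  have m2 : g2 ∈ El τ := ht.left hτ z.val h.1 g2 hg2
  obtain ⟨g, hg, i, hi⟩ := ht
  refine ⟨g1 * g2 * g1 * g, (El τ).mul_mem ((El τ).mul_mem ((El τ).mul_mem m1 m2) m1) hg, i, ?_⟩
  rw [mul_smul, ← hi, hsw]

/-- (E5): `exists_gp` with `k = 2` for `F = {τ_i* t, t* τ_i}` gives `p0, p1`; `τ_i p0 ∈ S` (`InS.base`) is
orthogonal to `t p1`. -/
theorem exists_mul_InS [Nontrivial ι] (hL : HLeavitt R) (hS : HScal R) {τ : ι → Isom R}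
    (hτ : IsLF τ) (t : Isom R) : ∃ p : Isom R, InS τ (t * p) := by
  classical
  obtain ⟨i, -⟩ := exists_pair_ne ι
  obtain ⟨p, -, hF⟩ := exists_gp hL hS {(τ i).st * t.val, t.st * (τ i).val} 2
  have f1 : (τ i).st * t.val ∈ ({(τ i).st * t.val, t.st * (τ i).val} : Finset R) :=
    Finset.mem_insert_self _ _
  have f2 : t.st * (τ i).val ∈ ({(τ i).st * t.val, t.st * (τ i).val} : Finset R) :=
    Finset.mem_insert_of_mem (Finset.mem_singleton_self _)
  have h01 : (0 : Fin 2) ≠ 1 := by decide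
  have ho : Orth (τ i * p 0) (t * p 1) := by
    constructor
    · rw [Isom.mul_st, Isom.mul_val, ← hF _ _ h01 _ f1]
      simp only [mul_assoc]
    · rw [Isom.mul_st, Isom.mul_val, ← hF _ _ h01.symm _ f2]
      simp only [mul_assoc]
  exact ⟨p 1, (InS.base hτ i (p 0)).orth hτ ho⟩

/-- (E4'): `z` orthogonal to `t`; `z p ∈ S` for some `p` and `z p` is orthogonal to `t`. -/
theorem InS_of_room [Nontrivial ι] (hL : HLeavitt R) (hS : HScal R) {τ : ι → Isom R}
    (hτ : IsLF τ) {t : Isom R} (h : ∃ z, Orth t z) : InS τ t := by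
  obtain ⟨z, hz⟩ := h
  obtain ⟨p, hp⟩ := exists_mul_InS hL hS hτ z
  exact hp.orth hτ (hz.symm.mul_left p)

end P193
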