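import Vale.Agent.Lib.P193.Two.ElB
import Vale.Agent.Lib.P193.Two.Compl

/-!
# P193 part II, section 2, (E6), (E7).
-/

namespace P193

universe u v

variable {R : Type u} [Ring R] [CharP R 2] {ι : Type v} [Fintype ι]

/-- (E6): `g (1 + τ_i r τ_j*) g⁻¹ = 1 + t ρ` with `t = g • τ_i` (room `g • τ_j`, so in `S`), `ρ = r τ_j* g⁻¹`, `ρ t = 0`.
Use the `closure` induction for `El τ`. -/
theorem El_normal [Nontrivial ι] (hL : HLeavitt R) (hS : HScal R) {τ : ι → Isom R}
    (hτ : IsLF τ) : (El τ).Normal := by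
  refine ⟨fun n hn g => ?_⟩
  have key : El τ ≤ (El τ).comap (MulAut.conj g).toMonoidHom := by
    unfold El
    rw [Subgroup.closure_le]
    rintro g0 ⟨i, j, hij, r, h0⟩
    show g * g0 * g⁻¹ ∈ El τ
    have hin : InS τ (g • τ i) :=
      InS_of_room hL hS hτ ⟨g • τ j, (hτ.1 i j hij).smul g⟩
    refine hin.right hτ (r * (τ j).st * ((g⁻¹ : Rˣ) : R)) ?_ _ ?_
    · rw [Isom.smul_val]
      simp only [mul_assoc, Units.inv_mul_cancel_left]
      rw [(hτ.1 i j hij).2, mul_zero]
    · rw [Units.val_mul, Units.val_mul, h0, Isom.smul_val]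
      simp only [mul_add, add_mul, mul_one, mul_assoc, Units.mul_inv]
  exact key hn

omit [CharP R 2] in
/-- the endomorphism `Φ(v) = 1 + φ(v - 1)` of the unit group -/
theorem exists_phi (φ : R →ₙ+* R) : ∃ Φ : Rˣ →* Rˣ, ∀ v : Rˣ, (Φ v : R) = 1 + φ ((v : R) - 1) := by
  have h : ∀ a b : R, (1 + φ (a - 1)) * (1 + φ (b - 1)) = 1 + φ (a * b - 1) := by
    intro a b
    have e : a * b - 1 = (a - 1) + (b - 1) + (a - 1) * (b - 1) := by noncomm_ring
    rw [e, map_add, map_add, map_mul]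
    noncomm_ring
  refine ⟨{ toFun := fun v => ⟨1 + φ ((v : R) - 1), 1 + φ (((v⁻¹ : Rˣ) : R) - 1), ?_, ?_⟩
            map_one' := ?_
            map_mul' := ?_ }, ?_⟩
  · rw [h, Units.mul_inv, sub_self, map_zero, add_zero]
  · rw [h, Units.inv_mul, sub_self, map_zero, add_zero]
  · ext
    simp
  · intro a b
    ext
    simp only [Units.val_mul]
    exact (h _ _).symm
  · intro v
    rfl

/-- (E7): modulo the normal subgroup `El τ` the class of `cor t v` is independent of `t ∈ S` (`InS.conn`, `cor_smul`).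
With `φ, u0, u1` from `HRep`, `Φ` from `exists_phi`: `cor t (Φ v) = cor (t u0) v * cor (t u1) (Φ v)` (direct computation),
`t u0`, `t u1` have room, so are in `S`; hence the class of `cor t v` is trivial. -/
theorem cor_mem_El [Nontrivial ι] (hL : HLeavitt R) (hS : HScal R) (hR : HRep R) {τ : ι → Isom R}
    (hτ : IsLF τ) {t : Isom R} (ht : InS τ t) (v : Rˣ) : cor t v ∈ El τ := by
  obtain ⟨φ, u0, u1, ho, hφ⟩ := hR
  obtain ⟨Φ, hΦ⟩ := exists_phi φ
  have hN : (El τ).Normal := El_normal hL hS hτ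
  have hconn : ∀ {t t' : Isom R}, InS τ t → InS τ t' → ∀ w : Rˣ,
      (QuotientGroup.mk (cor t w) : Rˣ ⧸ El τ) = QuotientGroup.mk (cor t' w) := by
    intro t t' h h' w
    obtain ⟨g, hg, rfl⟩ := h.conn hτ h'
    rw [cor_smul, QuotientGroup.mk_mul, QuotientGroup.mk_mul, QuotientGroup.mk_inv,
      (QuotientGroup.eq_one_iff g).2 hg, one_mul, inv_one, mul_one]
  have h0 : InS τ (t * u0) := by
    refine InS_of_room hL hS hτ ⟨t * u1, ?_⟩
    constructor
    · rw [Isom.mul_st, Isom.mul_val, mul_assoc, Isom.st_val_mul, ho.1]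
    · rw [Isom.mul_st, Isom.mul_val, mul_assoc, Isom.st_val_mul, ho.2]
  have h1 : InS τ (t * u1) := by
    refine InS_of_room hL hS hτ ⟨t * u0, ?_⟩
    constructor
    · rw [Isom.mul_st, Isom.mul_val, mul_assoc, Isom.st_val_mul, ho.2]
    · rw [Isom.mul_st, Isom.mul_val, mul_assoc, Isom.st_val_mul, ho.1]
  have hid : cor t (Φ v) = cor (t * u0) v * cor (t * u1) (Φ v) := by
    ext
    rw [Units.val_mul, cor_val, cor_val, cor_val, hΦ, add_sub_cancel_left]
    conv_lhs => rw [hφ]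
    have o : ∀ r : R, u0.st * (u1.val * r) = 0 := fun r => by rw [← mul_assoc, ho.1, zero_mul]
    simp only [Isom.mul_val, Isom.mul_st, mul_add, add_mul, mul_one, one_mul, mul_assoc,
      Isom.st_val_mul, o, mul_zero, add_zero, zero_add]
    abel
  have hq : (QuotientGroup.mk (cor t (Φ v)) : Rˣ ⧸ El τ) =
      QuotientGroup.mk (cor t v) * QuotientGroup.mk (cor t (Φ v)) := by
    conv_lhs => rw [hid, QuotientGroup.mk_mul, hconn h0 ht, hconn h1 ht]
  have hq1 : (QuotientGroup.mk (cor t v) : Rˣ ⧸ El τ) = 1 := by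
    exact (right_eq_mul.1 hq)
  exact (QuotientGroup.eq_one_iff _).1 hq1

end P193
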