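import Vale.Agent.Lib.P193.Two.KMDefs

/-!
# P193 part II, section 5 (Krstic-McCool): from words to the monoid algebra over `ZMod 2`.

For fixed `i ≠ j` the elements `x i j m` commute pairwise and have order dividing 2, so there is a unique map
`y i j : MonoidAlgebra (ZMod 2) M → G` with `y (f + g) = y f * y g`, `y (single m 1) = x i j m`. Build it in the commutative group
`Subgroup.closure (Set.range (x i j))` (`Subgroup.closureCommGroupOfComm`), e.g. with `Finsupp.liftAddHom` and `ZMod.lift`, or as
`Finset.noncommProd` over the support. The relations are bimultiplicative: `Finsupp` induction in both arguments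
(`commutatorElement` of products, the values commute with everything in sight).
-/

namespace P193

universe u v w

open scoped commutatorElement

variable {ι : Type v} {M : Type u} [Monoid M] {G : Type w} [Group G]

theorem KMAlg_addhom {A : Type w} [AddCommGroup A] (z : M → A) (hz : ∀ m, z m + z m = 0) :
    ∃ Y : MonoidAlgebra (ZMod 2) M → A, (∀ f g, Y (f + g) = Y f + Y g) ∧
      ∀ m, Y (MonoidAlgebra.of (ZMod 2) M m) = z m := by
  have hz2 : ∀ m, zmultiplesHom A (z m) (2 : ℕ) = 0 := by
    intro m
    rw [zmultiplesHom_apply]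
    show (2 : ℤ) • z m = 0
    rw [two_zsmul]
    exact hz m
  let e : M → (ZMod 2 →+ A) := fun m => ZMod.lift 2 ⟨zmultiplesHom A (z m), hz2 m⟩
  have he : ∀ m, e m 1 = z m := by
    intro m
    have h := ZMod.lift_coe 2 (f := ⟨zmultiplesHom A (z m), hz2 m⟩) 1
    rw [Int.cast_one] at h
    refine h.trans ?_
    show zmultiplesHom A (z m) 1 = z m
    rw [zmultiplesHom_apply, one_zsmul]
  let Y : (M →₀ ZMod 2) →+ A := Finsupp.liftAddHom e
  refine ⟨fun f => Y f.coeff, ?_, ?_⟩
  · intro f g
    show Y (f + g).coeff = _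
    rw [MonoidAlgebra.coeff_add, map_add]
  · intro m
    show Y (Finsupp.single m 1) = z m
    show Finsupp.liftAddHom e (Finsupp.single m 1) = z m
    rw [Finsupp.liftAddHom_apply_single, he]

theorem KMAlg_mulhom {A : Type w} [CommGroup A] (z : M → A) (hz : ∀ m, z m * z m = 1) :
    ∃ Y : MonoidAlgebra (ZMod 2) M → A, (∀ f g, Y (f + g) = Y f * Y g) ∧
      ∀ m, Y (MonoidAlgebra.of (ZMod 2) M m) = z m := by
  obtain ⟨Y, h1, h2⟩ := KMAlg_addhom (A := Additive A) (fun m => Additive.ofMul (z m))
    (fun m => by
      apply Additive.toMul.injective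
      exact hz m)
  exact ⟨fun f => Additive.toMul (Y f), fun f g => congrArg Additive.toMul (h1 f g),
    fun m => congrArg Additive.toMul (h2 m)⟩

/-- additive extension for one pair of indices -/
theorem exists_additive_ext (x : M → G) (hsq : ∀ m, x m * x m = 1)
    (hc : ∀ m n, Commute (x m) (x n)) : ∃ y : MonoidAlgebra (ZMod 2) M → G,
      (∀ f g, y (f + g) = y f * y g) ∧ (∀ m, y (MonoidAlgebra.of (ZMod 2) M m) = x m) ∧
      ∀ f, y f ∈ Subgroup.closure (Set.range x) := by
  have hcomm : ∀ a ∈ Set.range x, ∀ b ∈ Set.range x, a * b = b * a := by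
    rintro _ ⟨a, rfl⟩ _ ⟨b, rfl⟩
    exact (hc a b).eq
  have hcl : IsMulCommutative (Subgroup.closure (Set.range x)) :=
    Subgroup.isMulCommutative_closure hcomm
  let inst : CommGroup (Subgroup.closure (Set.range x)) :=
    { (inferInstance : Group (Subgroup.closure (Set.range x))) with
      mul_comm := fun a b => hcl.is_comm.comm a b }
  obtain ⟨Y, h1, h2⟩ := @KMAlg_mulhom M _ (Subgroup.closure (Set.range x)) inst
    (fun m => ⟨x m, Subgroup.subset_closure ⟨m, rfl⟩⟩) (fun m => Subtype.ext (hsq m))
  refine ⟨fun f => ((Y f : Subgroup.closure (Set.range x)) : G), ?_, ?_, ?_⟩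
  · intro f g
    show ((Y (f + g) : Subgroup.closure (Set.range x)) : G) = _
    rw [h1]
    rfl
  · intro m
    show ((Y (MonoidAlgebra.of (ZMod 2) M m) : Subgroup.closure (Set.range x)) : G) = _
    rw [h2]
  · intro f
    exact (Y f).2

/-- elements of the closures of two commuting sets commute -/
theorem KMAlg_commute_closure {S T : Set G} (h : ∀ s ∈ S, ∀ t ∈ T, Commute s t) {a b : G}
    (ha : a ∈ Subgroup.closure S) (hb : b ∈ Subgroup.closure T) : Commute a b := by
  have h1 : ∀ t ∈ T, Commute a t := by
    intro t ht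
    have h2 : Subgroup.closure S ≤ Subgroup.centralizer {t} := by
      rw [Subgroup.closure_le]
      intro s hs
      rw [SetLike.mem_coe, Subgroup.mem_centralizer_iff]
      intro u hu
      rw [Set.mem_singleton_iff] at hu
      rw [hu]
      exact (h s hs t ht).eq.symm
    have h3 := Subgroup.mem_centralizer_iff.1 (h2 ha) t rfl
    exact h3.symm
  have h2 : Subgroup.closure T ≤ Subgroup.centralizer {a} := by
    rw [Subgroup.closure_le]
    intro s hs
    rw [SetLike.mem_coe, Subgroup.mem_centralizer_iff]
    intro u hu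
    rw [Set.mem_singleton_iff] at hu
    rw [hu]
    exact (h1 s hs).eq
  exact Subgroup.mem_centralizer_iff.1 (h2 hb) a rfl

/-- an additive induction principle for the monoid algebra over `ZMod 2` -/
theorem KMAlg_induction {p : MonoidAlgebra (ZMod 2) M → Prop} (f : MonoidAlgebra (ZMod 2) M)
    (h0 : p 0) (hof : ∀ m, p (MonoidAlgebra.of (ZMod 2) M m))
    (hadd : ∀ f g, p f → p g → p (f + g)) : p f := by
  refine MonoidAlgebra.induction_on (motive := p) f hof hadd ?_
  intro r x hx
  fin_cases r
  · show p ((0 : ZMod 2) • x)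
    rw [zero_smul]
    exact h0
  · show p ((1 : ZMod 2) • x)
    rw [one_smul]
    exact hx

theorem exists_stData_of_monData (E : MonData ι M G) :
    ∃ S : StData ι (MonoidAlgebra (ZMod 2) M) G,
      ∀ i j m, S.x i j (MonoidAlgebra.of (ZMod 2) M m) = E.x i j m := by
  have hcomm : ∀ i j m n, Commute (E.x i j m) (E.x i j n) := by
    intro i j m n
    by_cases hij : i = j
    · rw [hij, E.diag]
      exact Commute.one_left _
    · exact E.comm1 i j i j m n hij hij (Ne.symm hij) hij
  have hex := fun i j => exists_additive_ext (E.x i j) (E.sq i j) (hcomm i j)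
  choose y hadd hof hmem using hex
  have hcom : ∀ i j k l f g, i ≠ j → k ≠ l → j ≠ k → i ≠ l → Commute (y i j f) (y k l g) := by
    intro i j k l f g h1 h2 h3 h4
    refine KMAlg_commute_closure ?_ (hmem i j f) (hmem k l g)
    rintro _ ⟨a, rfl⟩ _ ⟨b, rfl⟩
    exact E.comm1 i j k l a b h1 h2 h3 h4
  have hzero : ∀ i j, y i j 0 = 1 := by
    intro i j
    have h := hadd i j 0 0
    rw [add_zero] at h
    exact left_eq_mul.1 h
  refine ⟨⟨y, ?_, ?_, ?_, hcom⟩, hof⟩
  · intro i f
    have h := hmem i i f
    have h1 : Subgroup.closure (Set.range (E.x i i)) ≤ ⊥ := by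
      rw [Subgroup.closure_le]
      rintro _ ⟨a, rfl⟩
      rw [E.diag]
      exact Subgroup.one_mem _
    exact Subgroup.mem_bot.1 (h1 h)
  · intro i j r s
    exact (hadd i j r s).symm
  · intro i j k f g hij hjk hik
    refine KMAlg_induction (p := fun f => ⁅y i j f, y j k g⁆ = y i k (f * g)) f ?_ ?_ ?_
    · show ⁅y i j 0, y j k g⁆ = y i k (0 * g)
      rw [zero_mul, hzero, hzero, commutatorElement_one_left]
    · intro m
      refine KMAlg_induction (p := fun g => ⁅y i j (MonoidAlgebra.of (ZMod 2) M m), y j k g⁆ =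
        y i k (MonoidAlgebra.of (ZMod 2) M m * g)) g ?_ ?_ ?_
      · show ⁅y i j _, y j k 0⁆ = y i k (_ * 0)
        rw [mul_zero, hzero, hzero, commutatorElement_one_right]
      · intro n
        show ⁅y i j _, y j k _⁆ = y i k (_ * _)
        rw [← map_mul, hof, hof, hof]
        exact E.comm3 i j k m n hij hjk hik
      · intro g1 g2 h1 h2
        rw [mul_add, hadd, hadd]
        have e : ∀ a b c : G, ⁅a, b * c⁆ = ⁅a, b⁆ * (b * ⁅a, c⁆ * b⁻¹) := by
          intro a b c
          rw [commutatorElement_def, commutatorElement_def, commutatorElement_def]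
          group
        rw [e, h1, h2]
        have hc := hcom j k i k g1 (MonoidAlgebra.of (ZMod 2) M m * g2) hjk hik (Ne.symm hik) hjk
        rw [hc.eq, mul_inv_cancel_right]
    · intro f1 f2 h1 h2
      rw [add_mul, hadd, hadd]
      have e : ∀ a b c : G, ⁅a * b, c⁆ = a * ⁅b, c⁆ * a⁻¹ * ⁅a, c⁆ := by
        intro a b c
        rw [commutatorElement_def, commutatorElement_def, commutatorElement_def]
        group
      rw [e, h1, h2]
      have hc := hcom i j i k f1 (f2 * g) hij hik (Ne.symm hij) hik
      have hc2 := hcom i k i k (f1 * g) (f2 * g) hik hik (Ne.symm hik) hik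
      rw [hc.eq, mul_inv_cancel_right, hc2.eq]

end P193
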