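import Vale.Agent.Lib.P193.Two.StMap

/-!
# P193 part II, section 5 (Krstic-McCool): definitions and the commutator tool.
-/

namespace P193

universe u v w

open scoped commutatorElement

/-- data for the finite presentation: alphabet `X`, letters `Option X` (`none` stands for the unit `1`) -/
structure KMData (ι : Type v) (X : Type u) (G : Type w) [Group G] where
  x : ι → ι → Option X → G
  diag : ∀ i a, x i i a = 1
  sq : ∀ i j a, x i j a * x i j a = 1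
  comm1 : ∀ i j k l a b, i ≠ j → k ≠ l → j ≠ k → i ≠ l → Commute (x i j a) (x k l b)
  comm3l : ∀ i j k a, i ≠ j → j ≠ k → i ≠ k → ⁅x i j none, x j k a⁆ = x i k a
  comm3r : ∀ i j k a, i ≠ j → j ≠ k → i ≠ k → ⁅x i j a, x j k none⁆ = x i k a

/-- data on a monoid of words -/
structure MonData (ι : Type v) (M : Type u) (G : Type w) [Monoid M] [Group G] where
  x : ι → ι → M → G
  diag : ∀ i a, x i i a = 1
  sq : ∀ i j a, x i j a * x i j a = 1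
  comm1 : ∀ i j k l a b, i ≠ j → k ≠ l → j ≠ k → i ≠ l → Commute (x i j a) (x k l b)
  comm3 : ∀ i j k a b, i ≠ j → j ≠ k → i ≠ k → ⁅x i j a, x j k b⁆ = x i k (a * b)

private theorem KMDefs_comm {G : Type w} [Group G] {a b c : G} (h1 : Commute a b)
    (h2 : Commute a c) : Commute a ⁅b, c⁆ := by
  rw [commutatorElement_def]
  exact ((h1.mul_right h2).mul_right h1.inv_right).mul_right h2.inv_right

/-- if `a` commutes with `c`, and `⁅b, c⁆` commutes with `c` and with `⁅a, b⁆`, then `⁅a, ⁅b, c⁆⁆ = ⁅⁅a, b⁆, c⁆`: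
`a ⁅b, c⁆ a⁻¹ = ⁅d b, c⁆`, `d = ⁅a, b⁆`, `= d ⁅b, c⁆ c d⁻¹ c⁻¹ = ⁅b, c⁆ ⁅d, c⁆`. -/
theorem comm_tool {G : Type w} [Group G] {a b c : G} (h1 : Commute a c) (h2 : Commute ⁅b, c⁆ c)
    (h3 : Commute ⁅b, c⁆ ⁅a, b⁆) : ⁅a, ⁅b, c⁆⁆ = ⁅⁅a, b⁆, c⁆ := by
  have hc : a * c * a⁻¹ = c := by rw [h1.eq, mul_inv_cancel_right]
  have e1 : a * ⁅b, c⁆ * a⁻¹ = ⁅b, c⁆ * ⁅⁅a, b⁆, c⁆ := by
    have e2 : a * ⁅b, c⁆ * a⁻¹ = (a * b * a⁻¹) * (a * c * a⁻¹) * (a * b * a⁻¹)⁻¹ *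
        (a * c * a⁻¹)⁻¹ := by
      rw [commutatorElement_def]
      group
    have e3 : a * b * a⁻¹ = ⁅a, b⁆ * b := by
      rw [commutatorElement_def, inv_mul_cancel_right]
    have e4 : (⁅a, b⁆ * b) * c * (⁅a, b⁆ * b)⁻¹ * c⁻¹ = ⁅a, b⁆ * ⁅b, c⁆ * (c * ⁅a, b⁆⁻¹ * c⁻¹) := by
      rw [commutatorElement_def b c]
      group
    have e5 : ⁅b, c⁆ * ⁅⁅a, b⁆, c⁆ = ⁅b, c⁆ * ⁅a, b⁆ * (c * ⁅a, b⁆⁻¹ * c⁻¹) := by
      rw [commutatorElement_def ⁅a, b⁆ c]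
      group
    rw [e2, hc, e3, e4, e5, h3.eq]
  have h4 : Commute ⁅b, c⁆ ⁅⁅a, b⁆, c⁆ := KMDefs_comm h3 h2
  rw [commutatorElement_def a ⁅b, c⁆, e1, h4.eq, mul_inv_cancel_right]

/-- if `a² = 1` and `⁅a, b⁆` commutes with `a` then `⁅a, b⁆² = 1` -/
theorem comm_sq {G : Type w} [Group G] {a b : G} (h1 : a * a = 1) (h2 : Commute ⁅a, b⁆ a) :
    ⁅a, b⁆ * ⁅a, b⁆ = 1 := by
  have ha : a⁻¹ = a := inv_eq_of_mul_eq_one_left h1
  have e1 : a * ⁅a, b⁆ * a⁻¹ = ⁅a, b⁆⁻¹ := by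
    rw [commutatorElement_inv, commutatorElement_def, commutatorElement_def]
    calc a * (a * b * a⁻¹ * b⁻¹) * a⁻¹ = (a * a) * b * a⁻¹ * b⁻¹ * a⁻¹ := by group
      _ = b * a * b⁻¹ * a⁻¹ := by rw [h1, one_mul, ha]
  have e2 : a * ⁅a, b⁆ * a⁻¹ = ⁅a, b⁆ := by
    rw [← h2.eq, mul_inv_cancel_right]
  rw [e2] at e1
  calc ⁅a, b⁆ * ⁅a, b⁆ = ⁅a, b⁆⁻¹ * ⁅a, b⁆ := by rw [← e1]
    _ = 1 := inv_mul_cancel _

/-- if `a` commutes with both `b` and `c` then it commutes with `⁅b, c⁆` -/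
theorem comm_comm {G : Type w} [Group G] {a b c : G} (h1 : Commute a b) (h2 : Commute a c) :
    Commute a ⁅b, c⁆ := KMDefs_comm h1 h2

/-- with at least five indices there is one outside any four given ones -/
theorem exists_fifth {ι : Type v} [Fintype ι] (h5 : 5 ≤ Fintype.card ι) (i j k l : ι) :
    ∃ m, m ≠ i ∧ m ≠ j ∧ m ≠ k ∧ m ≠ l := by
  classical
  have hcard : ({i, j, k, l} : Finset ι).card ≤ 4 := Finset.card_le_four
  obtain ⟨m, hm⟩ : ∃ m, m ∉ ({i, j, k, l} : Finset ι) := by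
    by_contra hcon
    push Not at hcon
    have : ({i, j, k, l} : Finset ι) = Finset.univ := Finset.eq_univ_of_forall hcon
    rw [this, Finset.card_univ] at hcard
    omega
  simp only [Finset.mem_insert, Finset.mem_singleton, not_or] at hm
  exact ⟨m, hm.1, hm.2.1, hm.2.2.1, hm.2.2.2⟩

end P193
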