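import Vale.Agent.Lib.P193.Two.KMWord
import Vale.Agent.Lib.P193.Two.KMAlg

/-!
# P193 part II, section 5: `St ι (FreeAlgebra (ZMod 2) X)` is finitely presented.
-/

namespace P193

universe u v w

open scoped commutatorElement

variable {ι : Type v} [Fintype ι] {X : Type u} {G : Type w} [Group G]

private def KMFree_comap {ι : Type v} {A B : Type u} [Ring A] [Ring B] {G : Type w} [Group G]
    (e : A →+* B) (S : StData ι B G) : StData ι A G where
  x i j r := S.x i j (e r)
  diag i r := S.diag i (e r)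
  add i j r s := by rw [S.add, map_add]
  comm3 i j k r s h1 h2 h3 := by rw [S.comm3 i j k (e r) (e s) h1 h2 h3, map_mul]
  comm1 i j k l r s h1 h2 h3 h4 := S.comm1 i j k l (e r) (e s) h1 h2 h3 h4

/-- transport `exists_words`, `exists_stData_of_monData` along `FreeAlgebra.equivMonoidAlgebraFreeMonoid` -/
theorem exists_stData_free (h5 : 5 ≤ Fintype.card ι) (D : KMData ι X G) :
    ∃ S : StData ι (FreeAlgebra (ZMod 2) X) G, (∀ i j, S.x i j 1 = D.x i j none) ∧
      ∀ i j a, S.x i j (FreeAlgebra.ι (ZMod 2) a) = D.x i j (some a) := by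
  obtain ⟨E, hE1, hE2⟩ := exists_words h5 D
  obtain ⟨S, hS⟩ := exists_stData_of_monData E
  refine ⟨KMFree_comap ((FreeAlgebra.equivMonoidAlgebraFreeMonoid (R := ZMod 2) (X := X)).toRingEquiv
    : FreeAlgebra (ZMod 2) X →+* MonoidAlgebra (ZMod 2) (FreeMonoid X)) S, ?_, ?_⟩
  · intro i j
    have h := hS i j 1
    rw [hE1 i j, map_one] at h
    rw [← h]
    show S.x i j _ = _
    rw [map_one]
  · intro i j a
    have h := hS i j (FreeMonoid.of a)
    rw [hE2 i j a] at h
    rw [← h]
    show S.x i j _ = _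
    congr 1
    show FreeAlgebra.equivMonoidAlgebraFreeMonoid (FreeAlgebra.ι (ZMod 2) a) = _
    simp [FreeAlgebra.equivMonoidAlgebraFreeMonoid]

private theorem KMFree_third (h5 : 5 ≤ Fintype.card ι) (i j : ι) : ∃ k, k ≠ i ∧ k ≠ j := by
  obtain ⟨m, h1, h2, -, -⟩ := exists_fifth h5 i j i j
  exact ⟨m, h1, h2⟩

/-- `St ι (FreeAlgebra (ZMod 2) X)` is generated by the `x_ij(1)` and the `x_ij(ι a)` (`x_ij(f g) = ⁅x_ik(f), x_kj(g)⁆`, additivity,
`FreeAlgebra.induction`) -/
theorem closure_letters (h5 : 5 ≤ Fintype.card ι) (X : Type u) :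
    Subgroup.closure {g : St ι (FreeAlgebra (ZMod 2) X) | ∃ i j, g = St.x i j 1 ∨
      ∃ a, g = St.x i j (FreeAlgebra.ι (ZMod 2) a)} = ⊤ := by
  set H := Subgroup.closure {g : St ι (FreeAlgebra (ZMod 2) X) | ∃ i j, g = St.x i j 1 ∨
      ∃ a, g = St.x i j (FreeAlgebra.ι (ZMod 2) a)} with hH
  have key : ∀ f : FreeAlgebra (ZMod 2) X, ∀ i j : ι, St.x i j f ∈ H := by
    intro f
    induction f using FreeAlgebra.induction with
    | grade0 r =>
      intro i j
      have hr : r = 0 ∨ r = 1 := by
        revert r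
        decide
      rcases hr with rfl | rfl
      · rw [map_zero, St.x_zero]
        exact one_mem _
      · rw [map_one]
        exact Subgroup.subset_closure ⟨i, j, Or.inl rfl⟩
    | grade1 a =>
      intro i j
      exact Subgroup.subset_closure ⟨i, j, Or.inr ⟨a, rfl⟩⟩
    | mul f g hf hg =>
      intro i j
      by_cases hij : i = j
      · subst hij
        rw [St.diag]
        exact one_mem _
      · obtain ⟨k, hk1, hk2⟩ := KMFree_third h5 i j
        rw [← St.comm3 i k j f g (Ne.symm hk1) hk2 hij, commutatorElement_def]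
        exact mul_mem (mul_mem (mul_mem (hf i k) (hg k j)) (inv_mem (hf i k))) (inv_mem (hg k j))
    | add f g hf hg =>
      intro i j
      rw [← St.add]
      exact mul_mem (hf i j) (hg i j)
  rw [eq_top_iff, ← St.closure_eq_top ι (FreeAlgebra (ZMod 2) X), Subgroup.closure_le]
  rintro _ ⟨i, j, r, rfl⟩
  exact key r i j

end P193
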