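import Vale.Agent.Lib.P193.Two.KMDefs

/-!
# P193 part II, section 5 (Krstic-McCool): from letters to words.

`W i j [] = x i j none`, `W i j (a :: w) = ⁅x i k (some a), W k j w⁆` for a chosen `k ≠ i, j` (`W i i w = 1`). By induction on the
length `L`: (Ind) `W i j (a :: w) = ⁅x i k (some a), W k j w⁆` for ALL `k ≠ i, j`; (C1) commutation for words of length `≤ L`;
(C3l) `⁅W i j [], W j k w⁆ = W i k w`; (C3r) `⁅W i j w, W j k []⁆ = W i k w`.
Base `L = 1`: relations of `KMData` (`W i j [a] = ⁅x i k (some a), x k j none⁆ = x i j (some a)`).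
Step: independence: `W k j w = ⁅x k l none, W l j w⁆` (C3l), so by `comm_tool` `⁅x i k a, W k j w⁆ = ⁅⁅x i k a, x k l none⁆, W l j w⁆ =
⁅x i l a, W l j w⁆`. C1: `m ∉ {i,j,k,l}` and `W i j (a :: w) = ⁅x i m a, W m j w⁆`, both factors commute with `W k l w'` (first for
`|w'| ≤ L`, then for `|w'| = L + 1` by symmetry). C3l: `⁅x i j none, ⁅x j m a, W m k w⁆⁆ = ⁅⁅x i j none, x j m a⁆, W m k w⁆ = ⁅x i m a, W m k w⁆`.
C3r: `⁅⁅x i m a, W m j w⁆, x j k none⁆ = ⁅x i m a, ⁅W m j w, x j k none⁆⁆ = ⁅x i m a, W m k w⁆`.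
Then `⁅W i j u, W j k v⁆ = W i k (u ++ v)` by induction on `u` (same computation), squares by `comm_sq`.
-/

namespace P193

universe u v w

open scoped commutatorElement

variable {ι : Type v} [Fintype ι] {X : Type u} {G : Type w} [Group G]

open Classical in
/-- the word elements; `t i j` is an auxiliary index different from `i` and `j` -/
private noncomputable def KMWord_W (D : KMData ι X G) (t : ι → ι → ι) : List X → ι → ι → G
  | [], i, j => D.x i j none
  | a :: w, i, j => if i = j then 1 else ⁅D.x i (t i j) (some a), KMWord_W D t w (t i j) j⁆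

omit [Fintype ι] in
private theorem KMWord_diag (D : KMData ι X G) (t : ι → ι → ι) (w : List X) (i : ι) :
    KMWord_W D t w i i = 1 := by
  cases w with
  | nil => exact D.diag i none
  | cons a w => simp [KMWord_W]

/-- the induction package -/
private structure KMWord_Good (D : KMData ι X G) (t : ι → ι → ι) (L : ℕ) : Prop where
  one : ∀ i j a, i ≠ j → KMWord_W D t [a] i j = D.x i j (some a)
  ind : ∀ i j k a (w : List X), w.length < L → i ≠ j → k ≠ i → k ≠ j →
    KMWord_W D t (a :: w) i j = ⁅D.x i k (some a), KMWord_W D t w k j⁆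
  c1 : ∀ i j k l (w w' : List X), w.length ≤ L → w'.length ≤ L → i ≠ j → k ≠ l → j ≠ k → i ≠ l →
    Commute (KMWord_W D t w i j) (KMWord_W D t w' k l)
  c3l : ∀ i j k (w : List X), w.length ≤ L → i ≠ j → j ≠ k → i ≠ k →
    ⁅D.x i j none, KMWord_W D t w j k⁆ = KMWord_W D t w i k
  c3r : ∀ i j k (w : List X), w.length ≤ L → i ≠ j → j ≠ k → i ≠ k →
    ⁅KMWord_W D t w i j, D.x j k none⁆ = KMWord_W D t w i k

omit [Fintype ι] in
private theorem KMWord_one (D : KMData ι X G) (t : ι → ι → ι)
    (ht : ∀ i j, t i j ≠ i ∧ t i j ≠ j) (i j : ι) (a : X) (hij : i ≠ j) :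
    KMWord_W D t [a] i j = D.x i j (some a) := by
  have h := ht i j
  simp only [KMWord_W, if_neg hij]
  exact D.comm3r i (t i j) j (some a) h.1.symm h.2 hij

private theorem KMWord_le_one {w : List X} (h : w.length ≤ 1) : w = [] ∨ ∃ a, w = [a] := by
  rcases w with _ | ⟨a, _ | ⟨b, w⟩⟩
  · exact Or.inl rfl
  · exact Or.inr ⟨a, rfl⟩
  · simp at h

private theorem KMWord_short (D : KMData ι X G) (t : ι → ι → ι)
    (ht : ∀ i j, t i j ≠ i ∧ t i j ≠ j) {w : List X} (h : w.length ≤ 1) :
    ∃ o : Option X, ∀ i j, i ≠ j → KMWord_W D t w i j = D.x i j o := by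
  rcases KMWord_le_one h with rfl | ⟨a, rfl⟩
  · exact ⟨none, fun i j _ => rfl⟩
  · exact ⟨some a, fun i j hij => KMWord_one D t ht i j a hij⟩

private theorem KMWord_base (D : KMData ι X G) (t : ι → ι → ι)
    (ht : ∀ i j, t i j ≠ i ∧ t i j ≠ j) : KMWord_Good D t 1 where
  one := KMWord_one D t ht
  ind := by
    intro i j k a w hw hij hki hkj
    have : w = [] := List.length_eq_zero_iff.1 (by omega)
    subst this
    rw [KMWord_one D t ht i j a hij]
    exact (D.comm3r i k j (some a) hki.symm hkj hij).symm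
  c1 := by
    intro i j k l w w' hw hw' hij hkl hjk hil
    obtain ⟨o, ho⟩ := KMWord_short D t ht hw
    obtain ⟨o', ho'⟩ := KMWord_short D t ht hw'
    rw [ho i j hij, ho' k l hkl]
    exact D.comm1 i j k l o o' hij hkl hjk hil
  c3l := by
    intro i j k w hw hij hjk hik
    obtain ⟨o, ho⟩ := KMWord_short D t ht hw
    rw [ho j k hjk, ho i k hik]
    exact D.comm3l i j k o hij hjk hik
  c3r := by
    intro i j k w hw hij hjk hik
    obtain ⟨o, ho⟩ := KMWord_short D t ht hw
    rw [ho i j hij, ho i k hik]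
    exact D.comm3r i j k o hij hjk hik

private theorem KMWord_step (h5 : 5 ≤ Fintype.card ι) (D : KMData ι X G) (t : ι → ι → ι)
    (ht : ∀ i j, t i j ≠ i ∧ t i j ≠ j) (L : ℕ) (hL : 1 ≤ L) (H : KMWord_Good D t L) :
    KMWord_Good D t (L + 1) := by
  have hone := H.one
  -- commutation of a letter with a word of length at most `L`
  have hc : ∀ i j k l (a : X) (w : List X), w.length ≤ L → i ≠ j → k ≠ l → j ≠ k → i ≠ l →
      Commute (D.x i j (some a)) (KMWord_W D t w k l) := by
    intro i j k l a w hw hij hkl hjk hil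
    rw [← hone i j a hij]
    exact H.c1 i j k l [a] w (by simpa using hL) hw hij hkl hjk hil
  -- independence
  have hindep : ∀ i j k l (a : X) (w : List X), w.length ≤ L → i ≠ j → k ≠ i → k ≠ j → l ≠ i →
      l ≠ j → ⁅D.x i k (some a), KMWord_W D t w k j⁆ = ⁅D.x i l (some a), KMWord_W D t w l j⁆ := by
    intro i j k l a w hw hij hki hkj hli hlj
    rcases eq_or_ne k l with rfl | hkl
    · rfl
    have e1 : ⁅D.x k l none, KMWord_W D t w l j⁆ = KMWord_W D t w k j :=
      H.c3l k l j w hw hkl hlj hkj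
    have e2 : ⁅D.x i k (some a), D.x k l none⁆ = D.x i l (some a) :=
      D.comm3r i k l (some a) hki.symm hkl hli.symm
    have T := comm_tool (a := D.x i k (some a)) (b := D.x k l none) (c := KMWord_W D t w l j)
      (hc i k l j a w hw hki.symm hlj hkl hij)
      (by rw [e1]; exact H.c1 k j l j w w hw hw hkj hlj hlj.symm hkj)
      (by rw [e1, e2]; exact (hc i l k j a w hw hli.symm hkj hkl.symm hij).symm)
    rw [e1, e2] at T
    exact T
  have hind : ∀ i j k a (w : List X), w.length < L + 1 → i ≠ j → k ≠ i → k ≠ j →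
      KMWord_W D t (a :: w) i j = ⁅D.x i k (some a), KMWord_W D t w k j⁆ := by
    intro i j k a w hw hij hki hkj
    have h := ht i j
    have e : KMWord_W D t (a :: w) i j =
        ⁅D.x i (t i j) (some a), KMWord_W D t w (t i j) j⁆ := by
      simp only [KMWord_W, if_neg hij]
    rw [e]
    exact hindep i j (t i j) k a w (by omega) hij h.1 h.2 hki hkj
  have hc1a : ∀ i j k l (w w' : List X), w.length ≤ L + 1 → w'.length ≤ L → i ≠ j → k ≠ l →
      j ≠ k → i ≠ l → Commute (KMWord_W D t w i j) (KMWord_W D t w' k l) := by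
    intro i j k l w w' hw hw' hij hkl hjk hil
    cases w with
    | nil => exact H.c1 i j k l [] w' (by simp) hw' hij hkl hjk hil
    | cons a v =>
      have hv : v.length ≤ L := by simpa using hw
      obtain ⟨m, hmi, hmj, hmk, hml⟩ := exists_fifth h5 i j k l
      rw [hind i j m a v (by omega) hij hmi hmj]
      refine (comm_comm ?_ ?_).symm
      · exact (hc i m k l a w' hw' hmi.symm hkl hmk hil).symm
      · exact (H.c1 m j k l v w' hv hw' hmj hkl hjk hml).symm
  have hc1 : ∀ i j k l (w w' : List X), w.length ≤ L + 1 → w'.length ≤ L + 1 → i ≠ j → k ≠ l →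
      j ≠ k → i ≠ l → Commute (KMWord_W D t w i j) (KMWord_W D t w' k l) := by
    intro i j k l w w' hw hw' hij hkl hjk hil
    cases w' with
    | nil => exact hc1a i j k l w [] hw (by simp) hij hkl hjk hil
    | cons a v =>
      have hv : v.length ≤ L := by simpa using hw'
      obtain ⟨m, hmi, hmj, hmk, hml⟩ := exists_fifth h5 i j k l
      rw [hind k l m a v (by omega) hkl hmk hml]
      refine comm_comm ?_ ?_
      · rw [← hone k m a hmk.symm]
        exact hc1a i j k m w [a] hw (by simpa using hL) hij hmk.symm hjk hmi.symm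
      · exact hc1a i j m l w v hw hv hij hml hmj.symm hil
  refine ⟨hone, hind, hc1, ?_, ?_⟩
  · intro i j k w hw hij hjk hik
    cases w with
    | nil => exact H.c3l i j k [] (by simp) hij hjk hik
    | cons a v =>
      have hv : v.length ≤ L := by simpa using hw
      obtain ⟨m, hmi, hmj, hmk, -⟩ := exists_fifth h5 i j k k
      have e1 : KMWord_W D t (a :: v) j k = ⁅D.x j m (some a), KMWord_W D t v m k⁆ :=
        hind j k m a v (by omega) hjk hmj hmk
      have e2 : ⁅D.x i j none, D.x j m (some a)⁆ = D.x i m (some a) :=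
        D.comm3l i j m (some a) hij hmj.symm hmi.symm
      have T := comm_tool (a := D.x i j none) (b := D.x j m (some a)) (c := KMWord_W D t v m k)
        (H.c1 i j m k [] v (by simp) hv hij hmk hmj.symm hik)
        (by rw [← e1]; exact hc1 j k m k (a :: v) v hw (by omega) hjk hmk hmk.symm hjk)
        (by
          rw [← e1, e2, ← hone i m a hmi.symm]
          exact hc1 j k i m (a :: v) [a] hw (by simp) hjk hmi.symm hik.symm hmj.symm)
      rw [← e1, e2] at T
      rw [T]
      exact (hind i k m a v (by omega) hik hmi hmk).symm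
  · intro i j k w hw hij hjk hik
    cases w with
    | nil => exact H.c3r i j k [] (by simp) hij hjk hik
    | cons a v =>
      have hv : v.length ≤ L := by simpa using hw
      obtain ⟨m, hmi, hmj, hmk, -⟩ := exists_fifth h5 i j k k
      have e1 : KMWord_W D t (a :: v) i j = ⁅D.x i m (some a), KMWord_W D t v m j⁆ :=
        hind i j m a v (by omega) hij hmi hmj
      have e2 : ⁅KMWord_W D t v m j, D.x j k none⁆ = KMWord_W D t v m k :=
        H.c3r m j k v hv hmj hjk hmk
      have T := comm_tool (a := D.x i m (some a)) (b := KMWord_W D t v m j) (c := D.x j k none)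
        (D.comm1 i m j k (some a) none hmi.symm hjk hmj hik)
        (by
          rw [e2]
          exact H.c1 m k j k v [] hv (by simp) hmk hjk hjk.symm hmk)
        (by
          rw [← e1, e2]
          exact hc1 m k i j v (a :: v) (by omega) hw hmk hij hik.symm hmj)
      rw [← e1, e2] at T
      rw [← T]
      exact (hind i k m a v (by omega) hik hmi hmk).symm

private theorem KMWord_good (h5 : 5 ≤ Fintype.card ι) (D : KMData ι X G) (t : ι → ι → ι)
    (ht : ∀ i j, t i j ≠ i ∧ t i j ≠ j) (L : ℕ) : KMWord_Good D t (L + 1) := by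
  induction L with
  | zero => exact KMWord_base D t ht
  | succ L ih => exact KMWord_step h5 D t ht (L + 1) (by omega) ih

private theorem KMWord_ind (h5 : 5 ≤ Fintype.card ι) (D : KMData ι X G) (t : ι → ι → ι)
    (ht : ∀ i j, t i j ≠ i ∧ t i j ≠ j) (i j k : ι) (a : X) (w : List X) (hij : i ≠ j)
    (hki : k ≠ i) (hkj : k ≠ j) :
    KMWord_W D t (a :: w) i j = ⁅D.x i k (some a), KMWord_W D t w k j⁆ :=
  (KMWord_good h5 D t ht w.length).ind i j k a w (by omega) hij hki hkj

private theorem KMWord_c1 (h5 : 5 ≤ Fintype.card ι) (D : KMData ι X G) (t : ι → ι → ι)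
    (ht : ∀ i j, t i j ≠ i ∧ t i j ≠ j) (i j k l : ι) (w w' : List X) (hij : i ≠ j) (hkl : k ≠ l)
    (hjk : j ≠ k) (hil : i ≠ l) : Commute (KMWord_W D t w i j) (KMWord_W D t w' k l) :=
  (KMWord_good h5 D t ht (w.length + w'.length)).c1 i j k l w w' (by omega) (by omega) hij hkl hjk
    hil

private theorem KMWord_c3 (h5 : 5 ≤ Fintype.card ι) (D : KMData ι X G) (t : ι → ι → ι)
    (ht : ∀ i j, t i j ≠ i ∧ t i j ≠ j) (u : List X) : ∀ (i j k : ι) (w : List X), i ≠ j → j ≠ k →
    i ≠ k → ⁅KMWord_W D t u i j, KMWord_W D t w j k⁆ = KMWord_W D t (u ++ w) i k := by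
  induction u with
  | nil =>
    intro i j k w hij hjk hik
    exact (KMWord_good h5 D t ht w.length).c3l i j k w (by omega) hij hjk hik
  | cons a u ih =>
    intro i j k w hij hjk hik
    obtain ⟨m, hmi, hmj, hmk, -⟩ := exists_fifth h5 i j k k
    have e1 : KMWord_W D t (a :: u) i j = ⁅D.x i m (some a), KMWord_W D t u m j⁆ :=
      KMWord_ind h5 D t ht i j m a u hij hmi hmj
    have e2 : ⁅KMWord_W D t u m j, KMWord_W D t w j k⁆ = KMWord_W D t (u ++ w) m k :=
      ih m j k w hmj hjk hmk
    have T := comm_tool (a := D.x i m (some a)) (b := KMWord_W D t u m j)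
      (c := KMWord_W D t w j k)
      (by
        rw [← KMWord_one D t ht i m a hmi.symm]
        exact KMWord_c1 h5 D t ht i m j k [a] w hmi.symm hjk hmj hik)
      (by
        rw [e2]
        exact KMWord_c1 h5 D t ht m k j k (u ++ w) w hmk hjk hjk.symm hmk)
      (by
        rw [← e1, e2]
        exact KMWord_c1 h5 D t ht m k i j (u ++ w) (a :: u) hmk hij hik.symm hmj)
    rw [← e1, e2] at T
    rw [← T]
    exact (KMWord_ind h5 D t ht i k m a (u ++ w) hik hmi hmk).symm

private theorem KMWord_sq (h5 : 5 ≤ Fintype.card ι) (D : KMData ι X G) (t : ι → ι → ι)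
    (ht : ∀ i j, t i j ≠ i ∧ t i j ≠ j) (i j : ι) (w : List X) :
    KMWord_W D t w i j * KMWord_W D t w i j = 1 := by
  cases w with
  | nil => exact D.sq i j none
  | cons a w =>
    rcases eq_or_ne i j with rfl | hij
    · rw [KMWord_diag, one_mul]
    · have h := ht i j
      have e1 := KMWord_ind h5 D t ht i j (t i j) a w hij h.1 h.2
      have hcm : Commute ⁅D.x i (t i j) (some a), KMWord_W D t w (t i j) j⁆
          (D.x i (t i j) (some a)) := by
        rw [← e1, ← KMWord_one D t ht i (t i j) a h.1.symm]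
        exact KMWord_c1 h5 D t ht i j i (t i j) (a :: w) [a] hij h.1.symm hij.symm h.1.symm
      rw [e1]
      exact comm_sq (D.sq _ _ _) hcm

theorem exists_words (h5 : 5 ≤ Fintype.card ι) (D : KMData ι X G) :
    ∃ E : MonData ι (FreeMonoid X) G, (∀ i j, E.x i j 1 = D.x i j none) ∧
      ∀ i j a, E.x i j (FreeMonoid.of a) = D.x i j (some a) := by
  have hex : ∀ i j : ι, ∃ k, k ≠ i ∧ k ≠ j := by
    intro i j
    obtain ⟨m, h1, h2, -, -⟩ := exists_fifth h5 i j j j
    exact ⟨m, h1, h2⟩
  choose t ht using hex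
  refine ⟨{ x := fun i j w => KMWord_W D t w.toList i j
            diag := fun i w => KMWord_diag D t _ i
            sq := fun i j w => KMWord_sq h5 D t ht i j _
            comm1 := fun i j k l w w' hij hkl hjk hil =>
              KMWord_c1 h5 D t ht i j k l _ _ hij hkl hjk hil
            comm3 := fun i j k w w' hij hjk hik => by
              rw [FreeMonoid.toList_mul]
              exact KMWord_c3 h5 D t ht _ i j k _ hij hjk hik }, ?_, ?_⟩
  · intro i j
    rfl
  · intro i j a
    rcases eq_or_ne i j with rfl | hij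
    · exact (KMWord_diag D t _ i).trans (D.diag i _).symm
    · exact KMWord_one D t ht i j a hij

end P193
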