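import Vale.Agent.Lib.P193.Two.Basic

/-!
# P193 part II, section 3 (simplicity), preparation.
-/

namespace P193

universe u v

variable {R : Type u} [Ring R]

private theorem SimpA_key {w α β : Isom R} {f : R} (hf : w.st * f * w.val = 0 ∨ w.st * f * w.val = 1)
    (h : α.st * β.val = 0) : (w * α).st * f * (w * β).val = 0 := by
  have e : (w * α).st * f * (w * β).val = α.st * (w.st * f * w.val) * β.val := by
    simp only [Isom.mul_st, Isom.mul_val, mul_assoc]
  rw [e]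
  rcases hf with h0 | h0
  · rw [h0, mul_zero, zero_mul]
  · rw [h0, mul_one, h]

/-- `(P)` for `z = g - 1`: `x (g - 1) y = 1`; SCAL for `{x g y, x y}`: isometry `q0`; `q = q0* x`, `c = y q0`.
(`q g c - q c = 1`, both in `{0, 1}`; `0 ≠ 1`.) -/
theorem simp_start [CharP R 2] (hP : HPure R) (hS : HScal R) (g : Rˣ) (hg : g ≠ 1) : ∃ c q : R,
    (q * g * c = 1 ∧ q * c = 0) ∨ (q * g * c = 0 ∧ q * c = 1) := by
  classical
  have hnt : Nontrivial R := CharP.nontrivial_of_char_ne_one (R := R) (v := 2) (by norm_num)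
  have hz : (g : R) - 1 ≠ 0 := by
    intro h
    exact hg (Units.ext (sub_eq_zero.1 h))
  obtain ⟨x, y, hxy⟩ := hP _ hz
  obtain ⟨q0, hq0⟩ := hS {x * g * y, x * y}
  have h1 := hq0 (x * g * y) (by simp)
  have h2 := hq0 (x * y) (by simp)
  have e1 : q0.st * x * g * (y * q0.val) = q0.st * (x * g * y) * q0.val := by
    simp only [mul_assoc]
  have e2 : q0.st * x * (y * q0.val) = q0.st * (x * y) * q0.val := by
    simp only [mul_assoc]
  have h3 : q0.st * (x * g * y) * q0.val - q0.st * (x * y) * q0.val = 1 := by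
    have e3 : q0.st * (x * g * y) * q0.val - q0.st * (x * y) * q0.val
        = q0.st * (x * ((g : R) - 1) * y) * q0.val := by
      noncomm_ring
    rw [e3, hxy, mul_one, q0.st_val]
  refine ⟨y * q0.val, q0.st * x, ?_⟩
  rw [e1, e2]
  rcases h1 with h1 | h1 <;> rcases h2 with h2 | h2
  · rw [h1, h2, sub_zero] at h3
    exact absurd h3 zero_ne_one
  · exact Or.inr ⟨h1, h2⟩
  · exact Or.inl ⟨h1, h2⟩
  · rw [h1, h2, sub_self] at h3
    exact absurd h3 zero_ne_one

/-- SCAL for `F = {1, g, g⁻¹, c', g c', g⁻¹ c', q'}`: isometry `w`; `a = w s0`, `d = w s1 s0`, `p = w s1 s1 s0`,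
`z = w s1 s1 s1`. -/
theorem simp_generic (hL : HLeavitt R) (hS : HScal R) (g : Rˣ) (c' q' : R) :
    ∃ a d p z : Isom R, d.st * (c' * a.val) = 0 ∧ d.st * g * (c' * a.val) = 0 ∧
      d.st * ((g⁻¹ : Rˣ) : R) * (c' * a.val) = 0 ∧ (a.st * q') * p.val = 0 ∧
      Orth p d ∧ Orth p z ∧ Orth d z ∧ Orth p (g • d) ∧ Orth z (g • d) := by
  classical
  obtain ⟨s0, s1, ⟨h01, h10⟩, -⟩ := hL
  obtain ⟨w, hw⟩ := hS {1, (g : R), ((g⁻¹ : Rˣ) : R), c', g * c', ((g⁻¹ : Rˣ) : R) * c', q'}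
  have w1 := hw 1 (by simp)
  have wg := hw g (by simp)
  have wg' := hw ((g⁻¹ : Rˣ) : R) (by simp)
  have wc := hw c' (by simp)
  have wgc := hw (g * c') (by simp)
  have wgc' := hw (((g⁻¹ : Rˣ) : R) * c') (by simp)
  have wq := hw q' (by simp)
  -- products of words
  have k1 : (s1 * s0).st * s0.val = 0 := by
    rw [Isom.mul_st, mul_assoc, h10, mul_zero]
  have k2 : s0.st * (s1 * (s1 * s0)).val = 0 := by
    rw [Isom.mul_val, ← mul_assoc, h01, zero_mul]
  have k3 : (s1 * (s1 * s0)).st * (s1 * s0).val = 0 := by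
    rw [Isom.mul_st, Isom.mul_val s1 s0, mul_assoc, Isom.st_val_mul, k1]
  have k4 : (s1 * s0).st * (s1 * (s1 * s0)).val = 0 := by
    rw [Isom.mul_st s1 s0, Isom.mul_val s1, mul_assoc, Isom.st_val_mul, Isom.mul_val, ← mul_assoc,
      h01, zero_mul]
  have k5 : (s1 * (s1 * s0)).st * (s1 * (s1 * s1)).val = 0 := by
    rw [Isom.mul_st s1, Isom.mul_val s1 (s1 * s1), mul_assoc, Isom.st_val_mul, Isom.mul_st,
      Isom.mul_val, mul_assoc, Isom.st_val_mul, h01]
  have k6 : (s1 * (s1 * s1)).st * (s1 * (s1 * s0)).val = 0 := by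
    rw [Isom.mul_st s1, Isom.mul_val s1 (s1 * s0), mul_assoc, Isom.st_val_mul, Isom.mul_st,
      Isom.mul_val, mul_assoc, Isom.st_val_mul, h10]
  have k7 : (s1 * s0).st * (s1 * (s1 * s1)).val = 0 := by
    rw [Isom.mul_st s1 s0, Isom.mul_val s1, mul_assoc, Isom.st_val_mul, Isom.mul_val, ← mul_assoc,
      h01, zero_mul]
  have k8 : (s1 * (s1 * s1)).st * (s1 * s0).val = 0 := by
    rw [Isom.mul_st s1, Isom.mul_val s1 s0, mul_assoc, Isom.st_val_mul, Isom.mul_st, mul_assoc,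
      h10, mul_zero]
  refine ⟨w * s0, w * (s1 * s0), w * (s1 * (s1 * s0)), w * (s1 * (s1 * s1)), ?_, ?_, ?_, ?_,
    ⟨?_, ?_⟩, ⟨?_, ?_⟩, ⟨?_, ?_⟩, ⟨?_, ?_⟩, ⟨?_, ?_⟩⟩
  · rw [← mul_assoc]
    exact SimpA_key wc k1
  · have := SimpA_key wgc k1
    simpa only [mul_assoc] using this
  · have := SimpA_key wgc' k1
    simpa only [mul_assoc] using this
  · exact SimpA_key wq k2
  · simpa only [mul_one] using SimpA_key w1 k3
  · simpa only [mul_one] using SimpA_key w1 k4
  · simpa only [mul_one] using SimpA_key w1 k5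
  · simpa only [mul_one] using SimpA_key w1 k6
  · simpa only [mul_one] using SimpA_key w1 k7
  · simpa only [mul_one] using SimpA_key w1 k8
  · rw [Isom.smul_val, ← mul_assoc]
    exact SimpA_key wg k3
  · rw [Isom.smul_st]
    exact SimpA_key wg' k4
  · rw [Isom.smul_val, ← mul_assoc]
    exact SimpA_key wg k8
  · rw [Isom.smul_st]
    exact SimpA_key wg' k7

end P193
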