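import Vale.Agent.Lib.P193.Defs

/-!
# P193 part II, section 3 (simplicity), the commutator computation.
-/

namespace P193

universe u v

variable {R : Type u} [Ring R]

open scoped commutatorElement

private theorem SimpB_four [CharP R 2] (n m : R) (hn : n * n = 0) (hnm : n * m = 0)
    (hm : m * m = 0) : (1 + n) * (1 + m) * (1 + n) * (1 + m) = 1 + m * n := by
  have e1 : (1 + n) * (1 + m) = 1 + n + m := by
    rw [mul_add, mul_one, add_mul, one_mul, hnm, add_zero]
  rw [mul_assoc ((1 + n) * (1 + m)), e1]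
  have e2 : (1 + n + m) * (1 + n + m) = 1 + (n + n) + (m + m) + n * n + n * m + m * n + m * m := by
    noncomm_ring
  rw [e2, hn, hnm, hm, CharTwo.add_self_eq_zero, CharTwo.add_self_eq_zero]
  simp

/-- `u = ⁅g, 1 + c r d*⁆ = 1 + n`, `n = g c r d* g⁻¹ + c r d*`, `n² = 0`, `n p = 0`;
`⁅u, 1 + p q⁆ = 1 + p q n = 1 + p (q g c) r d* g⁻¹ + p (q c) r d*` is in `N`. (Characteristic 2; `1 + c r d*` and `1 + p q` are
`tv _ _`, own inverses.) -/
theorem simp_comm [CharP R 2] (N : Subgroup Rˣ) [N.Normal] (g : Rˣ) (hg : g ∈ N) (c q : R)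
    (d p : Isom R) (h1 : d.st * c = 0) (h2 : d.st * g * c = 0)
    (h3 : d.st * ((g⁻¹ : Rˣ) : R) * c = 0) (h4 : q * p.val = 0) (h5 : Orth p d)
    (h6 : Orth p (g • d)) (r : R) : ∃ u ∈ N,
      (u : R) = 1 + p.val * (q * g * c) * r * (g • d).st + p.val * (q * c) * r * d.st := by
  have ha2 : (c * r * d.st) * (c * r * d.st) = 0 := by
    calc (c * r * d.st) * (c * r * d.st) = c * r * (d.st * c) * r * d.st := by
          simp only [mul_assoc]
      _ = 0 := by rw [h1]; simp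
  have hs2 : (p.val * q) * (p.val * q) = 0 := by
    calc (p.val * q) * (p.val * q) = p.val * (q * p.val) * q := by
          simp only [mul_assoc]
      _ = 0 := by rw [h4]; simp
  set a : R := c * r * d.st with hadef
  have hga : (g : R) * a * ((g⁻¹ : Rˣ) : R) * a = 0 := by
    calc (g : R) * a * ((g⁻¹ : Rˣ) : R) * a
        = (g : R) * c * r * (d.st * ((g⁻¹ : Rˣ) : R) * c) * r * d.st := by
          rw [hadef]; simp only [mul_assoc]
      _ = 0 := by rw [h3]; simp
  have hag : a * g * a = 0 := by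
    calc a * g * a = c * r * (d.st * g * c) * r * d.st := by
          rw [hadef]; simp only [mul_assoc]
      _ = 0 := by rw [h2]; simp
  have hap : a * p.val = 0 := by
    calc a * p.val = c * r * (d.st * p.val) := by rw [hadef]; simp only [mul_assoc]
      _ = 0 := by rw [h5.2]; simp
  have hagp : a * ((g⁻¹ : Rˣ) : R) * p.val = 0 := by
    have h7 : d.st * ((g⁻¹ : Rˣ) : R) * p.val = 0 := h6.2
    calc a * ((g⁻¹ : Rˣ) : R) * p.val = c * r * (d.st * ((g⁻¹ : Rˣ) : R) * p.val) := by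
          rw [hadef]; simp only [mul_assoc]
      _ = 0 := by rw [h7]; simp
  set n : R := (g : R) * a * ((g⁻¹ : Rˣ) : R) + a with hndef
  have hgg : (((g⁻¹ : Rˣ) : R)) * (g : R) = 1 := Units.inv_mul g
  have hn2 : n * n = 0 := by
    have e : n * n = (g : R) * a * (((g⁻¹ : Rˣ) : R) * (g : R)) * a * ((g⁻¹ : Rˣ) : R)
        + (g : R) * a * ((g⁻¹ : Rˣ) : R) * a + (a * g * a) * ((g⁻¹ : Rˣ) : R) + a * a := by
      rw [hndef]; noncomm_ring
    rw [e, hga, hag, ha2, hgg, mul_one, mul_assoc (g : R) a a, ha2]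
    simp
  have hnp : n * p.val = 0 := by
    rw [hndef, add_mul, hap, add_zero, mul_assoc (g : R), mul_assoc (g : R), hagp, mul_zero]
  have hnpq : n * (p.val * q) = 0 := by
    rw [← mul_assoc, hnp, zero_mul]
  -- the unit u
  have hu : g * (tv a ha2) * g⁻¹ * (tv a ha2)⁻¹ = tv n hn2 := by
    apply Units.ext
    simp only [Units.val_mul, tv_val, tv_inv_val]
    have e : (g : R) * (1 + a) * ((g⁻¹ : Rˣ) : R) * (1 + a)
        = (g : R) * ((g⁻¹ : Rˣ) : R) + (g : R) * ((g⁻¹ : Rˣ) : R) * a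
          + (g : R) * a * ((g⁻¹ : Rˣ) : R) + (g : R) * a * ((g⁻¹ : Rˣ) : R) * a := by
      noncomm_ring
    rw [e, hga, Units.mul_inv, one_mul, hndef]
    abel
  have huN : tv n hn2 ∈ N := by
    rw [← hu]
    have h := N.mul_mem hg ((inferInstance : N.Normal).conj_mem _ (N.inv_mem hg) (tv a ha2))
    have e : g * (tv a ha2 * g⁻¹ * (tv a ha2)⁻¹) = g * (tv a ha2) * g⁻¹ * (tv a ha2)⁻¹ := by
      group
    rwa [e] at h
  refine ⟨tv n hn2 * tv (p.val * q) hs2 * (tv n hn2)⁻¹ * (tv (p.val * q) hs2)⁻¹, ?_, ?_⟩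
  · have h := N.mul_mem huN
      ((inferInstance : N.Normal).conj_mem _ (N.inv_mem huN) (tv (p.val * q) hs2))
    have e : tv n hn2 * (tv (p.val * q) hs2 * (tv n hn2)⁻¹ * (tv (p.val * q) hs2)⁻¹)
        = tv n hn2 * tv (p.val * q) hs2 * (tv n hn2)⁻¹ * (tv (p.val * q) hs2)⁻¹ := by
      group
    rwa [e] at h
  · simp only [Units.val_mul, tv_val, tv_inv_val]
    rw [SimpB_four n (p.val * q) hn2 hnpq hs2, Isom.smul_st, hndef, hadef]
    noncomm_ring

end P193
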