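import Vale.Agent.Lib.P193.Two.SimpA
import Vale.Agent.Lib.P193.Two.SimpB
import Vale.Agent.Lib.P193.Two.ElD
import Vale.Agent.Lib.P193.Two.Trans

/-!
# P193 part II, section 3: simplicity.
-/

namespace P193

universe u v

variable {R : Type u} [Ring R] [CharP R 2]

/-- For a Leavitt family `τ` of size 3 every pair `(τ_i, τ_j)` has room; `trans_adj` moves `(p, d)` to it, so
`1 + τ_i r τ_j* ∈ N` and `N ≥ El τ = ⊤`. -/
theorem normal_eq_top (hL : HLeavitt R) (hS : HScal R) (hR : HRep R) (N : Subgroup Rˣ) [N.Normal]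
    {p d : Isom R} (hpd : Adj p d) (h : ∀ r : R, ∃ u ∈ N, (u : R) = 1 + p.val * r * d.st) :
    N = ⊤ := by
  obtain ⟨τ, hτ⟩ := exists_lf hL (Fin 3)
  have hEl : El τ = ⊤ := El_eq_top hL hS hR hτ
  rw [eq_top_iff, ← hEl, El, Subgroup.closure_le]
  rintro x ⟨i, j, hij, r, hx⟩
  have hk : ∀ i j : Fin 3, ∃ k, k ≠ i ∧ k ≠ j := by decide
  obtain ⟨k, hki, hkj⟩ := hk i j
  have hadj : Adj (τ i) (τ j) := ⟨hτ.1 i j hij, τ k, hτ.1 i k hki.symm, hτ.1 j k hkj.symm⟩
  obtain ⟨g, hg1, hg2⟩ := trans_adj hL hpd hadj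
  obtain ⟨u, huN, hu⟩ := h r
  have hxe : x = g * u * g⁻¹ := by
    refine Units.ext ?_
    rw [hx, Units.val_mul, Units.val_mul, hu, ← hg1, ← hg2, Isom.smul_val, Isom.smul_st, mul_add,
      add_mul, mul_one, Units.mul_inv]
    simp only [mul_assoc]
  rw [hxe]
  exact Subgroup.Normal.conj_mem inferInstance u huN g

/-- `simp_start`, `simp_generic`, `simp_comm`, `normal_eq_top`; nontrivial: `1 + s0 s1* ≠ 1`. -/
theorem isSimple_units (hL : HLeavitt R) (hS : HScal R) (hR : HRep R) (hP : HPure R) :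
    IsSimpleGroup Rˣ := by
  have h10 : (1 : R) ≠ 0 := by
    intro h
    have h1 : ((1 : ℕ) : R) = 0 := by rw [Nat.cast_one, h]
    have h2 : 2 ∣ 1 := (CharP.cast_eq_zero_iff R 2 1).1 h1
    omega
  have hnt : Nontrivial Rˣ := by
    obtain ⟨s0, s1, ⟨ho1, ho2⟩, -⟩ := hL
    have hsq : s0.val * s1.st * (s0.val * s1.st) = 0 := by
      rw [mul_assoc, ← mul_assoc s1.st, ho2, zero_mul, mul_zero]
    refine ⟨⟨tv (s0.val * s1.st) hsq, 1, fun h => h10 ?_⟩⟩
    have h1 : (1 : R) + s0.val * s1.st = 1 := by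
      have := congrArg (fun x : Rˣ => (x : R)) h
      simpa using this
    have h2 : s0.val * s1.st = 0 := by
      have := add_eq_left.1 h1
      exact this
    calc (1 : R) = s0.st * (s0.val * s1.st) * s1.val := by
          rw [Isom.st_val_mul, s1.st_val]
      _ = 0 := by rw [h2, mul_zero, zero_mul]
  refine { toNontrivial := hnt, eq_bot_or_eq_top_of_normal := fun N hN => ?_ }
  by_cases hb : N = ⊥
  · exact Or.inl hb
  right
  obtain ⟨g, hgN, hg1⟩ : ∃ g ∈ N, g ≠ 1 := by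
    by_contra hcon
    push Not at hcon
    exact hb ((Subgroup.eq_bot_iff_forall N).2 hcon)
  obtain ⟨c', q', hcq⟩ := simp_start hP hS g hg1
  obtain ⟨a, d, p, z, h1, h2, h3, h4, h5, h6, h7, h8, h9⟩ := simp_generic hL hS g c' q'
  have hcomm := simp_comm N g hgN (c' * a.val) (a.st * q') d p h1 h2 h3 h4 h5 h8
  have e1 : a.st * q' * (g : R) * (c' * a.val) = a.st * (q' * g * c') * a.val := by
    simp only [mul_assoc]
  have e2 : a.st * q' * (c' * a.val) = a.st * (q' * c') * a.val := by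
    simp only [mul_assoc]
  rcases hcq with ⟨k1, k2⟩ | ⟨k1, k2⟩
  · refine normal_eq_top hL hS hR N (p := p) (d := g • d) ⟨h8, z, h6, h9.symm⟩ fun r => ?_
    obtain ⟨u, huN, hu⟩ := hcomm r
    refine ⟨u, huN, ?_⟩
    rw [hu, e1, e2, k1, k2, mul_one, a.st_val, mul_zero, zero_mul, mul_zero, zero_mul, zero_mul,
      add_zero, mul_one]
  · refine normal_eq_top hL hS hR N (p := p) (d := d) ⟨h5, z, h6, h7⟩ fun r => ?_
    obtain ⟨u, huN, hu⟩ := hcomm r
    refine ⟨u, huN, ?_⟩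
    rw [hu, e1, e2, k1, k2, mul_one, a.st_val, mul_zero, zero_mul, mul_zero, zero_mul, zero_mul,
      add_zero, mul_one]

end P193
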