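import Vale.Agent.Lib.P193.Two.StCol

/-!
# P193 part II, section 4, (a): elements of `St κ R` with trivial matrix become central in `St (Option κ) R`.
-/

namespace P193

universe u v w

open scoped commutatorElement

variable {R : Type u} [Ring R] {κ : Type v} [Fintype κ] [DecidableEq κ]

/-- the `x_(i,∞)(r)` and `x_(∞,i)(r)` generate `St (Option κ) R` (`x_ij(r) = ⁅x_(i,∞)(r), x_(∞,j)(1)⁆` for `i ≠ j`) -/
theorem closure_col_row : Subgroup.closure {g : St (Option κ) R | ∃ (i : κ) (r : R),
    g = St.x (some i) none r ∨ g = St.x none (some i) r} = ⊤ := by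
  rw [eq_top_iff, ← St.closure_eq_top (Option κ) R, Subgroup.closure_le]
  rintro _ ⟨i, j, r, rfl⟩
  have hc : ∀ (i : κ) (r : R), St.x (some i) none r ∈
      Subgroup.closure {g : St (Option κ) R | ∃ (i : κ) (r : R),
        g = St.x (some i) none r ∨ g = St.x none (some i) r} := fun i r =>
    Subgroup.subset_closure ⟨i, r, Or.inl rfl⟩
  have hr : ∀ (i : κ) (r : R), St.x none (some i) r ∈
      Subgroup.closure {g : St (Option κ) R | ∃ (i : κ) (r : R),
        g = St.x (some i) none r ∨ g = St.x none (some i) r} := fun i r =>
    Subgroup.subset_closure ⟨i, r, Or.inr rfl⟩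
  rw [SetLike.mem_coe]
  rcases i with _ | i <;> rcases j with _ | j
  · rw [St.diag]
    exact one_mem _
  · exact hr j r
  · exact hc i r
  · by_cases hij : i = j
    · subst hij
      rw [St.diag]
      exact one_mem _
    · have h := St.comm3 (some i) (none : Option κ) (some j) r 1 (Option.some_ne_none i)
        (Option.some_ne_none j).symm (fun h => hij (Option.some_injective _ h))
      rw [mul_one] at h
      rw [← h, commutatorElement_def]
      exact mul_mem (mul_mem (mul_mem (hc i r) (hr j 1)) (inv_mem (hc i r))) (inv_mem (hr j 1))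

theorem central_of_mat (y : St κ R) (hy : mat y = 1) (g : St (Option κ) R) :
    Commute (St.mapIdx Function.Embedding.some y) g := by
  obtain ⟨X, hX⟩ := exists_col (R := R) (κ := κ)
  obtain ⟨Y, hY⟩ := exists_row (R := R) (κ := κ)
  have hg : g ∈ Subgroup.closure {g : St (Option κ) R | ∃ (i : κ) (r : R),
      g = St.x (some i) none r ∨ g = St.x none (some i) r} := by
    rw [closure_col_row]
    exact Subgroup.mem_top g
  induction hg using Subgroup.closure_induction with
  | mem x hx =>
    obtain ⟨i, r, rfl | rfl⟩ := hx
    · have h := col_conj X hX y (Pi.single i r)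
      rw [hy, Units.val_one, Matrix.one_mulVec, hX, mul_inv_eq_iff_eq_mul] at h
      exact h
    · have h := row_conj Y hY y (Pi.single i r)
      rw [hy, Units.val_one, Matrix.vecMul_one, hY, mul_assoc, inv_mul_eq_iff_eq_mul] at h
      exact h.symm
  | one => exact Commute.one_right _
  | mul a b _ _ ha hb => exact ha.mul_right hb
  | inv a _ ha => exact ha.inv_right

end P193
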