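import Vale.Agent.Lib.P193.Two.StMat

/-!
# P193 part II, section 4, (a): elements of `St κ R` with trivial matrix become central in `St (Option κ) R`.
-/

namespace P193

universe u v w

open scoped commutatorElement

variable {R : Type u} [Ring R] {κ : Type v} [Fintype κ] [DecidableEq κ]

/-- the homomorphism `r ↦ x_ij(r)` -/
private def stCol_x (i j : Option κ) : Multiplicative R →* St (Option κ) R where
  toFun r := St.x i j (Multiplicative.toAdd r)
  map_one' := St.x_zero i j
  map_mul' _ _ := (St.add i j _ _).symm

/-- `Multiplicative` of functions as functions to `Multiplicative` -/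
private def stCol_mul : Multiplicative (κ → R) →* (κ → Multiplicative R) where
  toFun c i := Multiplicative.ofAdd (Multiplicative.toAdd c i)
  map_one' := rfl
  map_mul' _ _ := rfl

omit [Fintype κ] in
private theorem stCol_mul_single (i : κ) (r : R) :
    stCol_mul (Multiplicative.ofAdd (Pi.single i r)) =
      Pi.mulSingle i (Multiplicative.ofAdd r) := by
  ext j
  by_cases h : j = i
  · subst h
    simp [stCol_mul]
  · simp [stCol_mul, Pi.mulSingle_eq_of_ne h, Pi.single_eq_of_ne h]

/-- two homomorphisms on columns are equal if they agree on the single ones -/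
private theorem stCol_ext {G : Type w} [Group G] (f g : Multiplicative (κ → R) →* G)
    (h : ∀ (i : κ) (r : R), f (Multiplicative.ofAdd (Pi.single i r)) =
      g (Multiplicative.ofAdd (Pi.single i r))) (c : κ → R) :
    f (Multiplicative.ofAdd c) = g (Multiplicative.ofAdd c) := by
  have key : ∀ s : Finset κ, f (Multiplicative.ofAdd (∑ i ∈ s, Pi.single i (c i))) =
      g (Multiplicative.ofAdd (∑ i ∈ s, Pi.single i (c i))) := by
    intro s
    induction s using Finset.induction_on with
    | empty => simp
    | insert a s ha ih =>
      rw [Finset.sum_insert ha, ofAdd_add, map_mul, map_mul, ih, h]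
  have h2 := key Finset.univ
  rwa [Finset.univ_sum_single] at h2

/-- `X(c) = Π_i x_(i,∞)(c_i)`, a homomorphism on columns (`MonoidHom.noncommPiCoprod`; the factors commute) -/
theorem exists_col : ∃ X : Multiplicative (κ → R) →* St (Option κ) R,
    ∀ (i : κ) (r : R), X (Multiplicative.ofAdd (Pi.single i r)) = St.x (some i) none r := by
  have hcomm : Pairwise fun i j : κ => ∀ x y : Multiplicative R,
      Commute (stCol_x (R := R) (some i) none x) (stCol_x (R := R) (some j) none y) :=
    fun i j _ x y => St.comm1 _ _ _ _ _ _ (Option.some_ne_none _) (Option.some_ne_none _)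
      (Option.some_ne_none _).symm (Option.some_ne_none _)
  refine ⟨(MonoidHom.noncommPiCoprod (fun i : κ => stCol_x (R := R) (some i) none) hcomm).comp
    stCol_mul, fun i r => ?_⟩
  rw [MonoidHom.comp_apply, stCol_mul_single]
  exact MonoidHom.noncommPiCoprod_mulSingle (fun i : κ => stCol_x (R := R) (some i) none) (hcomm := hcomm) i
    (Multiplicative.ofAdd r)

/-- `X(c) = Π_i x_(∞,i)(c_i)`, a homomorphism on rows -/
theorem exists_row : ∃ X : Multiplicative (κ → R) →* St (Option κ) R,
    ∀ (i : κ) (r : R), X (Multiplicative.ofAdd (Pi.single i r)) = St.x none (some i) r := by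
  have hcomm : Pairwise fun i j : κ => ∀ x y : Multiplicative R,
      Commute (stCol_x (R := R) none (some i) x) (stCol_x (R := R) none (some j) y) :=
    fun i j _ x y => St.comm1 _ _ _ _ _ _ (Option.some_ne_none _).symm
      (Option.some_ne_none _).symm (Option.some_ne_none _) (Option.some_ne_none _).symm
  refine ⟨(MonoidHom.noncommPiCoprod (fun i : κ => stCol_x (R := R) none (some i)) hcomm).comp
    stCol_mul, fun i r => ?_⟩
  rw [MonoidHom.comp_apply, stCol_mul_single]
  exact MonoidHom.noncommPiCoprod_mulSingle (fun i : κ => stCol_x (R := R) none (some i)) (hcomm := hcomm) i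
    (Multiplicative.ofAdd r)

/-- `ι(y) X(c) ι(y)⁻¹ = X(M_y c)`: enough for generators `y = x_ij(r)` (both sides are multiplicative in `y`) and
`c = Pi.single k s` (both sides are homomorphisms in `c`). -/
theorem col_conj (X : Multiplicative (κ → R) →* St (Option κ) R)
    (hX : ∀ (i : κ) (r : R), X (Multiplicative.ofAdd (Pi.single i r)) = St.x (some i) none r)
    (y : St κ R) (c : κ → R) :
    St.mapIdx Function.Embedding.some y * X (Multiplicative.ofAdd c) *
      (St.mapIdx Function.Embedding.some y)⁻¹ =
      X (Multiplicative.ofAdd ((mat y : Matrix κ κ R).mulVec c)) := by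
  have hy : y ∈ Subgroup.closure {g : St κ R | ∃ i j r, g = St.x i j r} := by
    rw [St.closure_eq_top]
    trivial
  induction hy using Subgroup.closure_induction generalizing c with
  | mem y hy =>
    obtain ⟨i, j, r, rfl⟩ := hy
    by_cases hij : i = j
    · subst hij
      simp [St.diag]
    · rw [mat_x hij, St.mapIdx_x]
      let f : Multiplicative (κ → R) →* St (Option κ) R :=
        (MulAut.conj (St.x (some i) (some j) r)).toMonoidHom.comp X
      let g : Multiplicative (κ → R) →* St (Option κ) R :=
        X.comp (AddMonoidHom.toMultiplicative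
          { toFun := fun c : κ → R => (1 + Matrix.single i j r : Matrix κ κ R).mulVec c
            map_zero' := Matrix.mulVec_zero _
            map_add' := Matrix.mulVec_add _ })
      refine stCol_ext f g (fun k s => ?_) c
      show St.x (some i) (some j) r * X (Multiplicative.ofAdd (Pi.single k s)) *
        (St.x (some i) (some j) r)⁻¹ = X (Multiplicative.ofAdd
          ((1 + Matrix.single i j r : Matrix κ κ R).mulVec (Pi.single k s)))
      rw [Matrix.add_mulVec, Matrix.one_mulVec, hX]
      by_cases hjk : j = k
      · subst hjk
        have h1 : (Matrix.single i j r : Matrix κ κ R).mulVec (Pi.single j s) =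
            Pi.single i (r * s) := by
          rw [Matrix.single_mulVec, Pi.single_eq_same]
          rfl
        rw [h1, ofAdd_add, map_mul, hX, hX, St.conj_l _ _ _ _ _ (by simpa using hij) (by simp)
          (by simp)]
        exact (St.comm1 _ _ _ _ _ _ (by simp) (by simp) (by simp) (by simp)).eq
      · have h1 : (Matrix.single i j r : Matrix κ κ R).mulVec (Pi.single k s) = 0 := by
          rw [Matrix.single_mulVec, Pi.single_eq_of_ne hjk, mul_zero]
          exact Function.update_eq_self i (0 : κ → R)
        rw [h1, add_zero, hX, (St.comm1 (some i) (some j) (some k) none r s (by simpa using hij)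
          (by simp) (by simpa using hjk) (by simp)).eq, mul_inv_cancel_right]
  | one => simp
  | mul y z _ _ hy hz =>
    rw [map_mul, map_mul, Units.val_mul, ← Matrix.mulVec_mulVec, ← hy, ← hz, mul_inv_rev]
    simp only [mul_assoc]
  | inv y _ hy =>
    have h1 := hy (((mat y)⁻¹ : (Matrix κ κ R)ˣ).val.mulVec c)
    rw [Matrix.mulVec_mulVec, Units.mul_inv, Matrix.one_mulVec] at h1
    rw [map_inv, map_inv, inv_inv, ← h1]
    simp only [mul_assoc, inv_mul_cancel_left, inv_mul_cancel, mul_one]

/-- the same for rows: `ι(y)⁻¹ X(c) ι(y) = X(c M_y)` -/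
theorem row_conj (X : Multiplicative (κ → R) →* St (Option κ) R)
    (hX : ∀ (i : κ) (r : R), X (Multiplicative.ofAdd (Pi.single i r)) = St.x none (some i) r)
    (y : St κ R) (c : κ → R) :
    (St.mapIdx Function.Embedding.some y)⁻¹ * X (Multiplicative.ofAdd c) *
      St.mapIdx Function.Embedding.some y =
      X (Multiplicative.ofAdd (Matrix.vecMul c (mat y : Matrix κ κ R))) := by
  have hy : y ∈ Subgroup.closure {g : St κ R | ∃ i j r, g = St.x i j r} := by
    rw [St.closure_eq_top]
    trivial
  induction hy using Subgroup.closure_induction generalizing c with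
  | mem y hy =>
    obtain ⟨i, j, r, rfl⟩ := hy
    by_cases hij : i = j
    · subst hij
      simp [St.diag]
    · rw [mat_x hij, St.mapIdx_x]
      let f : Multiplicative (κ → R) →* St (Option κ) R :=
        (MulAut.conj (St.x (some i) (some j) r)⁻¹).toMonoidHom.comp X
      let g : Multiplicative (κ → R) →* St (Option κ) R :=
        X.comp (AddMonoidHom.toMultiplicative
          { toFun := fun c : κ → R => Matrix.vecMul c (1 + Matrix.single i j r : Matrix κ κ R)
            map_zero' := Matrix.zero_vecMul _
            map_add' := fun a b => Matrix.add_vecMul _ a b })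
      have key := stCol_ext f g (fun k s => ?_) c
      · have h2 : (St.x (some i) (some j) r)⁻¹ * X (Multiplicative.ofAdd c) *
            ((St.x (some i) (some j) r)⁻¹)⁻¹ = X (Multiplicative.ofAdd
            (Matrix.vecMul c (1 + Matrix.single i j r : Matrix κ κ R))) := key
        rwa [inv_inv] at h2
      show (St.x (some i) (some j) r)⁻¹ * X (Multiplicative.ofAdd (Pi.single k s)) *
        ((St.x (some i) (some j) r)⁻¹)⁻¹ = X (Multiplicative.ofAdd
          (Matrix.vecMul (Pi.single k s) (1 + Matrix.single i j r : Matrix κ κ R)))
      rw [inv_inv, Matrix.vecMul_add, Matrix.vecMul_one, hX]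
      by_cases hik : i = k
      · subst hik
        have h1 : Matrix.vecMul (Pi.single i s) (Matrix.single i j r : Matrix κ κ R) =
            Pi.single j (s * r) := by
          rw [Matrix.single_vecMul]
          ext l
          by_cases hl : l = j
          · subst hl
            simp
          · simp [Matrix.single, hl, Ne.symm hl]
        have h3 := St.comm3 none (some i) (some j) s r (by simp) (by simpa using hij) (by simp)
        have h4 : Commute (St.x (some i) (some j) r) (St.x (none : Option κ) (some j) (s * r)) :=
          St.comm1 _ _ _ _ _ _ (by simpa using hij) (by simp) (by simp) (by simpa using hij)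
        rw [h1, ofAdd_add, map_mul, hX, hX]
        have h5 : St.x (none : Option κ) (some i) s * St.x (some i) (some j) r =
            St.x (none : Option κ) (some j) (s * r) * (St.x (some i) (some j) r *
              St.x (none : Option κ) (some i) s) := by
          rw [← h3, commutatorElement_def]
          group
        rw [mul_assoc, h5, ← mul_assoc (St.x (none : Option κ) (some j) (s * r)), ← h4.eq,
          mul_assoc, inv_mul_cancel_left]
        exact (St.comm1 _ _ _ _ _ _ (by simp) (by simp) (by simp) (by simp)).eq
      · have h1 : Matrix.vecMul (Pi.single k s) (Matrix.single i j r : Matrix κ κ R) = 0 := by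
          rw [Matrix.single_vecMul]
          ext l
          simp [Matrix.single, hik]
        rw [h1, add_zero, hX, mul_assoc, (St.comm1 none (some k) (some i) (some j) s r (by simp)
          (by simpa using hij) (by simpa using Ne.symm hik) (by simp)).eq, inv_mul_cancel_left]
  | one => simp
  | mul y z _ _ hy hz =>
    rw [map_mul, map_mul, Units.val_mul, ← Matrix.vecMul_vecMul, ← hz, ← hy, mul_inv_rev]
    simp only [mul_assoc]
  | inv y _ hy =>
    have h1 := hy (Matrix.vecMul c ((mat y)⁻¹ : (Matrix κ κ R)ˣ).val)
    rw [Matrix.vecMul_vecMul, Units.inv_mul, Matrix.vecMul_one] at h1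
    rw [map_inv, map_inv, inv_inv, ← h1]
    simp only [mul_assoc, mul_inv_cancel_left, mul_inv_cancel, mul_one]

end P193
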