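import Vale.Agent.Lib.P193.Defs

/-!
# P193 part II, section 4: functoriality of Steinberg groups (characteristic 2 facts).
-/

namespace P193

universe u v w

open scoped commutatorElement

variable {R : Type u} [Ring R] {ι : Type v} {κ : Type w}

/-- change of the index set along an injective map -/
def St.mapIdx (f : ι ↪ κ) : St ι R →* St κ R :=
  St.lift
    { x := fun i j r => St.x (f i) (f j) r
      diag := fun i r => St.diag (f i) r
      add := fun i j r s => St.add (f i) (f j) r s
      comm3 := fun i j k r s h1 h2 h3 => St.comm3 (f i) (f j) (f k) r s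
        (f.injective.ne h1) (f.injective.ne h2) (f.injective.ne h3)
      comm1 := fun i j k l r s h1 h2 h3 h4 => St.comm1 (f i) (f j) (f k) (f l) r s
        (f.injective.ne h1) (f.injective.ne h2) (f.injective.ne h3) (f.injective.ne h4) }

theorem St.mapIdx_x (f : ι ↪ κ) (i j : ι) (r : R) :
    St.mapIdx f (St.x i j r) = St.x (f i) (f j) r := by
  rw [St.mapIdx, St.lift_x]

/-- change of the ring along a NON-UNITAL ring homomorphism -/
def St.mapRing {S : Type u} [Ring S] (α : R →ₙ+* S) : St ι R →* St ι S :=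
  St.lift
    { x := fun i j r => St.x i j (α r)
      diag := fun i r => St.diag i (α r)
      add := fun i j r s => by rw [map_add]; exact St.add i j (α r) (α s)
      comm3 := fun i j k r s h1 h2 h3 => by
        rw [map_mul]; exact St.comm3 i j k (α r) (α s) h1 h2 h3
      comm1 := fun i j k l r s h1 h2 h3 h4 => St.comm1 i j k l (α r) (α s) h1 h2 h3 h4 }

theorem St.mapRing_x {S : Type u} [Ring S] (α : R →ₙ+* S) (i j : ι) (r : R) :
    St.mapRing α (St.x i j r) = St.x i j (α r) := by
  rw [St.mapRing, St.lift_x]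

theorem St.x_zero (i j : ι) : St.x i j (0 : R) = 1 := by
  have h := St.add i j (0 : R) 0
  rw [add_zero] at h
  exact mul_eq_left.1 h

theorem St.x_sq [CharP R 2] (i j : ι) (r : R) : St.x i j r * St.x i j r = 1 := by
  rw [St.add, CharTwo.add_self_eq_zero, St.x_zero]

theorem St.x_inv [CharP R 2] (i j : ι) (r : R) : (St.x i j r)⁻¹ = St.x i j r := by
  exact inv_eq_of_mul_eq_one_right (St.x_sq i j r)

/-- conjugation form of `comm3`: `x_ij(r) x_jk(s) x_ij(r)⁻¹ = x_ik(r s) x_jk(s)` -/
theorem St.conj_l (i j k : ι) (r s : R) (h1 : i ≠ j) (h2 : j ≠ k) (h3 : i ≠ k) :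
    St.x i j r * St.x j k s * (St.x i j r)⁻¹ = St.x i k (r * s) * St.x j k s := by
  have h := St.comm3 i j k r s h1 h2 h3
  rw [commutatorElement_def, mul_inv_eq_iff_eq_mul] at h
  exact h

/-- conjugation form of `comm3`: `x_jk(s) x_ij(r) x_jk(s)⁻¹ = x_ij(r) x_ik(- r s)`, and `-1 = 1` -/
theorem St.conj_r [CharP R 2] (i j k : ι) (r s : R) (h1 : i ≠ j) (h2 : j ≠ k) (h3 : i ≠ k) :
    St.x j k s * St.x i j r * (St.x j k s)⁻¹ = St.x i j r * St.x i k (r * s) := by
  have h := St.comm3 i j k r s h1 h2 h3
  rw [commutatorElement_def] at h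
  have h4 : St.x j k s * St.x i j r * (St.x j k s)⁻¹ * (St.x i j r)⁻¹ = (St.x i k (r * s))⁻¹ := by
    rw [← h]; group
  rw [mul_inv_eq_iff_eq_mul] at h4
  rw [h4, St.x_inv]
  exact (St.comm1 i k i j (r * s) r h3 h1 h3.symm h1).eq

/-- conjugation by an isometry, `r ↦ u r u*` (a non-unital ring homomorphism) -/
def conjHom (t : Isom R) : R →ₙ+* R where
  toFun r := t.val * r * t.st
  map_mul' r s := by
    show t.val * (r * s) * t.st = t.val * r * t.st * (t.val * s * t.st)
    have h := t.st_val
    calc t.val * (r * s) * t.st = t.val * r * 1 * s * t.st := by noncomm_ring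
      _ = t.val * r * (t.st * t.val) * s * t.st := by rw [h]
      _ = t.val * r * t.st * (t.val * s * t.st) := by noncomm_ring
  map_zero' := by simp
  map_add' r s := by
    show t.val * (r + s) * t.st = t.val * r * t.st + t.val * s * t.st
    noncomm_ring

@[simp] theorem conjHom_apply (t : Isom R) (r : R) : conjHom t r = t.val * r * t.st := rfl

end P193
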