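import Vale.Agent.Lib.P193.Two.StMap

/-!
# P193 part II, section 4: the matrix of an element of the Steinberg group.
-/

namespace P193

universe u v w

open scoped commutatorElement

variable {R : Type u} [Ring R] {ι : Type v} [Fintype ι] [DecidableEq ι]

private lemma StMat_mul0 {i j k l : ι} (h : j ≠ k) (r s : R) :
    (Matrix.single i j r : Matrix ι ι R) * Matrix.single k l s = 0 :=
  Matrix.single_mul_single_of_ne _ _ _ _ h _

private lemma StMat_add {i j : ι} (h : i ≠ j) (r s : R) :
    (1 + Matrix.single i j r : Matrix ι ι R) * (1 + Matrix.single i j s)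
      = 1 + Matrix.single i j (r + s) := by
  rw [add_mul, mul_add, mul_add, one_mul, one_mul, mul_one, StMat_mul0 h.symm, add_zero,
    Matrix.single_add, add_assoc, add_comm (Matrix.single i j s)]

/-- the elementary unit `1 + r E_ij`, `i ≠ j` -/
private def StMat_e {i j : ι} (h : i ≠ j) (r : R) : (Matrix ι ι R)ˣ where
  val := 1 + Matrix.single i j r
  inv := 1 + Matrix.single i j (-r)
  val_inv := by rw [StMat_add h, add_neg_cancel, Matrix.single_zero, add_zero]
  inv_val := by rw [StMat_add h, neg_add_cancel, Matrix.single_zero, add_zero]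

private lemma StMat_e_val {i j : ι} (h : i ≠ j) (r : R) :
    ((StMat_e h r : (Matrix ι ι R)ˣ) : Matrix ι ι R) = 1 + Matrix.single i j r := rfl

/-- the elementary unit, `1` on the diagonal -/
private def StMat_x (i j : ι) (r : R) : (Matrix ι ι R)ˣ :=
  if h : i ≠ j then StMat_e h r else 1

private lemma StMat_x_of {i j : ι} (h : i ≠ j) (r : R) :
    (StMat_x i j r : (Matrix ι ι R)ˣ) = StMat_e h r := dif_pos h

private lemma StMat_comm3 {i j k : ι} (h1 : i ≠ j) (h2 : j ≠ k) (h3 : i ≠ k) (r s : R) :
    ⁅(StMat_x i j r : (Matrix ι ι R)ˣ), StMat_x j k s⁆ = StMat_x i k (r * s) := by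
  rw [StMat_x_of h1, StMat_x_of h2, StMat_x_of h3, commutatorElement_def,
    mul_inv_eq_iff_eq_mul, mul_inv_eq_iff_eq_mul]
  apply Units.ext
  rw [Units.val_mul, Units.val_mul, Units.val_mul, StMat_e_val, StMat_e_val, StMat_e_val]
  have hAB : (Matrix.single i j r : Matrix ι ι R) * Matrix.single j k s
      = Matrix.single i k (r * s) := Matrix.single_mul_single_same _ _ _ _ _
  have hBA : (Matrix.single j k s : Matrix ι ι R) * Matrix.single i j r = 0 :=
    StMat_mul0 h3.symm _ _
  have hCB : (Matrix.single i k (r * s) : Matrix ι ι R) * Matrix.single j k s = 0 :=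
    StMat_mul0 h2.symm _ _
  have hCA : (Matrix.single i k (r * s) : Matrix ι ι R) * Matrix.single i j r = 0 :=
    StMat_mul0 h3.symm _ _
  generalize (Matrix.single i j r : Matrix ι ι R) = A at *
  generalize (Matrix.single j k s : Matrix ι ι R) = B at *
  generalize (Matrix.single i k (r * s) : Matrix ι ι R) = C at *
  have e1 : (1 + A) * (1 + B) = 1 + A + B + A * B := by noncomm_ring
  have e2 : (1 + C) * (1 + B) * (1 + A) = 1 + A + B + C + B * A + C * B + C * A + (C * B) * A := by
    noncomm_ring
  rw [e1, e2, hAB, hBA, hCB, hCA, zero_mul, add_zero, add_zero, add_zero, add_zero]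

private lemma StMat_comm1 {i j k l : ι} (h1 : i ≠ j) (h2 : k ≠ l) (h3 : j ≠ k) (h4 : i ≠ l)
    (r s : R) : Commute (StMat_x i j r : (Matrix ι ι R)ˣ) (StMat_x k l s) := by
  rw [StMat_x_of h1, StMat_x_of h2]
  apply Units.ext
  rw [Units.val_mul, Units.val_mul, StMat_e_val, StMat_e_val]
  have hAB : (Matrix.single i j r : Matrix ι ι R) * Matrix.single k l s = 0 := StMat_mul0 h3 _ _
  have hBA : (Matrix.single k l s : Matrix ι ι R) * Matrix.single i j r = 0 :=
    StMat_mul0 h4.symm _ _
  rw [add_mul, mul_add, mul_add, one_mul, one_mul, mul_one, hAB, add_zero,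
    add_mul, mul_add, mul_add, one_mul, one_mul, mul_one, hBA, add_zero]
  abel

/-- Steinberg data in the matrix units -/
private def StMat_data : StData ι R (Matrix ι ι R)ˣ where
  x := StMat_x
  diag i r := dif_neg (fun h => h rfl)
  add i j r s := by
    by_cases h : i ≠ j
    · rw [StMat_x_of h, StMat_x_of h, StMat_x_of h]
      exact Units.ext (StMat_add h r s)
    · show (StMat_x i j r : (Matrix ι ι R)ˣ) * StMat_x i j s = StMat_x i j (r + s)
      unfold StMat_x
      rw [dif_neg h, dif_neg h, dif_neg h, one_mul]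
  comm3 i j k r s h1 h2 h3 := StMat_comm3 h1 h2 h3 r s
  comm1 i j k l r s h1 h2 h3 h4 := StMat_comm1 h1 h2 h3 h4 r s

/-- `x_ij(r) ↦ 1 + r E_ij` (inverse `1 - r E_ij`) -/
noncomputable def mat : St ι R →* (Matrix ι ι R)ˣ := St.lift StMat_data

theorem mat_x {i j : ι} (hij : i ≠ j) (r : R) :
    (mat (St.x i j r) : Matrix ι ι R) = 1 + Matrix.single i j r := by
  have h : mat (St.x i j r) = (StMat_x i j r : (Matrix ι ι R)ˣ) := St.lift_x _ _ _ _
  rw [h, StMat_x_of hij, StMat_e_val]

private lemma StMat_map_mul (α : R →ₙ+* R) (M N : Matrix ι ι R) :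
    (M * N).map α = M.map α * N.map α := by
  ext i j
  simp only [Matrix.map_apply, Matrix.mul_apply, map_sum, map_mul]

private lemma StMat_map_add (α : R →ₙ+* R) (M N : Matrix ι ι R) :
    (M + N).map α = M.map α + N.map α := by
  ext i j
  simp only [Matrix.map_apply, Matrix.add_apply, map_add]

/-- `M ↦ 1 + α(M - 1)` -/
private def StMat_F (α : R →ₙ+* R) : Matrix ι ι R →* Matrix ι ι R where
  toFun M := 1 + (M - 1).map α
  map_one' := by
    rw [sub_self]
    have : (0 : Matrix ι ι R).map α = 0 := by
      ext i j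
      simp
    rw [this, add_zero]
  map_mul' M N := by
    have h : M * N - 1 = (M - 1) + (N - 1) + (M - 1) * (N - 1) := by noncomm_ring
    rw [h, StMat_map_add, StMat_map_add, StMat_map_mul]
    generalize (M - 1).map α = A
    generalize (N - 1).map α = B
    noncomm_ring

private lemma StMat_hom (α : R →ₙ+* R) :
    (mat.comp (St.mapRing α) : St ι R →* (Matrix ι ι R)ˣ)
      = (Units.map (StMat_F α)).comp mat := by
  apply St.hom_ext
  intro i j r
  rw [MonoidHom.comp_apply, MonoidHom.comp_apply, St.mapRing_x]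
  by_cases hij : i = j
  · subst hij
    rw [St.diag, St.diag, map_one, map_one]
  · apply Units.ext
    rw [mat_x hij, Units.coe_map, mat_x hij]
    show _ = 1 + ((1 + Matrix.single i j r) - 1 : Matrix ι ι R).map α
    rw [add_sub_cancel_left]
    congr 1
    ext a b
    rw [Matrix.map_apply, Matrix.single_apply, Matrix.single_apply]
    split_ifs
    · rfl
    · exact (map_zero α).symm

/-- `M ↦ 1 + α(M - 1)` (entrywise) is multiplicative; compare on generators -/
theorem mat_mapRing (α : R →ₙ+* R) (y : St ι R) :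
    (mat (St.mapRing α y) : Matrix ι ι R) = 1 + ((mat y : Matrix ι ι R) - 1).map α := by
  have h := DFunLike.congr_fun (StMat_hom (ι := ι) α) y
  have h2 := congrArg (fun z : (Matrix ι ι R)ˣ => (z : Matrix ι ι R)) h
  exact h2

theorem mat_mapRing_eq_one (α : R →ₙ+* R) (y : St ι R) (h : mat y = 1) :
    mat (St.mapRing α y) = 1 := by
  have h1 := DFunLike.congr_fun (StMat_hom (ι := ι) α) y
  rw [MonoidHom.comp_apply, MonoidHom.comp_apply, h, map_one] at h1
  exact h1

end P193
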